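import Vale.Agent.Lib.P368z.Lift

/-!
Circuits of any entangling depth: the rate is divided by `18 √M` at every layer other than the
first two and the last.
-/

open scoped BigOperators Matrix Matrix.Norms.L2Operator

namespace Vale.Agent.Lib.P368z

open Vale.Agent.Lib.P368x Vale.Agent.Lib.P368y

variable {N : ℕ}

/-- One more layer of a circuit in the rotating frame. -/
lemma frame_step (b : Fin N → M2) (hb : ∀ i, Uni (b i)) (L : Layer N) (V : OneQubitLayer N)
    (W : Op N) :
    V.op * L.op * (tensor b * W)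
      = tensor (fun i => V.mat i * b i) * (lop (L.gates.map fun g => g.conj b hb) * W) := by
  have h1 : tensor (fun i => V.mat i * b i) = V.op * tensor b := (tensor_mul _ b).symm
  rw [h1, ← L.conj_eq b hb]
  calc V.op * L.op * (tensor b * W)
      = V.op * 1 * L.op * (tensor b * W) := by rw [mul_one]
    _ = V.op * (tensor b * (tensor b)ᴴ) * L.op * (tensor b * W) := by rw [tensor_unitary' hb]
    _ = _ := by simp only [mul_assoc]

lemma unitary_step {W : Op N} (hW : Wᴴ * W = 1) (gs : List (RGate N)) :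
    (lop gs * W)ᴴ * (lop gs * W) = 1 := by
  rw [Matrix.conjTranspose_mul]
  calc Wᴴ * (lop gs)ᴴ * (lop gs * W) = Wᴴ * ((lop gs)ᴴ * lop gs) * W := by simp only [mul_assoc]
    _ = 1 := by rw [lop_unitary, mul_one, hW]

/-- The size parameter of a layer. -/
noncomputable def rateOf (s : Layer N × OneQubitLayer N) : ℝ :=
  18 * Real.sqrt ((max 2 s.1.gates.length : ℕ) : ℝ)

lemma rateOf_pos (s : Layer N × OneQubitLayer N) : 0 < rateOf s := by
  unfold rateOf
  have h : (0 : ℝ) < ((max 2 s.1.gates.length : ℕ) : ℝ) := by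
    have : 0 < max 2 s.1.gates.length := lt_of_lt_of_le (by norm_num) (le_max_left _ _)
    exact_mod_cast this
  have := Real.sqrt_pos.mpr h
  positivity

lemma prod_rate_pos (l : List (Layer N × OneQubitLayer N)) : 0 < (l.map rateOf).prod := by
  induction l with
  | nil => simp
  | cons s l ih =>
    rw [List.map_cons, List.prod_cons]
    exact mul_pos (rateOf_pos s) ih

/-- The chain of lifts. -/
theorem chain (I : Finset (Fin N)) (rest : List (Layer N × OneQubitLayer N)) :
    ∀ (b : Fin N → M2) (_ : ∀ i, Uni (b i)) (W : Op N) (_ : Wᴴ * W = 1) (ν : ℝ) (_ : 0 ≤ ν)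
      (_ : TestB I W (9 * Real.exp (-ν))),
      ∃ (b' : Fin N → M2) (W' : Op N), (∀ i, Uni (b' i)) ∧
        rest.foldl (fun U s => s.2.op * s.1.op * U) (tensor b * W) = tensor b' * W' ∧
        W'ᴴ * W' = 1 ∧ TestB I W' (9 * Real.exp (-(ν / (rest.map rateOf).prod))) := by
  induction rest with
  | nil =>
    intro b hb W hW ν _ hT
    refine ⟨b, W, hb, rfl, hW, ?_⟩
    simpa using hT
  | cons s rest ih =>
    intro b hb W hW ν hν hT
    obtain ⟨L, V⟩ := s
    set gs := L.gates.map fun g => g.conj b hb with hgs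
    have hd : gs.Pairwise fun g h => Disjoint g.S h.S := L.conj_pairwise b hb
    have hW1 := norm_of_unitary hW
    set M := max 2 L.gates.length with hM
    have hM2 : 2 ≤ M := le_max_left _ _
    have hlen : gs.length ≤ M := by
      rw [hgs, List.length_map]
      exact le_max_right _ _
    have hT' : TestB I (lop gs * W) (9 * Real.exp (-(ν / (18 * Real.sqrt M)))) := fun X hX =>
      test_step hW1 ν hν hT gs hd M hM2 X hX fun L' hL' _ => hL'.length_le.trans hlen
    have hr : 0 ≤ ν / (18 * Real.sqrt M) := by positivity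
    obtain ⟨b', W', h1, h2, h3, h4⟩ := ih (fun i => V.mat i * b i)
      (fun i => (V.mat_uni i).mul (hb i)) (lop gs * W) (unitary_step hW gs) _ hr hT'
    refine ⟨b', W', h1, ?_, h3, ?_⟩
    · rw [List.foldl_cons]
      simp only
      rw [frame_step b hb L V W]
      exact h2
    · have e : ν / (((L, V) :: rest).map rateOf).prod
          = ν / (18 * Real.sqrt M) / (rest.map rateOf).prod := by
        rw [List.map_cons, List.prod_cons, div_div]
        rfl
      rw [e]
      exact h4

/-- The last layer: a version of the conjugation formula which records the gate. -/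
lemma layer_conj_site' (gs : List (RGate N)) (hgs : gs.Pairwise fun g h => Disjoint g.S h.S)
    (q : Fin N) (p : M2) (hp : Proj1 p) :
    (lop gs)ᴴ * site q p * lop gs = site q p ∨
      ∃ X₁ X₂ : Fin N → M2, (∀ s, SiteOK (X₁ s)) ∧ (∀ s, SiteOK (X₂ s)) ∧
        (∃ g ∈ gs, q ∈ g.S ∧ ∀ s, s ∉ g.S → X₁ s = 1 ∧ X₂ s = 1) ∧
        (lop gs)ᴴ * site q p * lop gs = site q p + tensor X₁ - tensor X₂ := by
  induction gs with
  | nil => left; simp
  | cons g gs ih =>
    obtain ⟨hg, hgs'⟩ := List.pairwise_cons.mp hgs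
    have hunfold : (lop (g :: gs))ᴴ * site q p * lop (g :: gs)
        = (lop gs)ᴴ * (g.op * site q p * g.op) * lop gs := by
      rw [lop_cons, Matrix.conjTranspose_mul, g.herm]
      simp only [mul_assoc]
    by_cases hq : q ∈ g.S
    · right
      set r : M2 := 1 - (2 : ℂ) • g.ρ q with hr
      have hρ := g.hS q hq
      have hh : rᴴ = r := by
        rw [hr, Matrix.conjTranspose_sub, Matrix.conjTranspose_smul, hρ.herm]
        simp
      have hru : Uni r := by
        have hs : r * r = 1 := by
          simp only [hr, mul_sub, sub_mul, mul_one, one_mul, smul_mul_assoc, mul_smul_comm,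
            hρ.idem]
          ext a b
          simp only [Matrix.sub_apply, Matrix.smul_apply, smul_eq_mul]
          ring
        exact ⟨by rw [hh, hs], by rw [hh, hs]⟩
      have hprp : Proj1 (r * p * r) := by
        have := hp.conj hru
        rwa [hh] at this
      have ok : ∀ (A : M2), Proj1 A → ∀ s, SiteOK (Function.update g.ρ q A s) := by
        intro A hA s
        by_cases hs : s = q
        · subst hs; simp only [Function.update_self]; exact Or.inr hA
        · simp only [Function.update_of_ne hs]; exact g.site_ok s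
      have hsup : ∀ (A : M2), ∀ s, s ∉ g.S → Function.update g.ρ q A s = 1 := by
        intro A s hs
        have hne : s ≠ q := fun h' => hs (h' ▸ hq)
        rw [Function.update_of_ne hne]
        exact g.hO s hs
      refine ⟨Function.update g.ρ q (r * p * r), Function.update g.ρ q p, ok _ hprp, ok _ hp,
        ⟨g, List.mem_cons_self .., hq, fun s hs => ⟨hsup _ s hs, hsup _ s hs⟩⟩, ?_⟩
      rw [hunfold, gate_conj_site g q p hq]
      have hsupp : ∀ (A : M2) , ∀ h ∈ gs, ∀ s ∈ h.S, Function.update g.ρ q A s = 1 := by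
        intro A h hh s hs
        have hd : s ∉ g.S := fun hs' => (Finset.disjoint_left.mp (hg h hh)) hs' hs
        exact hsup A s hd
      have c1 : Commute (lop gs) (site q p) := by
        apply lop_commute_tensor
        intro h hh s hs
        have hd : s ∉ g.S := fun hs' => (Finset.disjoint_left.mp (hg h hh)) hs' hs
        have hne : s ≠ q := fun h' => hd (h' ▸ hq)
        simp [hne]
      have c2 := lop_commute_tensor gs _ (hsupp (r * p * r))
      have c3 := lop_commute_tensor gs _ (hsupp p)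
      have c : Commute (lop gs) (site q p + tensor (Function.update g.ρ q (r * p * r))
          - tensor (Function.update g.ρ q p)) := (c1.add_right c2).sub_right c3
      rw [mul_assoc, ← c.eq, ← mul_assoc, lop_unitary, one_mul]
    · have hc : Commute g.op (site q p) := by
        refine Commute.sub_left (Commute.one_left _) (Commute.smul_left ?_ _)
        apply tensor_commute
        intro s
        by_cases hs : s ∈ g.S
        · right
          have : s ≠ q := fun h => hq (h ▸ hs)
          simp [this]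
        · left; exact g.hO s hs
      have hgg : g.op * site q p * g.op = site q p := by
        rw [hc.eq, mul_assoc, g.sq, mul_one]
      rw [hunfold, hgg]
      rcases ih hgs' with h | ⟨X₁, X₂, h1, h2, ⟨k, hk, h3⟩, h4⟩
      · exact Or.inl h
      · exact Or.inr ⟨X₁, X₂, h1, h2, ⟨k, List.mem_cons_of_mem _ hk, h3⟩, h4⟩

/-- The top of the circuit: the Pauli observable on the measured qubit. -/
theorem top_bound (I : Finset (Fin N)) (b : Fin N → M2) (hb : ∀ i, Uni (b i)) (W : Op N)
    (hW : Wᴴ * W = 1) (L : Layer N) (V : OneQubitLayer N) (q : Fin N) (ε : ℝ) (hε : 0 ≤ ε)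
    (hT : ∀ X : Fin N → M2, AllOK X →
      ((∀ s, s ≠ q → X s = 1) ∨ ∃ g ∈ L.gates, q ∈ g.support ∧ ∀ s, s ∉ g.support → X s = 1) →
      ‖E I (Wᴴ * tensor X * W) (zeroStr N) (zeroStr N)‖ ≤ ε) :
    ‖E I ((V.op * L.op * (tensor b * W))ᴴ * Zs q * (V.op * L.op * (tensor b * W)))
      (zeroStr N) (zeroStr N)‖ ≤ 7 * ε := by
  rw [frame_step b hb L V W]
  set c : Fin N → M2 := fun i => V.mat i * b i with hc
  have hcu : ∀ i, Uni (c i) := fun i => (V.mat_uni i).mul (hb i)
  set gs := L.gates.map fun g => g.conj b hb with hgs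
  have hd : gs.Pairwise fun g h => Disjoint g.S h.S := L.conj_pairwise b hb
  set G := lop gs with hG
  set p : M2 := (c q)ᴴ * e00 * c q with hp
  have hpP : Proj1 p := proj1_e00.conj (hcu q)
  have hO : (tensor c * (G * W))ᴴ * Zs q * (tensor c * (G * W))
      = (2 : ℂ) • (Wᴴ * (Gᴴ * site q p * G) * W) - 1 := by
    rw [Matrix.conjTranspose_mul, Matrix.conjTranspose_mul]
    calc Wᴴ * Gᴴ * (tensor c)ᴴ * Zs q * (tensor c * (G * W))
        = Wᴴ * (Gᴴ * ((tensor c)ᴴ * Zs q * tensor c) * G) * W := by simp only [mul_assoc]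
      _ = Wᴴ * (Gᴴ * ((2 : ℂ) • site q p - 1) * G) * W := by rw [conj_Zs c hcu q]
      _ = (2 : ℂ) • (Wᴴ * (Gᴴ * site q p * G) * W) - Wᴴ * (Gᴴ * G) * W := by
          simp only [mul_sub, sub_mul, mul_smul_comm, smul_mul_assoc, mul_one]
      _ = _ := by rw [lop_unitary, mul_one, hW]
  rw [hO, map_sub, map_smul]
  simp only [Matrix.sub_apply, Matrix.smul_apply, smul_eq_mul]
  have ksite : ‖E I (Wᴴ * site q p * W) (zeroStr N) (zeroStr N)‖ ≤ ε := by
    refine hT _ ?_ (Or.inl ?_)
    · intro s
      by_cases hs : s = q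
      · subst hs; simp only [Function.update_self]; exact Or.inr hpP
      · simp only [Function.update_of_ne hs]; exact Or.inl rfl
    · intro s hs
      simp [Function.update_of_ne hs]
  have kone : ‖E I (1 : Op N) (zeroStr N) (zeroStr N)‖ ≤ ε := by
    have := hT (fun _ => 1) (fun _ => Or.inl rfl) (Or.inl fun _ _ => rfl)
    rwa [tensor_one, mul_one, hW] at this
  have n2 : ‖(2 : ℂ)‖ = 2 := by norm_num
  have bound : ‖E I (Wᴴ * (Gᴴ * site q p * G) * W) (zeroStr N) (zeroStr N)‖ ≤ 3 * ε := by
    rcases layer_conj_site' gs hd q p hpP with h | ⟨X₁, X₂, hX₁, hX₂, ⟨g, hg, hq, hs⟩, h⟩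
    · rw [h]
      linarith
    · rw [h]
      obtain ⟨g₀, hg₀, rfl⟩ := List.mem_map.mp hg
      have e : Wᴴ * (site q p + tensor X₁ - tensor X₂) * W
          = Wᴴ * site q p * W + Wᴴ * tensor X₁ * W - Wᴴ * tensor X₂ * W := by
        simp only [mul_sub, mul_add, sub_mul, add_mul]
      rw [e, map_sub, map_add]
      simp only [Matrix.sub_apply, Matrix.add_apply]
      have a1 := hT X₁ hX₁ (Or.inr ⟨g₀, hg₀, hq, fun s h' => (hs s h').1⟩)
      have a2 := hT X₂ hX₂ (Or.inr ⟨g₀, hg₀, hq, fun s h' => (hs s h').2⟩)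
      have a3 := norm_sub_le (E I (Wᴴ * site q p * W) (zeroStr N) (zeroStr N)
        + E I (Wᴴ * tensor X₁ * W) (zeroStr N) (zeroStr N))
        (E I (Wᴴ * tensor X₂ * W) (zeroStr N) (zeroStr N))
      have a4 := norm_add_le (E I (Wᴴ * site q p * W) (zeroStr N) (zeroStr N))
        (E I (Wᴴ * tensor X₁ * W) (zeroStr N) (zeroStr N))
      linarith
  refine (norm_sub_le _ _).trans ?_
  rw [norm_mul, n2]
  linarith

/-- Two layers in the rotating frame: the base of the chain. -/
theorem base_two (I : Finset (Fin N)) (n : ℕ) (hI : I.card = n) (V₁ V₂ V₃ : OneQubitLayer N)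
    (L₁ L₂ : Layer N) :
    ∃ (b : Fin N → M2) (W : Op N), (∀ i, Uni (b i)) ∧
      V₃.op * L₂.op * (V₂.op * L₁.op * V₁.op) = tensor b * W ∧ Wᴴ * W = 1 ∧
      TestB I W (9 * Real.exp (-((n : ℝ) / 10 ^ 90))) := by
  set v := V₁.mat with hv
  have hvu : ∀ i, Uni (v i) := V₁.mat_uni
  set a : Fin N → M2 := fun i => V₂.mat i * v i with ha
  have hau : ∀ i, Uni (a i) := fun i => (V₂.mat_uni i).mul (hvu i)
  set gs₁ := L₁.gates.map fun g => g.conj v hvu with hgs₁
  set gs₂ := L₂.gates.map fun g => g.conj a hau with hgs₂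
  have hd₁ : gs₁.Pairwise fun g h => Disjoint g.S h.S := L₁.conj_pairwise v hvu
  have hd₂ : gs₂.Pairwise fun g h => Disjoint g.S h.S := L₂.conj_pairwise a hau
  have e₀ : V₁.op = tensor v * 1 := by rw [mul_one]; rfl
  have e₁ : V₂.op * L₁.op * V₁.op = tensor a * (lop gs₁ * 1) := by
    rw [e₀, frame_step v hvu L₁ V₂ 1]
  have e₂ : V₃.op * L₂.op * (V₂.op * L₁.op * V₁.op)
      = tensor (fun i => V₃.mat i * a i) * (lop gs₂ * (lop gs₁ * 1)) := by
    rw [e₁, frame_step a hau L₂ V₃]
  refine ⟨_, _, fun i => (V₃.mat_uni i).mul (hau i), e₂, ?_, ?_⟩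
  · exact unitary_step (unitary_step (by simp) gs₁) gs₂
  · intro X hX
    have e : (lop gs₂ * (lop gs₁ * 1))ᴴ * tensor X * (lop gs₂ * (lop gs₁ * 1))
        = (lop gs₁)ᴴ * ((lop gs₂)ᴴ * tensor X * lop gs₂) * lop gs₁ := by
      simp only [mul_one, Matrix.conjTranspose_mul, mul_assoc]
    rw [e]
    refine (top_entry_multi gs₁ gs₂ hd₁ hd₂ X hX I).trans ?_
    have h1 : Real.exp (-(c₂ / 22) * I.card) ≤ Real.exp (-((n : ℝ) / 10 ^ 90)) := by
      apply Real.exp_le_exp.mpr
      have h2 := rate_final
      have h3 : (0 : ℝ) ≤ n := Nat.cast_nonneg n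
      have h4 : (1 : ℝ) / 10 ^ 90 * n ≤ c₂ / 22 * n := by gcongr
      rw [hI]
      have h5 : (n : ℝ) / 10 ^ 90 = 1 / 10 ^ 90 * n := by ring
      rw [h5]
      linarith
    have h2 := C₀_le
    have h3 := C₀_pos
    have h4 := Real.exp_pos (-(c₂ / 22) * I.card)
    have h5 := Real.exp_pos (-((n : ℝ) / 10 ^ 90))
    calc C₀ * Real.exp (-(c₂ / 22) * I.card) ≤ 2 * Real.exp (-((n : ℝ) / 10 ^ 90)) := by gcongr
      _ ≤ _ := by nlinarith

/-- The parity correlation of any circuit: every layer other than the first two and the last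
divides the rate by `18 √(number of gates)`. -/
theorem any_depth {n : ℕ} (C : Circuit N) (inp : Fin n ↪ Fin N) (q : Fin N) :
    (C.unitary)ᴴ * C.unitary = 1 ∧
      |correlation C inp q| ≤ 63 * Real.exp (-((n : ℝ) / (10 ^ 90 *
        (((C.steps.drop 2).dropLast).map rateOf).prod))) := by
  obtain ⟨V₁, steps⟩ := C
  have hcorr : ∀ (C : Circuit N) (c : ℝ), ‖E (Finset.univ.map inp) ((C.unitary)ᴴ * Zs q * C.unitary)
      (zeroStr N) (zeroStr N)‖ ≤ c → |correlation C inp q| ≤ c := by
    intro C c h
    have h' := correlation_eq C inp q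
    rw [← h', Complex.norm_real, Real.norm_eq_abs] at h
    exact h
  have hn : ∀ m : ℝ, 0 ≤ m → (0 : ℝ) ≤ (n : ℝ) / m := fun m hm => div_nonneg (Nat.cast_nonneg n) hm
  set I := Finset.univ.map inp with hI
  have hIc : I.card = n := by simp [hI]
  match steps with
  | [] =>
    obtain ⟨h1, h2⟩ := Vale.Agent.Lib.P368y.depth_three_linear (⟨V₁, []⟩ : Circuit N) (by simp) inp q
    refine ⟨h1, h2.trans ?_⟩
    simp only [List.drop_nil, List.dropLast_nil, List.map_nil, List.prod_nil, mul_one]
    have h3 := Real.exp_pos (-(n : ℝ) / 10 ^ 90)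
    rw [neg_div] at h3 ⊢
    nlinarith
  | [s₁] =>
    obtain ⟨h1, h2⟩ := Vale.Agent.Lib.P368y.depth_three_linear (⟨V₁, [s₁]⟩ : Circuit N) (by simp) inp q
    refine ⟨h1, h2.trans ?_⟩
    simp only [List.drop_succ_cons, List.drop_nil, List.dropLast_nil, List.map_nil, List.prod_nil,
      mul_one]
    have h3 := Real.exp_pos (-(n : ℝ) / 10 ^ 90)
    rw [neg_div] at h3 ⊢
    nlinarith
  | (L₁, V₂) :: (L₂, V₃) :: rest =>
    obtain ⟨b, W, hb, hU, hW, hT⟩ := base_two I n hIc V₁ V₂ V₃ L₁ L₂
    rcases List.eq_nil_or_concat rest with rfl | ⟨mid, last, hrest⟩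
    · have hu : (Circuit.unitary ⟨V₁, [(L₁, V₂), (L₂, V₃)]⟩ : Op N) = tensor b * W := by
        simp only [Circuit.unitary, List.foldl_cons, List.foldl_nil]
        exact hU
      obtain ⟨h1, h2⟩ := Vale.Agent.Lib.P368y.depth_three_linear
        (⟨V₁, [(L₁, V₂), (L₂, V₃)]⟩ : Circuit N) (by simp) inp q
      refine ⟨h1, h2.trans ?_⟩
      simp only [List.drop_succ_cons, List.drop_zero, List.dropLast_nil, List.map_nil, List.prod_nil,
        mul_one]
      have h3 := Real.exp_pos (-(n : ℝ) / 10 ^ 90)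
      rw [neg_div] at h3 ⊢
      nlinarith
    · rw [List.concat_eq_append] at hrest
      subst hrest
      obtain ⟨b', W', hb', h2, hW', hT'⟩ := chain I mid b hb W hW _ (hn _ (by positivity)) hT
      obtain ⟨Lt, Vt⟩ := last
      have hu : (Circuit.unitary ⟨V₁, (L₁, V₂) :: (L₂, V₃) :: (mid ++ [(Lt, Vt)])⟩ : Op N)
          = Vt.op * Lt.op * (tensor b' * W') := by
        simp only [Circuit.unitary, List.foldl_cons, List.foldl_append, List.foldl_nil]
        rw [hU, h2]
      have hP : ((((L₁, V₂) :: (L₂, V₃) :: (mid ++ [(Lt, Vt)])).drop 2).dropLast).map rateOf = mid.map rateOf := by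
        simp only [List.drop_succ_cons, List.drop_zero]
        rw [List.dropLast_concat]
      have hpp := prod_rate_pos mid
      constructor
      · rw [hu, frame_step b' hb' Lt Vt W', Matrix.conjTranspose_mul]
        have hcu : ∀ i, Uni (Vt.mat i * b' i) := fun i => (Vt.mat_uni i).mul (hb' i)
        have hG := unitary_step hW' (Lt.gates.map fun g => g.conj b' hb')
        calc (lop (Lt.gates.map fun g => g.conj b' hb') * W')ᴴ * (tensor fun i => Vt.mat i * b' i)ᴴ
              * ((tensor fun i => Vt.mat i * b' i) * (lop (Lt.gates.map fun g => g.conj b' hb') * W'))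
            = (lop (Lt.gates.map fun g => g.conj b' hb') * W')ᴴ
              * ((tensor fun i => Vt.mat i * b' i)ᴴ * (tensor fun i => Vt.mat i * b' i))
              * (lop (Lt.gates.map fun g => g.conj b' hb') * W') := by simp only [mul_assoc]
          _ = 1 := by rw [tensor_unitary hcu, mul_one, hG]
      · apply hcorr
        rw [hu, hP]
        have e : -((n : ℝ) / 10 ^ 90 / (mid.map rateOf).prod)
            = -((n : ℝ) / (10 ^ 90 * (mid.map rateOf).prod)) := by
          rw [div_div]
        rw [e] at hT'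
        have := top_bound I b' hb' W' hW' Lt Vt q _ (by positivity) (fun X hX _ => hT' X hX)
        refine this.trans (le_of_eq ?_)
        ring

end Vale.Agent.Lib.P368z
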