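import Mathlib

/-!
Chebyshev polynomials of the number of failed tests, written in the binomial basis, with a
weighted bound on the coefficients.
-/

open scoped BigOperators

namespace Vale.Agent.Lib.P368z

/-- `f` has a binomial expansion of weight at most `w`. -/
def HasW (M : ℕ) (f : ℕ → ℝ) (w : ℝ) : Prop :=
  ∃ (d : ℕ) (b : ℕ → ℝ), (∀ k, f k = ∑ j ∈ Finset.range d, b j * (k.choose j : ℝ)) ∧
    ∑ j ∈ Finset.range d, |b j| * (M.choose j : ℝ) * 10 ^ j ≤ w

lemma HasW.pad {M : ℕ} {f : ℕ → ℝ} {w : ℝ} {d : ℕ} {b : ℕ → ℝ}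
    (h1 : ∀ k, f k = ∑ j ∈ Finset.range d, b j * (k.choose j : ℝ))
    (h2 : ∑ j ∈ Finset.range d, |b j| * (M.choose j : ℝ) * 10 ^ j ≤ w) (d' : ℕ) (hd : d ≤ d') :
    ∃ b' : ℕ → ℝ, (∀ k, f k = ∑ j ∈ Finset.range d', b' j * (k.choose j : ℝ)) ∧
      ∑ j ∈ Finset.range d', |b' j| * (M.choose j : ℝ) * 10 ^ j ≤ w := by
  refine ⟨fun j => if j < d then b j else 0, fun k => ?_, ?_⟩
  · rw [h1 k]
    have hsub : Finset.range d ⊆ Finset.range d' := Finset.range_subset_range.mpr hd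
    rw [← Finset.sum_subset hsub]
    · refine Finset.sum_congr rfl fun j hj => ?_
      simp only [if_pos (Finset.mem_range.mp hj)]
    · intro j _ hj
      have hnot : ¬ j < d := by simpa using hj
      simp only [if_neg hnot]
      simp
  · have hsub : Finset.range d ⊆ Finset.range d' := Finset.range_subset_range.mpr hd
    rw [← Finset.sum_subset hsub]
    · refine le_trans (le_of_eq ?_) h2
      refine Finset.sum_congr rfl fun j hj => ?_
      simp only [if_pos (Finset.mem_range.mp hj)]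
    · intro j _ hj
      have hnot : ¬ j < d := by simpa using hj
      simp only [if_neg hnot]
      simp

lemma HasW.add {M : ℕ} {f g : ℕ → ℝ} {w v : ℝ} (hf : HasW M f w) (hg : HasW M g v) :
    HasW M (fun k => f k + g k) (w + v) := by
  obtain ⟨d, b, h1, h2⟩ := hf
  obtain ⟨d', b', h1', h2'⟩ := hg
  obtain ⟨c, h3, h4⟩ := HasW.pad h1 h2 (max d d') (le_max_left _ _)
  obtain ⟨c', h3', h4'⟩ := HasW.pad h1' h2' (max d d') (le_max_right _ _)
  refine ⟨max d d', fun j => c j + c' j, fun k => ?_, ?_⟩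
  · simp only [add_mul]
    rw [Finset.sum_add_distrib, ← h3, ← h3']
  · refine le_trans (Finset.sum_le_sum fun j _ => ?_) (add_le_add h4 h4' |>.trans_eq' (Finset.sum_add_distrib).symm)
    have := abs_add_le (c j) (c' j)
    have h0 : (0 : ℝ) ≤ (M.choose j : ℝ) * 10 ^ j := by positivity
    nlinarith

lemma HasW.smul {M : ℕ} {f : ℕ → ℝ} {w : ℝ} (hf : HasW M f w) (c : ℝ) :
    HasW M (fun k => c * f k) (|c| * w) := by
  obtain ⟨d, b, h1, h2⟩ := hf
  refine ⟨d, fun j => c * b j, fun k => ?_, ?_⟩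
  · show c * f k = _
    rw [h1 k, Finset.mul_sum]
    refine Finset.sum_congr rfl fun j _ => ?_
    ring
  · refine le_trans (le_of_eq ?_) (mul_le_mul_of_nonneg_left h2 (abs_nonneg c))
    rw [Finset.mul_sum]
    refine Finset.sum_congr rfl fun j _ => ?_
    rw [abs_mul]
    ring

lemma HasW.mono {M : ℕ} {f : ℕ → ℝ} {w v : ℝ} (hf : HasW M f w) (h : w ≤ v) : HasW M f v := by
  obtain ⟨d, b, h1, h2⟩ := hf
  exact ⟨d, b, h1, h2.trans h⟩

lemma hasW_atom (M j : ℕ) : HasW M (fun k => (k.choose j : ℝ)) ((M.choose j : ℝ) * 10 ^ j) := by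
  refine ⟨j + 1, fun i => if i = j then 1 else 0, fun k => ?_, ?_⟩
  · rw [Finset.sum_eq_single j]
    · simp
    · intro i _ hi
      simp [hi]
    · simp
  · rw [Finset.sum_eq_single j]
    · simp
    · intro i _ hi
      simp [hi]
    · simp

lemma hasW_one (M : ℕ) : HasW M (fun _ => 1) 1 := by
  have := hasW_atom M 0
  simpa using this

lemma hasW_congr {M : ℕ} {f g : ℕ → ℝ} {w : ℝ} (hf : HasW M f w) (h : ∀ k, g k = f k) :
    HasW M g w := by
  have : g = f := funext h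
  rw [this]
  exact hf

/-- Multiplying by the number of failed tests. -/
lemma hasW_k_atom (M j : ℕ) :
    HasW M (fun k => (k : ℝ) * (k.choose j : ℝ)) (10 * M * ((M.choose j : ℝ) * 10 ^ j)) := by
  have h1 := ((hasW_atom M (j + 1)).smul ((j : ℝ) + 1)).add ((hasW_atom M j).smul (j : ℝ))
  refine (hasW_congr h1 fun k => ?_).mono ?_
  · have e1 : ((k.choose (j + 1) : ℝ)) * ((j : ℝ) + 1) = (k.choose j : ℝ) * ((k : ℝ) - j) ∨ k < j := by
      by_cases hjk : j ≤ k
      · left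
        have := Nat.choose_succ_right_eq k j
        have h2 : ((k.choose (j + 1) * (j + 1) : ℕ) : ℝ) = ((k.choose j * (k - j) : ℕ) : ℝ) := by
          exact_mod_cast this
        push_cast [Nat.cast_sub hjk] at h2
        exact h2
      · right
        omega
    rcases e1 with e1 | e1
    · nlinarith
    · have h3 : k.choose j = 0 := Nat.choose_eq_zero_of_lt e1
      have h4 : k.choose (j + 1) = 0 := Nat.choose_eq_zero_of_lt (by omega)
      simp [h3, h4]
  · rw [abs_of_nonneg (by positivity), abs_of_nonneg (by positivity)]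
    by_cases hjM : j ≤ M
    · have h5 := Nat.choose_succ_right_eq M j
      have h6 : ((M.choose (j + 1) : ℝ)) * ((j : ℝ) + 1) = (M.choose j : ℝ) * ((M : ℝ) - j) := by
        have h2 : ((M.choose (j + 1) * (j + 1) : ℕ) : ℝ) = ((M.choose j * (M - j) : ℕ) : ℝ) := by
          exact_mod_cast h5
        push_cast [Nat.cast_sub hjM] at h2
        exact h2
      have h7 : (0 : ℝ) ≤ (M.choose j : ℝ) * 10 ^ j := by positivity
      have h8 : (j : ℝ) ≤ M := by exact_mod_cast hjM
      have e : ((j : ℝ) + 1) * ((M.choose (j + 1) : ℝ) * 10 ^ (j + 1))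
          + (j : ℝ) * ((M.choose j : ℝ) * 10 ^ j)
          = ((M.choose j : ℝ) * 10 ^ j) * (10 * ((M : ℝ) - j) + j) := by
        rw [pow_succ]
        linear_combination (10 ^ j * 10 : ℝ) * h6
      rw [e]
      have h9 : (0 : ℝ) ≤ j := Nat.cast_nonneg j
      nlinarith
    · have h3 : M.choose j = 0 := Nat.choose_eq_zero_of_lt (by omega)
      have h4 : M.choose (j + 1) = 0 := Nat.choose_eq_zero_of_lt (by omega)
      simp [h3, h4]

lemma hasW_sum (M : ℕ) (b : ℕ → ℝ) (d : ℕ) (u : ℕ → ℕ → ℝ) (v : ℕ → ℝ)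
    (hu : ∀ j, HasW M (fun k => u j k) (v j)) :
    HasW M (fun k => ∑ j ∈ Finset.range d, b j * u j k) (∑ j ∈ Finset.range d, |b j| * v j) := by
  induction d with
  | zero =>
    simp only [Finset.range_zero, Finset.sum_empty]
    refine ⟨0, fun _ => 0, fun k => by simp, by simp⟩
  | succ d ih =>
    simp only [Finset.sum_range_succ]
    exact ih.add ((hu d).smul (b d))

/-- Multiplying by the number of failed tests costs `10 M`. -/
lemma HasW.mul_k {M : ℕ} {f : ℕ → ℝ} {w : ℝ} (hf : HasW M f w) :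
    HasW M (fun k => (k : ℝ) * f k) (10 * M * w) := by
  obtain ⟨d, b, h1, h2⟩ := hf
  have h3 := hasW_sum M b d (fun j k => (k : ℝ) * (k.choose j : ℝ))
    (fun j => 10 * M * ((M.choose j : ℝ) * 10 ^ j)) (fun j => hasW_k_atom M j)
  refine (hasW_congr h3 fun k => ?_).mono ?_
  · rw [h1 k, Finset.mul_sum]
    refine Finset.sum_congr rfl fun j _ => ?_
    ring
  · have h4 : (0 : ℝ) ≤ 10 * M := by positivity
    refine le_trans (le_of_eq ?_) (mul_le_mul_of_nonneg_left h2 h4)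
    rw [Finset.mul_sum]
    refine Finset.sum_congr rfl fun j _ => ?_
    ring

/-- Chebyshev polynomials, as functions. -/
noncomputable def chebT : ℕ → ℝ → ℝ
  | 0, _ => 1
  | 1, x => x
  | n + 2, x => 2 * x * chebT (n + 1) x - chebT n x

lemma chebT_cos (n : ℕ) (θ : ℝ) : chebT n (Real.cos θ) = Real.cos (n * θ) := by
  induction n using Nat.twoStepInduction with
  | zero => simp [chebT]
  | one => simp [chebT]
  | more n h1 h2 =>
    simp only [chebT]
    rw [h1, h2]
    have e1 : (((n + 2 : ℕ) : ℝ) * θ) = ((n + 1 : ℕ) : ℝ) * θ + θ := by push_cast; ring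
    have e2 : ((n : ℝ) * θ) = ((n + 1 : ℕ) : ℝ) * θ - θ := by push_cast; ring
    rw [e1, e2, Real.cos_add, Real.cos_sub]
    ring

lemma abs_chebT_le (n : ℕ) {x : ℝ} (h : |x| ≤ 1) : |chebT n x| ≤ 1 := by
  have h1 := abs_le.mp h
  have e : Real.cos (Real.arccos x) = x := Real.cos_arccos h1.1 h1.2
  rw [← e, chebT_cos]
  exact Real.abs_cos_le_one _

lemma chebT_closed (n : ℕ) {y : ℝ} (hy : 0 < y) :
    chebT n ((y + y⁻¹) / 2) = (y ^ n + (y⁻¹) ^ n) / 2 := by
  induction n using Nat.twoStepInduction with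
  | zero => simp [chebT]
  | one => simp [chebT]
  | more n h1 h2 =>
    simp only [chebT]
    rw [h1, h2]
    have hyy : y * y⁻¹ = 1 := mul_inv_cancel₀ hy.ne'
    have e1 : y ^ (n + 1) = y ^ n * y := pow_succ _ _
    have e2 : y⁻¹ ^ (n + 1) = y⁻¹ ^ n * y⁻¹ := pow_succ _ _
    have e3 : y ^ (n + 2) = y ^ n * y * y := by ring
    have e4 : y⁻¹ ^ (n + 2) = y⁻¹ ^ n * y⁻¹ * y⁻¹ := by ring
    rw [e1, e2, e3, e4]
    linear_combination ((y ^ n + y⁻¹ ^ n) / 2) * hyy

/-- Chebyshev polynomials of a linear function of the number of failed tests. -/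
lemma hasW_cheb (M : ℕ) (x₀ β : ℝ) (h0 : 0 ≤ x₀) (hβ : 0 ≤ β) (h43 : x₀ + β * (10 * M) ≤ 43) (n : ℕ) :
    HasW M (fun k => chebT n (x₀ - β * k)) (87 ^ n) ∧
      HasW M (fun k => chebT (n + 1) (x₀ - β * k)) (87 ^ (n + 1)) := by
  have hstep : ∀ (f : ℕ → ℝ) (w : ℝ), 0 ≤ w → HasW M f w →
      HasW M (fun k => (x₀ - β * k) * f k) (43 * w) := by
    intro f w hw hf
    have h1 := (hf.smul x₀).add ((hf.mul_k).smul (-β))
    refine (hasW_congr h1 fun k => ?_).mono ?_
    · ring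
    · rw [abs_of_nonneg h0, abs_neg, abs_of_nonneg hβ]
      have : |x₀| = x₀ := abs_of_nonneg h0
      nlinarith
  induction n with
  | zero =>
    constructor
    · simpa [chebT] using hasW_one M
    · have h1 := hstep (fun _ => 1) 1 (by norm_num) (hasW_one M)
      refine (hasW_congr h1 fun k => ?_).mono (by norm_num)
      simp [chebT]
  | succ n ih =>
    refine ⟨ih.2, ?_⟩
    have h1 := (hstep _ _ (by positivity) ih.2).smul 2
    have h2 := ih.1.smul (-1)
    have h3 := h1.add h2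
    refine (hasW_congr h3 fun k => ?_).mono ?_
    · show chebT (n + 2) _ = _
      simp only [chebT]
      ring
    · rw [abs_of_nonneg (by norm_num : (0 : ℝ) ≤ 2), abs_neg, abs_one]
      have h4 : (0 : ℝ) < 87 ^ n := by positivity
      have e : (87 : ℝ) ^ (n + 1 + 1) = 87 ^ n * 7569 := by ring
      have e' : (87 : ℝ) ^ (n + 1) = 87 ^ n * 87 := by ring
      rw [e, e']
      nlinarith

/-- The approximating polynomial of the AND. -/
theorem cheb_poly (M D : ℕ) (hM : 2 ≤ M) :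
    ∃ f : ℕ → ℝ, f 0 = 1 ∧
      (∀ k, 1 ≤ k → k ≤ M → |f k| ≤ 2 * Real.exp (-(D : ℝ) / Real.sqrt M)) ∧
      HasW M f (87 ^ D) := by
  have hM' : (2 : ℝ) ≤ M := by exact_mod_cast hM
  set a : ℝ := 1 / Real.sqrt M with ha
  have hsq : Real.sqrt M * Real.sqrt M = M := Real.mul_self_sqrt (by linarith)
  have hsq1 : 1 < Real.sqrt M := by
    rw [Real.lt_sqrt (by norm_num)]
    linarith
  have ha0 : 0 < a := by rw [ha]; positivity
  have ha1 : a < 1 := by
    rw [ha, div_lt_one (by linarith)]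
    exact hsq1
  have hM1 : (0 : ℝ) < M - 1 := by linarith
  set y₀ : ℝ := (1 + a) / (1 - a) with hy₀
  have h1a : 0 < 1 - a := by linarith
  have hy0 : 0 < y₀ := by rw [hy₀]; positivity
  set x₀ : ℝ := ((M : ℝ) + 1) / (M - 1) with hx₀
  set β : ℝ := 2 / ((M : ℝ) - 1) with hβ
  have hx : x₀ = (y₀ + y₀⁻¹) / 2 := by
    have haM : a * a = 1 / M := by
      rw [ha]
      field_simp
      rw [sq, hsq]
    have hne : (1 + a) ≠ 0 := by linarith
    have hne2 : (M : ℝ) ≠ 0 := by linarith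
    have hne3 : ((M : ℝ) - 1) ≠ 0 := hM1.ne'
    have hMa : (M : ℝ) * (a * a) = 1 := by rw [haM]; field_simp
    rw [hx₀, hy₀, inv_div]
    field_simp
    nlinarith [hMa]
  have hc : chebT D x₀ = (y₀ ^ D + (y₀⁻¹) ^ D) / 2 := by rw [hx, chebT_closed D hy0]
  set c := chebT D x₀ with hcdef
  have hpow : 0 < y₀ ^ D := pow_pos hy0 D
  have hc1 : 1 ≤ c := by
    rw [hc, inv_pow]
    have : y₀ ^ D + (y₀ ^ D)⁻¹ ≥ 2 := by
      have h : (y₀ ^ D) * (y₀ ^ D)⁻¹ = 1 := mul_inv_cancel₀ hpow.ne'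
      have hi : 0 < (y₀ ^ D)⁻¹ := inv_pos.mpr hpow
      nlinarith [sq_nonneg (y₀ ^ D - (y₀ ^ D)⁻¹)]
    linarith
  have hcpos : 0 < c := by linarith
  have hcy : y₀ ^ D / 2 ≤ c := by
    rw [hc]
    have : 0 < (y₀⁻¹) ^ D := pow_pos (inv_pos.mpr hy0) D
    linarith
  have hy_exp : Real.exp a ≤ y₀ := by
    have h1 : 1 - a ≤ Real.exp (-a) := Real.one_sub_le_exp_neg a
    have h2 : Real.exp a * Real.exp (-a) = 1 := by rw [← Real.exp_add]; simp
    have h3 : Real.exp a * (1 - a) ≤ 1 := by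
      calc _ ≤ Real.exp a * Real.exp (-a) := by gcongr
        _ = 1 := h2
    rw [hy₀, le_div_iff₀ h1a]
    nlinarith [Real.exp_pos a]
  have hcexp : Real.exp ((D : ℝ) * a) / 2 ≤ c := by
    refine le_trans ?_ hcy
    have : Real.exp ((D : ℝ) * a) ≤ y₀ ^ D := by
      rw [Real.exp_nat_mul]
      exact pow_le_pow_left₀ (Real.exp_pos a).le hy_exp D
    linarith
  refine ⟨fun k => chebT D (x₀ - β * k) / c, ?_, ?_, ?_⟩
  · simp only [Nat.cast_zero, mul_zero, sub_zero]
    exact div_self hcpos.ne'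
  · intro k hk hkM
    have hk1 : (1 : ℝ) ≤ k := by exact_mod_cast hk
    have hk2 : (k : ℝ) ≤ M := by exact_mod_cast hkM
    have hyr : |x₀ - β * k| ≤ 1 := by
      have e : x₀ - β * k = ((M : ℝ) + 1 - 2 * k) / (M - 1) := by
        rw [hx₀, hβ]
        ring
      rw [e, abs_le]
      constructor
      · rw [le_div_iff₀ hM1]
        nlinarith
      · rw [div_le_iff₀ hM1]
        nlinarith
    have h3 := abs_chebT_le D hyr
    rw [abs_div, abs_of_pos hcpos]
    have hpos : 0 < Real.exp ((D : ℝ) * a) := Real.exp_pos _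
    have hlow : Real.exp ((D : ℝ) * a) / 2 ≤ c := hcexp
    have e : 2 * Real.exp (-(D : ℝ) / Real.sqrt M) = 2 / Real.exp ((D : ℝ) * a) := by
      have : -(D : ℝ) / Real.sqrt M = -((D : ℝ) * a) := by rw [ha]; ring
      rw [this, Real.exp_neg]
      ring
    rw [e, div_le_div_iff₀ hcpos hpos]
    nlinarith
  · have hx0 : 0 ≤ x₀ := by rw [hx₀]; positivity
    have hβ0 : 0 ≤ β := by rw [hβ]; positivity
    have h43 : x₀ + β * (10 * M) ≤ 43 := by
      rw [hx₀, hβ, ← mul_div_right_comm, ← add_div, div_le_iff₀ hM1]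
      nlinarith
    have h5 := (hasW_cheb M x₀ β hx0 hβ0 h43 D).1.smul c⁻¹
    refine (hasW_congr h5 fun k => ?_).mono ?_
    · rw [div_eq_inv_mul]
    · rw [abs_of_pos (inv_pos.mpr hcpos)]
      have : c⁻¹ ≤ 1 := inv_le_one_of_one_le₀ hc1
      have h6 : (0 : ℝ) < 87 ^ D := by positivity
      nlinarith

end Vale.Agent.Lib.P368z
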