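import Vale.Agent.Lib.P368z.Chain

/-!
Consequences for depth four: the number of qubits and the gates under the last gate.
-/

open scoped BigOperators Matrix Matrix.Norms.L2Operator

namespace Vale.Agent.Lib.P368z

open Vale.Agent.Lib.P368x Vale.Agent.Lib.P368y

variable {N : ℕ}

/-- A layer has at most `N` gates. -/
lemma Layer.length_le (L : Layer N) : L.gates.length ≤ N := by
  have h : (L.gates.map Toffoli.target).Nodup := by
    rw [List.Nodup, List.pairwise_map]
    refine L.disjoint.imp fun {g h} hd e => ?_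
    exact Finset.disjoint_left.mp hd (Finset.mem_insert_self g.target g.controls)
      (e ▸ Finset.mem_insert_self h.target h.controls)
  have := h.length_le_card
  simpa using this

lemma rateOf_le (s : Layer N × OneQubitLayer N) (hN : 2 ≤ N) :
    rateOf s ≤ 18 * Real.sqrt N := by
  unfold rateOf
  have h : max 2 s.1.gates.length ≤ N := max_le hN (Layer.length_le _)
  have h' : ((max 2 s.1.gates.length : ℕ) : ℝ) ≤ N := by exact_mod_cast h
  have := Real.sqrt_le_sqrt h'
  linarith

/-- Entangling depth at most four: the bound in the number of qubits. -/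
theorem depth_four {n : ℕ} (C : Circuit N) (hC : C.steps.length ≤ 4) (inp : Fin n ↪ Fin N)
    (q : Fin N) (hN : 2 ≤ N) :
    (C.unitary)ᴴ * C.unitary = 1 ∧
      |correlation C inp q| ≤ 63 * Real.exp (-((n : ℝ) / (18 * 10 ^ 90 * Real.sqrt N))) := by
  obtain ⟨h1, h2⟩ := any_depth C inp q
  refine ⟨h1, h2.trans ?_⟩
  have hN' : (2 : ℝ) ≤ N := by exact_mod_cast hN
  have hs1 : 1 ≤ Real.sqrt N := by
    have := Real.sqrt_le_sqrt (show (1 : ℝ) ≤ N by linarith)
    rwa [Real.sqrt_one] at this
  have hP : (((C.steps.drop 2).dropLast).map rateOf).prod ≤ 18 * Real.sqrt N := by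
    have hlen : ((C.steps.drop 2).dropLast).length ≤ 1 := by
      simp only [List.length_dropLast, List.length_drop]
      omega
    match hl : (C.steps.drop 2).dropLast, hlen with
    | [], _ =>
      simp only [List.map_nil, List.prod_nil]
      linarith
    | [s], _ =>
      simp only [List.map_cons, List.map_nil, List.prod_cons, List.prod_nil, mul_one]
      exact rateOf_le s hN
  have hpos := prod_rate_pos ((C.steps.drop 2).dropLast)
  have hle : (n : ℝ) / (18 * 10 ^ 90 * Real.sqrt N)
      ≤ (n : ℝ) / (10 ^ 90 * (((C.steps.drop 2).dropLast).map rateOf).prod) := by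
    apply div_le_div_of_nonneg_left (Nat.cast_nonneg n) (by positivity)
    calc (10 : ℝ) ^ 90 * (((C.steps.drop 2).dropLast).map rateOf).prod
        ≤ 10 ^ 90 * (18 * Real.sqrt N) := by gcongr
      _ = _ := by ring
  have := Real.exp_le_exp.mpr (neg_le_neg hle)
  linarith

lemma common_mem_length_le {L : List (RGate N)} (hL : L.Pairwise fun g h => Disjoint g.S h.S)
    (q : Fin N) (h : ∀ g ∈ L, q ∈ g.S) : L.length ≤ 1 := by
  match L, hL, h with
  | [], _, _ => simp
  | [_], _, _ => simp
  | a :: b :: _, hL, h =>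
    obtain ⟨h1, _⟩ := List.pairwise_cons.mp hL
    exact absurd (h b (by simp)) (Finset.disjoint_left.mp (h1 b (by simp)) (h a (by simp)))

/-- Entangling depth four: the bound in the number of gates of the third layer under the last gate
on the measured qubit. -/
theorem depth_four_last {n : ℕ} (V₁ V₂ V₃ V₄ V₅ : OneQubitLayer N) (L₁ L₂ L₃ L₄ : Layer N)
    (inp : Fin n ↪ Fin N) (q : Fin N) (M : ℕ) (hM : 2 ≤ M)
    (hcount : ∀ g ∈ L₄.gates, q ∈ g.support →
      (L₃.gates.filter fun h => ¬ Disjoint h.support g.support).length ≤ M) :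
    (Circuit.unitary ⟨V₁, [(L₁, V₂), (L₂, V₃), (L₃, V₄), (L₄, V₅)]⟩ : Op N)ᴴ
        * Circuit.unitary ⟨V₁, [(L₁, V₂), (L₂, V₃), (L₃, V₄), (L₄, V₅)]⟩ = 1 ∧
      |correlation (⟨V₁, [(L₁, V₂), (L₂, V₃), (L₃, V₄), (L₄, V₅)]⟩ : Circuit N) inp q|
        ≤ 63 * Real.exp (-((n : ℝ) / (18 * 10 ^ 90 * Real.sqrt M))) := by
  have hM' : (2 : ℝ) ≤ M := by exact_mod_cast hM
  set I := Finset.univ.map inp with hI
  have hIc : I.card = n := by simp [hI]
  obtain ⟨b, W, hb, hU, hW, hT⟩ := base_two I n hIc V₁ V₂ V₃ L₁ L₂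
  set gs₃ := L₃.gates.map fun g => g.conj b hb with hgs₃
  have hd₃ : gs₃.Pairwise fun g h => Disjoint g.S h.S := L₃.conj_pairwise b hb
  set c : Fin N → M2 := fun i => V₄.mat i * b i with hc
  have hcu : ∀ i, Uni (c i) := fun i => (V₄.mat_uni i).mul (hb i)
  have hU₃ : V₄.op * L₃.op * (V₃.op * L₂.op * (V₂.op * L₁.op * V₁.op)) = tensor c * (lop gs₃ * W) := by
    rw [hU, frame_step b hb L₃ V₄ W]
  have hu : (Circuit.unitary ⟨V₁, [(L₁, V₂), (L₂, V₃), (L₃, V₄), (L₄, V₅)]⟩ : Op N)
      = V₅.op * L₄.op * (tensor c * (lop gs₃ * W)) := by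
    simp only [Circuit.unitary, List.foldl_cons, List.foldl_nil]
    rw [hU₃]
  have hW₃ : (lop gs₃ * W)ᴴ * (lop gs₃ * W) = 1 := unitary_step hW gs₃
  constructor
  · rw [hu, frame_step c hcu L₄ V₅ _, Matrix.conjTranspose_mul]
    have hdu : ∀ i, Uni (V₅.mat i * c i) := fun i => (V₅.mat_uni i).mul (hcu i)
    have hG := unitary_step hW₃ (L₄.gates.map fun g => g.conj c hcu)
    set G := lop (L₄.gates.map fun g => g.conj c hcu) * (lop gs₃ * W) with hGdef
    calc Gᴴ * (tensor fun i => V₅.mat i * c i)ᴴ * ((tensor fun i => V₅.mat i * c i) * G)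
        = Gᴴ * ((tensor fun i => V₅.mat i * c i)ᴴ * (tensor fun i => V₅.mat i * c i)) * G := by
          simp only [mul_assoc]
      _ = 1 := by rw [tensor_unitary hdu, mul_one, hG]
  · have hcorr := correlation_eq (⟨V₁, [(L₁, V₂), (L₂, V₃), (L₃, V₄), (L₄, V₅)]⟩ : Circuit N) inp q
    have hbound : ‖E I ((V₅.op * L₄.op * (tensor c * (lop gs₃ * W)))ᴴ * Zs q
        * (V₅.op * L₄.op * (tensor c * (lop gs₃ * W)))) (zeroStr N) (zeroStr N)‖
        ≤ 7 * (9 * Real.exp (-((n : ℝ) / 10 ^ 90 / (18 * Real.sqrt M)))) := by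
      refine top_bound I c hcu (lop gs₃ * W) hW₃ L₄ V₅ q _ (by positivity) fun X hX hsup => ?_
      refine test_step (norm_of_unitary hW) _ (by positivity) hT gs₃ hd₃ M hM X hX ?_
      intro L' hL' hmeet
      rcases hsup with h1 | ⟨g, hg, hq, h2⟩
      · have h3 : ∀ h ∈ L', q ∈ h.S := by
          intro h hh
          obtain ⟨s, hs, hs1⟩ := hmeet h hh
          by_cases hsq : s = q
          · exact hsq ▸ hs
          · exact absurd (h1 s hsq) hs1
        exact (common_mem_length_le (hd₃.sublist hL') q h3).trans (by omega)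
      · have h3 : ∀ h ∈ L', ¬ Disjoint h.S g.support := by
          intro h hh hdj
          obtain ⟨s, hs, hs1⟩ := hmeet h hh
          exact hs1 (h2 s fun hsg => Finset.disjoint_left.mp hdj hs hsg)
        have h4 : L' = L'.filter fun h => ¬ Disjoint h.S g.support :=
          (List.filter_eq_self.mpr (by simpa using h3)).symm
        have h5 : (L'.filter fun h => ¬ Disjoint h.S g.support).length
            ≤ (gs₃.filter fun h => ¬ Disjoint h.S g.support).length :=
          (hL'.filter _).length_le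
        have h6 : (gs₃.filter fun h => ¬ Disjoint h.S g.support).length
            = (L₃.gates.filter fun h => ¬ Disjoint h.support g.support).length := by
          rw [hgs₃, List.filter_map, List.length_map]
          rfl
        rw [h4]
        refine h5.trans ?_
        rw [h6]
        exact hcount g hg hq
    rw [← hu] at hbound
    rw [← hcorr, Complex.norm_real, Real.norm_eq_abs] at hbound
    refine hbound.trans (le_of_eq ?_)
    have e : (n : ℝ) / 10 ^ 90 / (18 * Real.sqrt M) = (n : ℝ) / (18 * 10 ^ 90 * Real.sqrt M) := by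
      rw [div_div]
      congr 1
      ring
    rw [e]
    ring

end Vale.Agent.Lib.P368z
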