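import Vale.Agent.Lib.P368z.Exact3

/-!
Near-exact parity at entangling depth four needs an exponential number of gates of the third layer
under the last gate on the measured qubit, or an error at least of order `n` over that number.
-/

open scoped BigOperators Matrix Matrix.Norms.L2Operator

namespace Vale.Agent.Lib.P368z

open Vale.Agent.Lib.P368x Vale.Agent.Lib.P368y

variable {N : ℕ}

/-- The numerical part. -/
lemma near_exact_numeric (C P e s : ℝ) (hC : C ≤ 1) (he : 0 ≤ e) (hs0 : 0 ≤ s) (hs1 : s ≤ 1 / 40)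
    (h1 : C ≤ 102 * e + 4 * P) (h2 : s * P ≤ (1 - C) + 28 * e) :
    40 * s ≤ 161 * (1 - C) + 4600 * e := by
  have h3 : s * C ≤ s * (102 * e + 4 * P) := mul_le_mul_of_nonneg_left h1 hs0
  have h4 : s * (1 - C) ≤ 1 / 40 * (1 - C) := mul_le_mul_of_nonneg_right hs1 (by linarith)
  have h5 : s * e ≤ 1 / 40 * e := mul_le_mul_of_nonneg_right hs1 he
  nlinarith

/-- **Near-exact parity at entangling depth four.** -/
theorem depth_four_near_exact {n : ℕ} (V₁ V₂ V₃ V₄ V₅ : OneQubitLayer N) (L₁ L₂ L₃ L₄ : Layer N)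
    (inp : Fin n ↪ Fin N) (q : Fin N) (M : ℕ) (hM : 1 ≤ M) (hn : n ≤ M)
    (hcount : ∀ g ∈ L₄.gates, q ∈ g.support →
      (L₃.gates.filter fun h => ¬ Disjoint h.support g.support).length ≤ M) :
    (Circuit.unitary ⟨V₁, [(L₁, V₂), (L₂, V₃), (L₃, V₄), (L₄, V₅)]⟩ : Op N)ᴴ
        * Circuit.unitary ⟨V₁, [(L₁, V₂), (L₂, V₃), (L₃, V₄), (L₄, V₅)]⟩ = 1 ∧
      (n : ℝ) / 10 ^ 90 ≤ (M : ℝ) *
        (161 * (1 - correlation (⟨V₁, [(L₁, V₂), (L₂, V₃), (L₃, V₄), (L₄, V₅)]⟩ : Circuit N) inp q)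
          + 4600 * Real.exp (-((n : ℝ) / 10 ^ 90 / 4))) := by
  have hM' : (0 : ℝ) < M := by exact_mod_cast hM
  set I := Finset.univ.map inp with hI
  have hIc : I.card = n := by simp [hI]
  obtain ⟨b, W, hb, hU, hW, hT⟩ := base_two₂ I n hIc V₁ V₂ V₃ L₁ L₂
  set gs₃ := L₃.gates.map fun g => g.conj b hb with hgs₃
  have hd₃ : gs₃.Pairwise fun g h => Disjoint g.S h.S := L₃.conj_pairwise b hb
  set c : Fin N → M2 := fun i => V₄.mat i * b i with hc
  have hcu : ∀ i, Uni (c i) := fun i => (V₄.mat_uni i).mul (hb i)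
  have hU₃ : V₄.op * L₃.op * (V₃.op * L₂.op * (V₂.op * L₁.op * V₁.op)) = tensor c * (lop gs₃ * W) := by
    rw [hU, frame_step b hb L₃ V₄ W]
  set gs₄ := L₄.gates.map fun g => g.conj c hcu with hgs₄
  have hd₄ : gs₄.Pairwise fun g h => Disjoint g.S h.S := L₄.conj_pairwise c hcu
  set d : Fin N → M2 := fun i => V₅.mat i * c i with hd
  have hdu : ∀ i, Uni (d i) := fun i => (V₅.mat_uni i).mul (hcu i)
  have hu : (Circuit.unitary ⟨V₁, [(L₁, V₂), (L₂, V₃), (L₃, V₄), (L₄, V₅)]⟩ : Op N)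
      = tensor d * (lop gs₄ * (lop gs₃ * W)) := by
    simp only [Circuit.unitary, List.foldl_cons, List.foldl_nil]
    rw [hU₃, frame_step c hcu L₄ V₅ _]
  have hW₃ : (lop gs₃ * W)ᴴ * (lop gs₃ * W) = 1 := unitary_step hW gs₃
  have hW₄ : (lop gs₄ * (lop gs₃ * W))ᴴ * (lop gs₄ * (lop gs₃ * W)) = 1 := unitary_step hW₃ gs₄
  have huu : (Circuit.unitary ⟨V₁, [(L₁, V₂), (L₂, V₃), (L₃, V₄), (L₄, V₅)]⟩ : Op N)ᴴ
      * Circuit.unitary ⟨V₁, [(L₁, V₂), (L₂, V₃), (L₃, V₄), (L₄, V₅)]⟩ = 1 := by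
    rw [hu, Matrix.conjTranspose_mul]
    set G := lop gs₄ * (lop gs₃ * W) with hGdef
    calc Gᴴ * (tensor d)ᴴ * (tensor d * G) = Gᴴ * ((tensor d)ᴴ * tensor d) * G := by
          simp only [mul_assoc]
      _ = 1 := by rw [tensor_unitary hdu, mul_one, hW₄]
  refine ⟨huu, ?_⟩
  -- the correlation as the value of the functional
  set ν : ℝ := (n : ℝ) / 10 ^ 90 with hν
  have hν0 : 0 ≤ ν := by positivity
  have hνM : ν ≤ M := by
    have h1 : (n : ℝ) ≤ M := by exact_mod_cast hn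
    have h2 : (n : ℝ) / 10 ^ 90 ≤ n := div_le_self (Nat.cast_nonneg n) (by norm_num)
    linarith
  set p : M2 := (d q)ᴴ * e00 * d q with hp
  have hpP : Proj1 p := proj1_e00.conj (hdu q)
  set A : Op N := (lop gs₃)ᴴ * ((lop gs₄)ᴴ * ((2 : ℂ) • site q p - 1) * lop gs₄) * lop gs₃ with hA
  have hconj : (Circuit.unitary ⟨V₁, [(L₁, V₂), (L₂, V₃), (L₃, V₄), (L₄, V₅)]⟩ : Op N)ᴴ * Zs q
      * Circuit.unitary ⟨V₁, [(L₁, V₂), (L₂, V₃), (L₃, V₄), (L₄, V₅)]⟩ = Wᴴ * A * W := by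
    rw [hu, Matrix.conjTranspose_mul, Matrix.conjTranspose_mul, Matrix.conjTranspose_mul]
    calc Wᴴ * (lop gs₃)ᴴ * (lop gs₄)ᴴ * (tensor d)ᴴ * Zs q * (tensor d * (lop gs₄ * (lop gs₃ * W)))
        = Wᴴ * ((lop gs₃)ᴴ * ((lop gs₄)ᴴ * ((tensor d)ᴴ * Zs q * tensor d) * lop gs₄) * lop gs₃) * W := by
          simp only [mul_assoc]
      _ = _ := by rw [conj_Zs d hdu q]
  have hC : ((correlation (⟨V₁, [(L₁, V₂), (L₂, V₃), (L₃, V₄), (L₄, V₅)]⟩ : Circuit N) inp q : ℝ) : ℂ)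
      = Lam I W A := by
    rw [correlation_eq, hconj, Lam_apply]
  set C := correlation (⟨V₁, [(L₁, V₂), (L₂, V₃), (L₃, V₄), (L₄, V₅)]⟩ : Circuit N) inp q with hCdef
  have hCre : (Lam I W A).re = C := by
    rw [← hC, Complex.ofReal_re]
  have hC1 : C ≤ 1 := by
    have h1 := abs_correlation_le (⟨V₁, [(L₁, V₂), (L₂, V₃), (L₃, V₄), (L₄, V₅)]⟩ : Circuit N) inp q
    have h2 := norm_E_le (Finset.univ.map inp)
      ((Circuit.unitary ⟨V₁, [(L₁, V₂), (L₂, V₃), (L₃, V₄), (L₄, V₅)]⟩ : Op N)ᴴ * Zs q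
        * Circuit.unitary ⟨V₁, [(L₁, V₂), (L₂, V₃), (L₃, V₄), (L₄, V₅)]⟩)
    have hUn := norm_of_unitary huu
    have h3 := mul3_norm_le (Zs q) (by rw [norm_adj]; exact hUn) hUn
    have h4 := norm_Zs q
    have h5 := le_abs_self C
    linarith
  -- the polarized bound
  set e : ℝ := Real.exp (-(ν / 4)) with he
  have he0 : 0 ≤ e := (Real.exp_pos _).le
  set ε' : ℝ := 2 * Real.exp (-(ν / 2)) with hε'
  have hε'0 : 0 ≤ ε' := by positivity
  have hsqrt : Real.sqrt (2 * Real.exp (-ν)) ≤ ε' := by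
    have : 2 * Real.exp (-ν) ≤ ε' ^ 2 := by
      have e2 : ((2 : ℕ) : ℝ) * (-(ν / 2)) = -ν := by
        push_cast
        ring
      rw [hε', mul_pow, ← Real.exp_nat_mul, e2]
      have := Real.exp_pos (-ν)
      nlinarith
    calc Real.sqrt (2 * Real.exp (-ν)) ≤ Real.sqrt (ε' ^ 2) := Real.sqrt_le_sqrt this
      _ = _ := Real.sqrt_sq hε'0
  have hW1 := norm_of_unitary hW
  have hbp : ∀ Z : Fin N → M2, (∀ s, Pol (Z s)) → ‖Lam I W (tensor Z)‖ ≤ ε' := fun Z hZ =>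
    (polar (Lam I W) (Lam_le I hW1) (2 * Real.exp (-ν)) (by positivity) hT Z hZ).trans hsqrt
  set s : ℝ := ν / (40 * M) with hs
  have hs0 : 0 ≤ s := by positivity
  have hs1 : s ≤ 1 / 40 := by
    rw [hs, div_le_iff₀ (by positivity)]
    linarith
  have hsM : 10 * s * M = ν / 4 := by
    rw [hs]
    field_simp
    ring
  have hcount' : ∀ g ∈ gs₄, q ∈ g.S → (gs₃.filter fun h => ¬ Disjoint h.S g.S).length ≤ M := by
    intro g hg hq
    obtain ⟨g₀, hg₀, rfl⟩ := List.mem_map.mp hg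
    have h6 : (gs₃.filter fun h => ¬ Disjoint h.S (g₀.conj c hcu).S).length
        = (L₃.gates.filter fun h => ¬ Disjoint h.support g₀.support).length := by
      rw [hgs₃, List.filter_map, List.length_map]
      rfl
    rw [h6]
    exact hcount g₀ hg₀ hq
  obtain ⟨P, hP₁, hP₂⟩ := depth_four_core inp hW ε' hε'0 hbp gs₃ gs₄ hd₃ hd₄ q p hpP M hcount' s hs0
    (by linarith)
  rw [← hI, ← hA, hCre] at hP₁ hP₂
  -- numerics
  have hexp2 : ε' ≤ 2 * e := by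
    rw [hε', he]
    have : Real.exp (-(ν / 2)) ≤ Real.exp (-(ν / 4)) := by
      apply Real.exp_le_exp.mpr
      linarith
    linarith
  have hpow : (1 + 10 * s) ^ M ≤ Real.exp (ν / 4) := by
    have h1 : 1 + 10 * s ≤ Real.exp (10 * s) := by
      have := Real.add_one_le_exp (10 * s)
      linarith
    calc (1 + 10 * s) ^ M ≤ Real.exp (10 * s) ^ M := pow_le_pow_left₀ (by positivity) h1 M
      _ = Real.exp ((M : ℝ) * (10 * s)) := (Real.exp_nat_mul _ _).symm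
      _ = _ := by
          congr 1
          linarith
  have hone : 1 ≤ Real.exp (ν / 4) := Real.one_le_exp (by positivity)
  have hprod : ε' * Real.exp (ν / 4) = 2 * e := by
    rw [hε', he, mul_assoc, ← Real.exp_add]
    congr 2
    ring
  have h28 : 7 * ε' * (1 + (1 + 10 * s) ^ M) ≤ 28 * e := by
    have h1 : 1 + (1 + 10 * s) ^ M ≤ 2 * Real.exp (ν / 4) := by linarith
    calc 7 * ε' * (1 + (1 + 10 * s) ^ M) ≤ 7 * ε' * (2 * Real.exp (ν / 4)) := by gcongr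
      _ = 14 * (ε' * Real.exp (ν / 4)) := by ring
      _ = _ := by rw [hprod]; ring
  have hmain := near_exact_numeric C P e s hC1 he0 hs0 hs1 (by linarith) (by linarith)
  have hνs : ν = (M : ℝ) * (40 * s) := by
    rw [hs]
    field_simp
  rw [hνs]
  exact mul_le_mul_of_nonneg_left hmain hM'.le

end Vale.Agent.Lib.P368z
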