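import Vale.Agent.Lib.P368z.Sharp

/-!
Near-exact parity at entangling depth four: the functional calculus of the number of failed tests
is a star homomorphism, and the positive functional of the inputs.
-/

open scoped BigOperators Matrix Matrix.Norms.L2Operator

namespace Vale.Agent.Lib.P368z

open Vale.Agent.Lib.P368x Vale.Agent.Lib.P368y

variable {N : ℕ}

lemma sector_mul (F A B C D : Op N) (hF : F * F = F) (hC : Commute F C) (hD : Commute F D) :
    (A * F + B * (1 - F)) * (C * F + D * (1 - F)) = A * C * F + B * D * (1 - F) := by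
  have h1 : F * (1 - F) = 0 := by rw [mul_sub, mul_one, hF, sub_self]
  have h2 : (1 - F) * F = 0 := by rw [sub_mul, one_mul, hF, sub_self]
  have h3 : (1 - F) * (1 - F) = 1 - F := by rw [sub_mul, one_mul, h1, sub_zero]
  have hC' : (1 - F) * C = C * (1 - F) := ((Commute.one_left _).sub_left hC).eq
  have hD' : (1 - F) * D = D * (1 - F) := ((Commute.one_left _).sub_left hD).eq
  have e1 : A * F * (C * F) = A * C * F := by
    calc A * F * (C * F) = A * (F * C) * F := by simp only [mul_assoc]
      _ = A * (C * F) * F := by rw [hC.eq]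
      _ = A * C * (F * F) := by simp only [mul_assoc]
      _ = _ := by rw [hF]
  have e2 : A * F * (D * (1 - F)) = 0 := by
    calc A * F * (D * (1 - F)) = A * (F * D) * (1 - F) := by simp only [mul_assoc]
      _ = A * (D * F) * (1 - F) := by rw [hD.eq]
      _ = A * D * (F * (1 - F)) := by simp only [mul_assoc]
      _ = 0 := by rw [h1, mul_zero]
  have e3 : B * (1 - F) * (C * F) = 0 := by
    calc B * (1 - F) * (C * F) = B * ((1 - F) * C) * F := by simp only [mul_assoc]
      _ = B * (C * (1 - F)) * F := by rw [hC']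
      _ = B * C * ((1 - F) * F) := by simp only [mul_assoc]
      _ = 0 := by rw [h2, mul_zero]
  have e4 : B * (1 - F) * (D * (1 - F)) = B * D * (1 - F) := by
    calc B * (1 - F) * (D * (1 - F)) = B * ((1 - F) * D) * (1 - F) := by simp only [mul_assoc]
      _ = B * (D * (1 - F)) * (1 - F) := by rw [hD']
      _ = B * D * ((1 - F) * (1 - F)) := by simp only [mul_assoc]
      _ = _ := by rw [h3]
  rw [add_mul, mul_add, mul_add, e1, e2, e3, e4, add_zero, zero_add]

/-- The functional calculus is multiplicative. -/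
lemma fK_mul {X : Fin N → M2} (hX : AllOK X) (L : List (RGate N))
    (hL : L.Pairwise fun g h => Disjoint g.S h.S) (f g : ℕ → ℂ) :
    fK X L (fun k => f k * g k) = fK X L f * fK X L g := by
  induction L generalizing f g with
  | nil =>
    simp only [fK, smul_mul_assoc, mul_smul_comm, smul_smul, mul_one]
    rw [mul_comm]
  | cons h L ih =>
    obtain ⟨hd, hL'⟩ := List.pairwise_cons.mp hL
    simp only [fK]
    rw [ih hL', ih hL', sector_mul _ _ _ _ _ (Fh_idem hX h) (fK_commute X h L hd _)
      (fK_commute X h L hd _)]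

/-- The adjoint in the functional calculus. -/
lemma fK_adj {X : Fin N → M2} (hX : AllOK X) (L : List (RGate N))
    (hL : L.Pairwise fun g h => Disjoint g.S h.S) (f : ℕ → ℂ) :
    (fK X L f)ᴴ = fK X L (fun k => star (f k)) := by
  induction L generalizing f with
  | nil =>
    simp only [fK, Matrix.conjTranspose_smul, Matrix.conjTranspose_one]
  | cons h L ih =>
    obtain ⟨hd, hL'⟩ := List.pairwise_cons.mp hL
    simp only [fK, Matrix.conjTranspose_add, Matrix.conjTranspose_mul, Matrix.conjTranspose_sub,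
      Matrix.conjTranspose_one, Fh_herm hX h]
    rw [ih hL', ih hL']
    have c1 := fK_commute X h L hd (fun k => star (f (k + 1)))
    have c2 := fK_commute X h L hd (fun k => star (f k))
    have c3 : Commute (1 - Fh X h) (fK X L fun k => star (f k)) :=
      (Commute.one_left _).sub_left c2
    rw [c1.eq, c3.eq]

lemma fK_herm_real {X : Fin N → M2} (hX : AllOK X) (L : List (RGate N))
    (hL : L.Pairwise fun g h => Disjoint g.S h.S) (f : ℕ → ℝ) :
    (fK X L fun k => ((f k : ℝ) : ℂ))ᴴ = fK X L fun k => ((f k : ℝ) : ℂ) := by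
  rw [fK_adj hX L hL]
  congr 1
  funext k
  simp

/-- Anything commuting with the failure projectors commutes with the functional calculus. -/
lemma fK_commute_of (X : Fin N → M2) (C : Op N) (L : List (RGate N))
    (hC : ∀ h ∈ L, Commute C (Fh X h)) (f : ℕ → ℂ) : Commute C (fK X L f) := by
  induction L generalizing f with
  | nil =>
    simp only [fK]
    exact (Commute.one_right _).smul_right _
  | cons h L ih =>
    simp only [fK]
    have h1 := ih (fun k hk => hC k (List.mem_cons_of_mem _ hk))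
    have h2 := hC h (List.mem_cons_self ..)
    exact ((h1 _).mul_right h2).add_right ((h1 _).mul_right ((Commute.one_right _).sub_right h2))

/-- Product tensors trivial on a gate commute with its failure projector. -/
lemma tensor_commute_Fh (X : Fin N → M2) (h : RGate N) (Z : Fin N → M2)
    (hZ : ∀ s ∈ h.S, Z s = 1) : Commute (tensor Z) (Fh X h) := by
  have h1 : tensor Z ∈ SA (Finset.univ \ h.S) := by
    apply tensor_mem_SA
    intro s hs
    exact hZ s (by simpa using hs)
  exact SA_commute Finset.sdiff_disjoint h1 (Fh_mem_SA X h)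

/-- The state of one input. -/
noncomputable def om (W : Op N) (s : Str N) : Op N →ₗ[ℂ] ℂ where
  toFun A := (Wᴴ * A * W) s s
  map_add' A B := by
    simp only [mul_add, add_mul, Matrix.add_apply]
  map_smul' c A := by
    simp only [mul_smul_comm, smul_mul_assoc, Matrix.smul_apply, smul_eq_mul, RingHom.id_apply]

lemma om_apply (W : Op N) (s : Str N) (A : Op N) : om W s A = (Wᴴ * A * W) s s := rfl

lemma om_sq_nonneg (W : Op N) (s : Str N) (D : Op N) : 0 ≤ (om W s (Dᴴ * D)).re := by
  have e : Wᴴ * (Dᴴ * D) * W = (D * W)ᴴ * (D * W) := by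
    rw [Matrix.conjTranspose_mul]
    simp only [mul_assoc]
  rw [om_apply, e, Matrix.mul_apply, Complex.re_sum]
  refine Finset.sum_nonneg fun a _ => ?_
  rw [Matrix.conjTranspose_apply, Complex.star_def, ← Complex.normSq_eq_conj_mul_self]
  exact Complex.normSq_nonneg _

lemma om_one {W : Op N} (hW : Wᴴ * W = 1) (s : Str N) : om W s 1 = 1 := by
  rw [om_apply, mul_one, hW, Matrix.one_apply_eq]

/-- A sign. -/
lemma defect_nonneg (W : Op N) (s : Str N) (A D : Op N) (σ : ℂ) (hσ : σ * σ = 1) (hh : Aᴴ = A)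
    (hσr : star σ = σ) (hAA : A * A = 1) (hc : Commute A Dᴴ) :
    0 ≤ (om W s ((1 - σ • A) * (Dᴴ * D))).re := by
  set E : Op N := (1 - σ • A) * D with hE
  have hadj : (1 - σ • A)ᴴ = 1 - σ • A := by
    rw [Matrix.conjTranspose_sub, Matrix.conjTranspose_one, Matrix.conjTranspose_smul, hh, hσr]
  have hsq : (1 - σ • A) * (1 - σ • A) = (2 : ℂ) • (1 - σ • A) := by
    have : (σ • A) * (σ • A) = 1 := by
      rw [smul_mul_smul_comm, hσ, hAA, one_smul]
    rw [sub_mul, mul_sub, mul_sub, this]
    simp only [one_mul, mul_one]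
    rw [two_smul]
    abel
  have hc' : (1 - σ • A) * Dᴴ = Dᴴ * (1 - σ • A) :=
    ((Commute.one_left _).sub_left (hc.smul_left σ)).eq
  have key : Eᴴ * E = (2 : ℂ) • ((1 - σ • A) * (Dᴴ * D)) := by
    rw [hE, Matrix.conjTranspose_mul, hadj]
    calc Dᴴ * (1 - σ • A) * ((1 - σ • A) * D)
        = Dᴴ * ((1 - σ • A) * (1 - σ • A)) * D := by simp only [mul_assoc]
      _ = (2 : ℂ) • (Dᴴ * (1 - σ • A) * D) := by
          rw [hsq, mul_smul_comm, smul_mul_assoc]
      _ = (2 : ℂ) • ((1 - σ • A) * Dᴴ * D) := by rw [hc']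
      _ = _ := by rw [mul_assoc]
  have h1 := om_sq_nonneg W s E
  rw [key, map_smul, smul_eq_mul] at h1
  have h2 : ((2 : ℂ) * om W s ((1 - σ • A) * (Dᴴ * D))).re
      = 2 * (om W s ((1 - σ • A) * (Dᴴ * D))).re := by
    simp [Complex.mul_re]
  rw [h2] at h1
  linarith

/-- The average of the states of the inputs. -/
noncomputable def Pl {n : ℕ} (inp : Fin n ↪ Fin N) (W : Op N) : Op N →ₗ[ℂ] ℂ :=
  (1 / 2 ^ n : ℂ) • ∑ x : Fin n → Bool, om W (initial inp x)

lemma Pl_apply {n : ℕ} (inp : Fin n ↪ Fin N) (W A : Op N) :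
    Pl inp W A = (1 / 2 ^ n : ℂ) * ∑ x : Fin n → Bool, om W (initial inp x) A := by
  simp [Pl, LinearMap.sum_apply]

lemma Lam_eq_sum {n : ℕ} (inp : Fin n ↪ Fin N) (W A : Op N) :
    Lam (Finset.univ.map inp) W A
      = (1 / 2 ^ n : ℂ) * ∑ x : Fin n → Bool, sg (parity x) * om W (initial inp x) A := by
  rw [Lam_apply, E_zero_entry, Finset.card_map, Finset.card_univ, Fintype.card_fin]
  congr 1
  rw [← sum_initial inp (fun w => sgn w * (Wᴴ * A * W) w w)]
  refine Finset.sum_congr rfl fun x _ => ?_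
  rw [sgn_initial, om_apply]

lemma re_half_sum {n : ℕ} (f : (Fin n → Bool) → ℂ) :
    ((1 / 2 ^ n : ℂ) * ∑ x, f x).re = (1 / 2 ^ n : ℝ) * ∑ x, (f x).re := by
  have e : (1 / 2 ^ n : ℂ) = ((1 / 2 ^ n : ℝ) : ℂ) := by
    push_cast
    ring
  rw [e, Complex.re_ofReal_mul, Complex.re_sum]

lemma Pl_one {n : ℕ} (inp : Fin n ↪ Fin N) {W : Op N} (hW : Wᴴ * W = 1) : Pl inp W 1 = 1 := by
  rw [Pl_apply]
  simp only [om_one hW]
  simp

lemma Pl_sq_nonneg {n : ℕ} (inp : Fin n ↪ Fin N) (W D : Op N) : 0 ≤ (Pl inp W (Dᴴ * D)).re := by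
  rw [Pl_apply, re_half_sum]
  have : 0 ≤ ∑ x : Fin n → Bool, (om W (initial inp x) (Dᴴ * D)).re :=
    Finset.sum_nonneg fun x _ => om_sq_nonneg W _ D
  positivity

lemma sg_cases (b : Bool) : (sg b * sg b = 1) ∧ star (sg b) = sg b := by
  cases b <;> simp [sg]

/-- The main inequality: a reflection correlated with parity, against a positive commuting
operator. -/
lemma Lam_re_le {n : ℕ} (inp : Fin n ↪ Fin N) (W A D : Op N) (hh : Aᴴ = A) (hAA : A * A = 1)
    (hc : Commute A Dᴴ) :
    (Lam (Finset.univ.map inp) W (A * (Dᴴ * D))).re ≤ (Pl inp W (Dᴴ * D)).re := by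
  rw [Lam_eq_sum, Pl_apply, re_half_sum, re_half_sum]
  have h2 : (0 : ℝ) < 1 / 2 ^ n := by positivity
  refine mul_le_mul_of_nonneg_left ?_ h2.le
  refine Finset.sum_le_sum fun x _ => ?_
  obtain ⟨h3, h4⟩ := sg_cases (parity x)
  have h5 := defect_nonneg W (initial inp x) A D (sg (parity x)) h3 hh h4 hAA hc
  have e : (1 - sg (parity x) • A) * (Dᴴ * D)
      = Dᴴ * D - sg (parity x) • (A * (Dᴴ * D)) := by
    rw [sub_mul, one_mul, smul_mul_assoc]
  rw [e, map_sub, map_smul, smul_eq_mul, Complex.sub_re] at h5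
  linarith

end Vale.Agent.Lib.P368z
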