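import Vale.Agent.Lib.P368z.Exact1

/-!
The core of near-exact parity: a reflection which agrees with one local observable wherever some
test of a layer fails has a small probability of failure.
-/

open scoped BigOperators Matrix Matrix.Norms.L2Operator

namespace Vale.Agent.Lib.P368z

open Vale.Agent.Lib.P368x Vale.Agent.Lib.P368y

variable {N : ℕ}

/-- The indicator of zero failed tests. -/
noncomputable def ind0 (k : ℕ) : ℝ := if k = 0 then 1 else 0

lemma pY_eq_fK (X : Fin N → M2) (L : List (RGate N)) :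
    pY X L = fK X L fun k => ((ind0 k : ℝ) : ℂ) := by
  rw [← fK_ind]
  congr 1
  funext k
  by_cases hk : k = 0 <;> simp [ind0, hk]

/-- Positive functions of the number of failed tests, cut by a commuting projector. -/
lemma Pl_fK_nonneg {n : ℕ} (inp : Fin n ↪ Fin N) (W : Op N) {X : Fin N → M2} (hX : AllOK X)
    (L : List (RGate N)) (hL : L.Pairwise fun g h => Disjoint g.S h.S) (Zh : Op N)
    (hZh : Zhᴴ = Zh) (hZi : Zh * Zh = Zh) (hc : ∀ f, Commute (fK X L f) Zh)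
    (g : ℕ → ℝ) (hg : ∀ k, 0 ≤ g k) :
    0 ≤ (Pl inp W (fK X L (fun k => ((g k : ℝ) : ℂ)) * Zh)).re := by
  set r : ℕ → ℝ := fun k => Real.sqrt (g k) with hr
  set G : Op N := fK X L (fun k => ((r k : ℝ) : ℂ)) * Zh with hG
  have key : Gᴴ * G = fK X L (fun k => ((g k : ℝ) : ℂ)) * Zh := by
    have h1 : (fK X L fun k => ((r k : ℝ) : ℂ))ᴴ = fK X L fun k => ((r k : ℝ) : ℂ) :=
      fK_herm_real hX L hL r
    have h2 : (fun k => ((g k : ℝ) : ℂ)) = fun k => ((r k : ℝ) : ℂ) * ((r k : ℝ) : ℂ) := by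
      funext k
      rw [← Complex.ofReal_mul, hr]
      simp only
      rw [Real.mul_self_sqrt (hg k)]
    rw [hG, Matrix.conjTranspose_mul, h1, hZh, h2, fK_mul hX L hL]
    set F := fK X L fun k => ((r k : ℝ) : ℂ) with hF
    calc Zh * F * (F * Zh) = F * Zh * (F * Zh) := by rw [(hc _).eq]
      _ = F * (Zh * F) * Zh := by simp only [mul_assoc]
      _ = F * (F * Zh) * Zh := by rw [(hc _).eq]
      _ = F * F * (Zh * Zh) := by simp only [mul_assoc]
      _ = _ := by rw [hZi]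
  rw [← key]
  exact Pl_sq_nonneg inp W G

lemma Fh_pairwise_commute (X : Fin N → M2) (L : List (RGate N))
    (hL : L.Pairwise fun g h => Disjoint g.S h.S) :
    ∀ h ∈ L, ∀ h' ∈ L, Commute (Fh X h) (Fh X h') := by
  induction L with
  | nil => simp
  | cons k L ih =>
    obtain ⟨hd, hL'⟩ := List.pairwise_cons.mp hL
    intro h hh h' hh'
    rcases List.mem_cons.mp hh with rfl | hm
    · rcases List.mem_cons.mp hh' with rfl | hm'
      · exact Commute.refl _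
      · exact Fh_commute X X (hd h' hm')
    · rcases List.mem_cons.mp hh' with rfl | hm'
      · exact (Fh_commute X X (hd h hm)).symm
      · exact ih hL' h hm h' hm'

/-- The test projector, which commutes with everything in sight. -/
lemma pY_herm {X : Fin N → M2} (hX : AllOK X) (L : List (RGate N))
    (hL : L.Pairwise fun g h => Disjoint g.S h.S) : (pY X L)ᴴ = pY X L := by
  rw [pY_eq_fK]
  exact fK_herm_real hX L hL _

lemma pY_idem {X : Fin N → M2} (hX : AllOK X) (L : List (RGate N))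
    (hL : L.Pairwise fun g h => Disjoint g.S h.S) : pY X L * pY X L = pY X L := by
  rw [pY_eq_fK, ← fK_mul hX L hL]
  congr 1
  funext k
  by_cases hk : k = 0 <;> simp [ind0, hk]

/-- A projector below the projector `R`: its parity functional is at most the mass of `R`. -/
lemma abs_Lam_le_of_proj {n : ℕ} (inp : Fin n ↪ Fin N) (W Y R : Op N) (hYh : Yᴴ = Y)
    (hYi : Y * Y = Y) (hRh : Rᴴ = R) (hRi : R * R = R) (hc : Commute Y R) :
    |(Lam (Finset.univ.map inp) W (Y * R)).re| ≤ (Pl inp W R).re := by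
  set D : Op N := Y * R with hD
  have h1 : Dᴴ * D = Y * R := by
    rw [hD, Matrix.conjTranspose_mul, hYh, hRh]
    calc R * Y * (Y * R) = R * (Y * Y) * R := by simp only [mul_assoc]
      _ = R * Y * R := by rw [hYi]
      _ = Y * R * R := by rw [hc.eq.symm]
      _ = Y * (R * R) := by rw [mul_assoc]
      _ = _ := by rw [hRi]
  have h2 := Lam_re_le inp W 1 D (by simp) (by simp) (Commute.one_left _)
  have h3 := Lam_re_le inp W (-1) D (by simp) (by simp) ((Commute.one_left _).neg_left)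
  rw [one_mul, h1] at h2
  rw [neg_mul, one_mul, h1, map_neg, Complex.neg_re] at h3
  set D' : Op N := (1 - Y) * R with hD'
  have h4 : D'ᴴ * D' = R - Y * R := by
    have h1Y : (1 - Y)ᴴ = 1 - Y := by
      rw [Matrix.conjTranspose_sub, Matrix.conjTranspose_one, hYh]
    have hcc : Commute (1 - Y) R := (Commute.one_left _).sub_left hc
    have hii : (1 - Y) * (1 - Y) = 1 - Y := by
      simp only [sub_mul, mul_sub, one_mul, mul_one, hYi]
      abel
    rw [hD', Matrix.conjTranspose_mul, h1Y, hRh]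
    calc R * (1 - Y) * ((1 - Y) * R) = R * ((1 - Y) * (1 - Y)) * R := by simp only [mul_assoc]
      _ = R * (1 - Y) * R := by rw [hii]
      _ = (1 - Y) * R * R := by rw [hcc.eq.symm]
      _ = (1 - Y) * (R * R) := by rw [mul_assoc]
      _ = (1 - Y) * R := by rw [hRi]
      _ = _ := by rw [sub_mul, one_mul]
  have h5 := Pl_sq_nonneg inp W D'
  rw [h4, map_sub, Complex.sub_re] at h5
  rw [abs_le]
  constructor <;> linarith

/-- The upper bound for the correlation by the mass of the failure of the tests. -/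
lemma partA {n : ℕ} (inp : Fin n ↪ Fin N) (W T O Y₁ Y₂ A : Op N) (hTh : Tᴴ = T) (hTi : T * T = T)
    (hY₁h : Y₁ᴴ = Y₁) (hY₁i : Y₁ * Y₁ = Y₁) (hY₁T : Commute Y₁ T)
    (hY₂h : Y₂ᴴ = Y₂) (hY₂i : Y₂ * Y₂ = Y₂) (hY₂T : Commute Y₂ T)
    (hA : A = O + (2 : ℂ) • ((Y₁ - Y₂) * T)) (c κ : ℝ)
    (hO : ‖Lam (Finset.univ.map inp) W O‖ ≤ c)
    (h₁ : ‖Lam (Finset.univ.map inp) W Y₁‖ ≤ κ) (h₂ : ‖Lam (Finset.univ.map inp) W Y₂‖ ≤ κ) :
    (Lam (Finset.univ.map inp) W A).re ≤ c + 4 * κ + 4 * (Pl inp W (1 - T)).re := by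
  set R : Op N := 1 - T with hR
  have hRh : Rᴴ = R := by rw [hR, Matrix.conjTranspose_sub, Matrix.conjTranspose_one, hTh]
  have hRi : R * R = R := by
    simp only [hR, sub_mul, mul_sub, one_mul, mul_one, hTi]
    abel
  have hc₁ : Commute Y₁ R := (Commute.one_right _).sub_right hY₁T
  have hc₂ : Commute Y₂ R := (Commute.one_right _).sub_right hY₂T
  have a₁ := abs_Lam_le_of_proj inp W Y₁ R hY₁h hY₁i hRh hRi hc₁
  have a₂ := abs_Lam_le_of_proj inp W Y₂ R hY₂h hY₂i hRh hRi hc₂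
  have e : A = O + (2 : ℂ) • (Y₁ - Y₁ * R) - (2 : ℂ) • (Y₂ - Y₂ * R) := by
    rw [hA, hR]
    simp only [sub_mul, mul_sub, mul_one, one_mul, smul_sub]
    abel
  rw [e, map_sub, map_add, map_smul, map_smul, map_sub, map_sub]
  simp only [smul_eq_mul, Complex.add_re, Complex.sub_re, Complex.mul_re, Complex.re_ofNat,
    Complex.im_ofNat, zero_mul, sub_zero]
  have b0 := (Complex.re_le_norm (Lam (Finset.univ.map inp) W O)).trans hO
  have b1 := (Complex.re_le_norm (Lam (Finset.univ.map inp) W Y₁)).trans h₁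
  have b2 := Complex.abs_re_le_norm (Lam (Finset.univ.map inp) W Y₂)
  have b3 := (abs_le.mp b2).1
  have a₁' := (abs_le.mp a₁).1
  have a₂' := (abs_le.mp a₂).2
  linarith

/-- The mass of the failure of the tests: this is where the circuit being almost correct enters. -/
lemma partB {n : ℕ} (inp : Fin n ↪ Fin N) {W : Op N} (hW : Wᴴ * W = 1) {X : Fin N → M2}
    (hX : AllOK X) (L : List (RGate N)) (hL : L.Pairwise fun g h => Disjoint g.S h.S)
    (Zh : Op N) (hZh : Zhᴴ = Zh) (hZi : Zh * Zh = Zh) (hcZ : ∀ h ∈ L, Commute (Fh X h) Zh)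
    (O D₀ A : Op N) (hAh : Aᴴ = A) (hAA : A * A = 1)
    (hAF : ∀ h ∈ L, Commute A (Fh X h)) (hAZ : Commute A Zh)
    (hOF : ∀ h ∈ L, Commute O (Fh X h))
    (hA : A = O + D₀ * (pY X L * Zh))
    (s : ℝ) (hs0 : 0 ≤ s) (hs1 : s ≤ 1) :
    s * (Pl inp W (1 - pY X L * Zh)).re
      ≤ (1 - (Lam (Finset.univ.map inp) W A).re)
        + (s * Lam (Finset.univ.map inp) W O + ((1 - s : ℝ) : ℂ) * Lam (Finset.univ.map inp) W (O * Zh)
          - Lam (Finset.univ.map inp) W (fK X L (fun k => (((1 - s : ℝ) : ℂ)) ^ k) * (O * Zh))).re := by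
  set Λ := Lam (Finset.univ.map inp) W with hΛ
  set Pos := Pl inp W with hPos
  set u : ℝ := 1 - s with hu
  have hu0 : 0 ≤ u := by rw [hu]; linarith
  have hu1 : u ≤ 1 := by rw [hu]; linarith
  set w : ℝ := Real.sqrt u with hw
  have hw0 : 0 ≤ w := Real.sqrt_nonneg _
  have hww : w * w = u := Real.mul_self_sqrt hu0
  set a : Op N := fK X L (fun k => ((w ^ k : ℝ) : ℂ)) with ha
  set aa : Op N := fK X L (fun k => ((u : ℂ)) ^ k) with haa
  have e_aa : a * a = aa := by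
    rw [ha, haa, ← fK_mul hX L hL]
    congr 1
    funext k
    rw [← Complex.ofReal_mul, ← mul_pow, hww, Complex.ofReal_pow]
  have ha_h : aᴴ = a := fK_herm_real hX L hL _
  have hcfz : ∀ f, Commute (fK X L f) Zh := fun f =>
    (fK_commute_of X Zh L (fun h hh => (hcZ h hh).symm) f).symm
  have hAf : ∀ f, Commute A (fK X L f) := fun f => fK_commute_of X A L hAF f
  have hOf : ∀ f, Commute O (fK X L f) := fun f => fK_commute_of X O L hOF f
  set b₁ : Op N := (w : ℂ) • 1 with hb₁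
  have hb₁c : ∀ C : Op N, Commute C b₁ := fun C => (Commute.one_right _).smul_right _
  set D : Op N := a * Zh + b₁ * (1 - Zh) with hD
  set C : Op N := aa * Zh + (u : ℂ) • (1 - Zh) with hC
  have hDh : Dᴴ = D := by
    rw [hD, Matrix.conjTranspose_add, Matrix.conjTranspose_mul, Matrix.conjTranspose_mul, ha_h, hZh,
      Matrix.conjTranspose_sub, Matrix.conjTranspose_one, hZh, hb₁, Matrix.conjTranspose_smul,
      Matrix.conjTranspose_one]
    have e1 : Zh * a = a * Zh := (hcfz _).eq.symm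
    have e2 : (1 - Zh) * ((w : ℂ) • (1 : Op N)) = ((w : ℂ) • (1 : Op N)) * (1 - Zh) :=
      (hb₁c _).eq
    simp only [Complex.star_def, Complex.conj_ofReal]
    rw [e1, e2]
  have hDD : Dᴴ * D = C := by
    rw [hDh, hD, sector_mul Zh a b₁ a b₁ hZi (hcfz _).symm (hb₁c _), e_aa, hC, hb₁]
    rw [smul_mul_smul_comm, one_mul, ← Complex.ofReal_mul, hww, smul_mul_assoc, one_mul]
  have hAD : Commute A Dᴴ := by
    rw [hDh, hD]
    exact ((hAf _).mul_right hAZ).add_right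
      ((hb₁c _).mul_right ((Commute.one_right _).sub_right hAZ))
  have hmain := Lam_re_le inp W A D hAh hAA hAD
  rw [hDD] at hmain
  -- the test projector dies against `1 - C`
  set p : Op N := pY X L with hp
  have hp_eq : p = fK X L fun k => ((ind0 k : ℝ) : ℂ) := pY_eq_fK X L
  have hpaa : p * aa = p := by
    rw [hp_eq, haa, ← fK_mul hX L hL]
    congr 1
    funext k
    by_cases hk : k = 0 <;> simp [ind0, hk]
  have hTC : p * Zh * C = p * Zh := by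
    rw [hC, mul_add, mul_smul_comm]
    have e1 : p * Zh * (1 - Zh) = 0 := by
      rw [mul_sub, mul_one, mul_assoc, hZi, sub_self]
    have e2 : p * Zh * (aa * Zh) = p * Zh := by
      calc p * Zh * (aa * Zh) = p * (Zh * aa) * Zh := by simp only [mul_assoc]
        _ = p * (aa * Zh) * Zh := by rw [(hcfz _).eq.symm]
        _ = (p * aa) * (Zh * Zh) := by simp only [mul_assoc]
        _ = _ := by rw [hpaa, hZi]
    rw [e1, e2, smul_zero, add_zero]
  have hAC : A * (1 - C) = O * (1 - C) := by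
    rw [hA, add_mul]
    have : D₀ * (p * Zh) * (1 - C) = 0 := by
      rw [mul_assoc, mul_sub, mul_one, hTC, sub_self, mul_zero]
    rw [this, add_zero]
  have hOC : O * (1 - C) = (s : ℂ) • O + (u : ℂ) • (O * Zh) - aa * (O * Zh) := by
    rw [hC, mul_sub, mul_one, mul_add, mul_smul_comm, mul_sub, mul_one]
    have e1 : O * (aa * Zh) = aa * (O * Zh) := by
      rw [← mul_assoc, (hOf _).eq, mul_assoc]
    rw [e1]
    have e2 : (1 : ℂ) = (s : ℂ) + (u : ℂ) := by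
      rw [hu]
      push_cast
      ring
    have e3 : O = ((s : ℂ) + (u : ℂ)) • O := by
      rw [← e2, one_smul]
    nth_rewrite 1 [e3]
    rw [add_smul, smul_sub]
    abel
  have hLam : Λ (A * C) = Λ A - ((s : ℂ) * Λ O + (u : ℂ) * Λ (O * Zh) - Λ (aa * (O * Zh))) := by
    have e : A * C = A - A * (1 - C) := by
      rw [mul_sub, mul_one]
      abel
    rw [e, hAC, hOC, map_sub, map_sub, map_add, map_smul, map_smul]
    simp only [smul_eq_mul]
  -- the mass of `1 - C`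
  set g : ℕ → ℝ := fun k => u - u ^ k + s * ind0 k with hg
  have hg0 : ∀ k, 0 ≤ g k := by
    intro k
    simp only [hg]
    by_cases hk : k = 0
    · subst hk
      simp only [pow_zero, ind0, if_true, mul_one]
      rw [hu]
      linarith
    · have h1 : u ^ k ≤ u := by
        calc u ^ k ≤ u ^ 1 := pow_le_pow_of_le_one hu0 hu1 (Nat.one_le_iff_ne_zero.mpr hk)
          _ = u := pow_one u
      simp only [ind0, hk, if_false, mul_zero]
      linarith
  have hfg : fK X L (fun k => ((g k : ℝ) : ℂ)) = (u : ℂ) • 1 - aa + (s : ℂ) • p := by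
    have e : (fun k => ((g k : ℝ) : ℂ))
        = fun k => ((u : ℂ) * 1 + (-1) * (u : ℂ) ^ k) + (s : ℂ) * ((ind0 k : ℝ) : ℂ) := by
      funext k
      simp only [hg]
      push_cast
      ring
    rw [e, fK_add, fK_add, fK_smul, fK_smul, fK_smul, fK_one, ← haa, ← hp_eq, neg_smul, one_smul]
    abel
  have hPg := Pl_fK_nonneg inp W hX L hL Zh hZh hZi hcfz g hg0
  have hPg' : fK X L (fun k => ((g k : ℝ) : ℂ)) * Zh
      = (1 - C) - (s : ℂ) • (1 - p * Zh) := by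
    rw [hfg, hC]
    have e2 : (1 : ℂ) = (s : ℂ) + (u : ℂ) := by
      rw [hu]
      push_cast
      ring
    have e3 : (1 : Op N) = ((s : ℂ) + (u : ℂ)) • 1 := by
      rw [← e2, one_smul]
    have e4 : (1 : Op N) = (s : ℂ) • 1 + (u : ℂ) • 1 := by
      rw [← add_smul, ← e2, one_smul]
    simp only [add_mul, sub_mul, smul_mul_assoc, one_mul, smul_sub]
    calc (u : ℂ) • Zh - aa * Zh + (s : ℂ) • (p * Zh)
        = ((s : ℂ) • 1 + (u : ℂ) • 1) - (aa * Zh + ((u : ℂ) • 1 - (u : ℂ) • Zh))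
          - ((s : ℂ) • 1 - (s : ℂ) • (p * Zh)) := by abel
      _ = _ := by rw [← e4]
  rw [hPg', map_sub, map_smul, map_sub, Complex.sub_re, Complex.sub_re, ← hPos, Pl_one inp hW,
    Complex.one_re, smul_eq_mul, Complex.re_ofReal_mul] at hPg
  rw [hLam, Complex.sub_re] at hmain
  have e5 : ((s : ℂ) * Λ O + ((1 - s : ℝ) : ℂ) * Λ (O * Zh) - Λ (aa * (O * Zh)))
      = ((s : ℂ) * Λ O + (u : ℂ) * Λ (O * Zh) - Λ (aa * (O * Zh))) := rfl
  rw [e5]
  have e6 := Complex.sub_re (Pos (1 : Op N)) (Pos (p * Zh))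
  linarith

lemma norm_comb (a b c d : ℂ) (x : ℝ) (ha : ‖a‖ ≤ x) (hb : ‖b‖ ≤ x) (hc : ‖c‖ ≤ x) (hd : ‖d‖ ≤ x) :
    ‖(2 : ℂ) * a + (2 : ℂ) * b - (2 : ℂ) * c - d‖ ≤ 7 * x := by
  have n2 : ‖(2 : ℂ)‖ = 2 := by norm_num
  have b1 := norm_sub_le ((2 : ℂ) * a + (2 : ℂ) * b - (2 : ℂ) * c) d
  have b2 := norm_sub_le ((2 : ℂ) * a + (2 : ℂ) * b) ((2 : ℂ) * c)
  have b3 := norm_add_le ((2 : ℂ) * a) ((2 : ℂ) * b)
  rw [norm_mul, n2] at b2 b3
  rw [norm_mul, n2] at b3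
  linarith

/-- The local observable, as three product projectors and the identity. -/
noncomputable def Olocal (U₁ U₂ U₃ : Fin N → M2) : Op N :=
  (2 : ℂ) • tensor U₁ + (2 : ℂ) • tensor U₂ - (2 : ℂ) • tensor U₃ - 1

lemma Olocal_comb (Ψ : Op N →ₗ[ℂ] ℂ) (U₁ U₂ U₃ : Fin N → M2) (x : ℝ) (h₁ : ‖Ψ (tensor U₁)‖ ≤ x)
    (h₂ : ‖Ψ (tensor U₂)‖ ≤ x) (h₃ : ‖Ψ (tensor U₃)‖ ≤ x) (h₄ : ‖Ψ 1‖ ≤ x) :
    ‖Ψ (Olocal U₁ U₂ U₃)‖ ≤ 7 * x := by
  rw [Olocal, map_sub, map_sub, map_add, map_smul, map_smul, map_smul]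
  exact norm_comb _ _ _ _ x h₁ h₂ h₃ h₄

lemma Olocal_mul (U₁ U₂ U₃ Z : Fin N → M2) :
    Olocal U₁ U₂ U₃ * tensor Z = (2 : ℂ) • tensor (fun s => U₁ s * Z s)
      + (2 : ℂ) • tensor (fun s => U₂ s * Z s) - (2 : ℂ) • tensor (fun s => U₃ s * Z s) - tensor Z := by
  rw [Olocal]
  simp only [sub_mul, add_mul, smul_mul_assoc, one_mul, tensor_mul]

lemma ok_mul_of_or {U Z : M2} (hU : SiteOK U) (hZ : SiteOK Z) (h : U = 1 ∨ Z = 1) :
    SiteOK (U * Z) := by
  rcases h with h | h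
  · rw [h, one_mul]; exact hZ
  · rw [h, mul_one]; exact hU

/-- The core theorem. -/
theorem exact_core {n : ℕ} (inp : Fin n ↪ Fin N) {W : Op N} (hW : Wᴴ * W = 1) (ε' : ℝ)
    (hε' : 0 ≤ ε')
    (hb : ∀ Z : Fin N → M2, (∀ s, Pol (Z s)) → ‖Lam (Finset.univ.map inp) W (tensor Z)‖ ≤ ε')
    {X : Fin N → M2} (hX : AllOK X) (L : List (RGate N))
    (hL : L.Pairwise fun g h => Disjoint g.S h.S)
    {Z₀ : Fin N → M2} (hZ₀ : AllOK Z₀) (hZ₁ : ∀ h ∈ L, ∀ s ∈ h.S, Z₀ s = 1)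
    {U₁ U₂ U₃ : Fin N → M2} (hU₁ : AllOK U₁) (hU₂ : AllOK U₂) (hU₃ : AllOK U₃)
    (hUL₁ : ∀ h ∈ L, ∀ s ∈ h.S, U₁ s = 1) (hUL₂ : ∀ h ∈ L, ∀ s ∈ h.S, U₂ s = 1)
    (hUL₃ : ∀ h ∈ L, ∀ s ∈ h.S, U₃ s = 1)
    (hUZ₁ : ∀ s, U₁ s = 1 ∨ Z₀ s = 1) (hUZ₂ : ∀ s, U₂ s = 1 ∨ Z₀ s = 1)
    (hUZ₃ : ∀ s, U₃ s = 1 ∨ Z₀ s = 1)
    (Y₁ Y₂ : Op N) (hY₁h : Y₁ᴴ = Y₁) (hY₁i : Y₁ * Y₁ = Y₁)
    (hY₁F : ∀ h ∈ L, Commute Y₁ (Fh X h)) (hY₁Z : Commute Y₁ (tensor Z₀))
    (hY₂h : Y₂ᴴ = Y₂) (hY₂i : Y₂ * Y₂ = Y₂)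
    (hY₂F : ∀ h ∈ L, Commute Y₂ (Fh X h)) (hY₂Z : Commute Y₂ (tensor Z₀))
    (κ : ℝ) (h₁ : ‖Lam (Finset.univ.map inp) W Y₁‖ ≤ κ) (h₂ : ‖Lam (Finset.univ.map inp) W Y₂‖ ≤ κ)
    (A : Op N) (hAh : Aᴴ = A) (hAA : A * A = 1)
    (hA : A = Olocal U₁ U₂ U₃ + (2 : ℂ) • ((Y₁ - Y₂) * (pY X L * tensor Z₀)))
    (s : ℝ) (hs0 : 0 ≤ s) (hs1 : s ≤ 1) :
    (Lam (Finset.univ.map inp) W A).re
        ≤ 7 * ε' + 4 * κ + 4 * (Pl inp W (1 - pY X L * tensor Z₀)).re ∧
      s * (Pl inp W (1 - pY X L * tensor Z₀)).re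
        ≤ (1 - (Lam (Finset.univ.map inp) W A).re) + 7 * ε' * (1 + (1 + 10 * s) ^ L.length) := by
  set Zh := tensor Z₀ with hZh
  set Λ := Lam (Finset.univ.map inp) W with hΛ
  set p := pY X L with hp
  set O := Olocal U₁ U₂ U₃ with hO
  have hZh_h : Zhᴴ = Zh := tensor_herm_ok hZ₀
  have hZh_i : Zh * Zh = Zh := tensor_idem_ok hZ₀
  have hFZ : ∀ h ∈ L, Commute (Fh X h) Zh := fun h hh =>
    (tensor_commute_Fh X h Z₀ (hZ₁ h hh)).symm
  have hp_eq : p = fK X L fun k => ((ind0 k : ℝ) : ℂ) := pY_eq_fK X L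
  have hp_h : pᴴ = p := pY_herm hX L hL
  have hp_i : p * p = p := pY_idem hX L hL
  have hpZ : Commute p Zh := by
    rw [hp_eq]
    exact (fK_commute_of X Zh L (fun h hh => (hFZ h hh).symm) _).symm
  have hFp : ∀ h ∈ L, Commute (Fh X h) p := fun h hh => by
    rw [hp_eq]
    exact fK_commute_of X (Fh X h) L (fun h' hh' => Fh_pairwise_commute X L hL h hh h' hh') _
  set T := p * Zh with hT
  have hT_h : Tᴴ = T := by
    rw [hT, Matrix.conjTranspose_mul, hp_h, hZh_h, hpZ.eq]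
  have hT_i : T * T = T := by
    rw [hT]
    calc p * Zh * (p * Zh) = p * (Zh * p) * Zh := by simp only [mul_assoc]
      _ = p * (p * Zh) * Zh := by rw [hpZ.eq.symm]
      _ = (p * p) * (Zh * Zh) := by simp only [mul_assoc]
      _ = _ := by rw [hp_i, hZh_i]
  have hYT : ∀ Y : Op N, (∀ h ∈ L, Commute Y (Fh X h)) → Commute Y Zh → Commute Y T := by
    intro Y h1 h2
    rw [hT]
    refine Commute.mul_right ?_ h2
    rw [hp_eq]
    exact fK_commute_of X Y L h1 _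
  have hUF : ∀ U : Fin N → M2, (∀ h ∈ L, ∀ s ∈ h.S, U s = 1) → ∀ h ∈ L, Commute (tensor U) (Fh X h) :=
    fun U hU h hh => tensor_commute_Fh X h U (hU h hh)
  have hOF : ∀ h ∈ L, Commute O (Fh X h) := by
    intro h hh
    rw [hO, Olocal]
    exact ((((hUF U₁ hUL₁ h hh).smul_left _).add_left ((hUF U₂ hUL₂ h hh).smul_left _)).sub_left
      ((hUF U₃ hUL₃ h hh).smul_left _)).sub_left (Commute.one_left _)
  have hOZ : Commute O Zh := by
    rw [hO, Olocal]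
    exact (((((tensor_commute hUZ₁).smul_left _).add_left ((tensor_commute hUZ₂).smul_left _)).sub_left
      ((tensor_commute hUZ₃).smul_left _))).sub_left (Commute.one_left _)
  have hAF : ∀ h ∈ L, Commute A (Fh X h) := by
    intro h hh
    rw [hA]
    refine (hOF h hh).add_left (Commute.smul_left (Commute.mul_left
      ((hY₁F h hh).sub_left (hY₂F h hh)) ?_) _)
    exact ((hFp h hh).symm).mul_left (hFZ h hh).symm
  have hAZ : Commute A Zh := by
    rw [hA]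
    refine hOZ.add_left (Commute.smul_left (Commute.mul_left (hY₁Z.sub_left hY₂Z) ?_) _)
    exact hpZ.mul_left (Commute.refl _)
  have hA' : A = O + ((2 : ℂ) • (Y₁ - Y₂)) * (p * Zh) := by
    rw [hA, smul_mul_assoc]
  have hone : ‖Λ 1‖ ≤ ε' := by
    have := hb (fun _ => 1) (fun _ => pol_ok (Or.inl rfl))
    rwa [tensor_one] at this
  have hten : ∀ U : Fin N → M2, AllOK U → ‖Λ (tensor U)‖ ≤ ε' := fun U hU =>
    hb U fun s => pol_ok (hU s)
  have hO0 : ‖Λ O‖ ≤ 7 * ε' :=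
    Olocal_comb Λ U₁ U₂ U₃ ε' (hten _ hU₁) (hten _ hU₂) (hten _ hU₃) hone
  have hmul : ∀ U : Fin N → M2, AllOK U → (∀ s, U s = 1 ∨ Z₀ s = 1) →
      AllOK (fun s => U s * Z₀ s) := fun U hU hUZ s => ok_mul_of_or (hU s) (hZ₀ s) (hUZ s)
  have hOZ0 : ‖Λ (O * Zh)‖ ≤ 7 * ε' := by
    rw [hO, hZh, Olocal_mul, map_sub, map_sub, map_add, map_smul, map_smul, map_smul]
    exact norm_comb _ _ _ _ ε' (hten _ (hmul _ hU₁ hUZ₁)) (hten _ (hmul _ hU₂ hUZ₂))
      (hten _ (hmul _ hU₃ hUZ₃)) (hten _ hZ₀)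
  have hOZ1 : ∀ w : ℂ, ‖Λ (fK X L (fun k => w ^ k) * (O * Zh))‖
      ≤ 7 * ((1 + 10 * ‖w - 1‖) ^ L.length * ε') := by
    intro w
    have hnear : ∀ U : Fin N → M2, AllOK U → (∀ h ∈ L, ∀ s ∈ h.S, U s = 1) →
        ‖Λ (fK X L (fun k => w ^ k) * tensor U)‖ ≤ (1 + 10 * ‖w - 1‖) ^ L.length * ε' := by
      intro U hU hU1
      exact gF_near Λ ε' hε' hb hX L hL U hU hU1 w
    have hmulL : ∀ U : Fin N → M2, (∀ h ∈ L, ∀ s ∈ h.S, U s = 1) →
        ∀ h ∈ L, ∀ s ∈ h.S, U s * Z₀ s = 1 := by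
      intro U hU h hh s hs
      rw [hU h hh s hs, hZ₁ h hh s hs, one_mul]
    rw [hO, hZh, Olocal_mul]
    simp only [mul_sub, mul_add, mul_smul_comm, map_sub, map_add, map_smul, smul_eq_mul]
    exact norm_comb _ _ _ _ _ (hnear _ (hmul _ hU₁ hUZ₁) (hmulL _ hUL₁))
      (hnear _ (hmul _ hU₂ hUZ₂) (hmulL _ hUL₂)) (hnear _ (hmul _ hU₃ hUZ₃) (hmulL _ hUL₃))
      (hnear _ hZ₀ hZ₁)
  constructor
  · exact partA inp W T O Y₁ Y₂ A hT_h hT_i hY₁h hY₁i (hYT Y₁ hY₁F hY₁Z) hY₂h hY₂i (hYT Y₂ hY₂F hY₂Z)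
      hA (7 * ε') κ hO0 h₁ h₂
  · have hB := partB inp hW hX L hL Zh hZh_h hZh_i hFZ O ((2 : ℂ) • (Y₁ - Y₂)) A hAh hAA hAF hAZ hOF
      hA' s hs0 hs1
    refine hB.trans ?_
    have hnorm : ‖((1 - s : ℝ) : ℂ) - 1‖ = s := by
      have : ((1 - s : ℝ) : ℂ) - 1 = ((-s : ℝ) : ℂ) := by
        push_cast
        ring
      rw [this, Complex.norm_real, Real.norm_eq_abs, abs_neg, abs_of_nonneg hs0]
    have h3 := hOZ1 ((1 - s : ℝ) : ℂ)
    rw [hnorm] at h3
    have hs' : 0 ≤ 1 - s := by linarith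
    have h4 : ‖(s : ℂ) * Λ O‖ ≤ s * (7 * ε') := by
      rw [norm_mul, Complex.norm_real, Real.norm_eq_abs, abs_of_nonneg hs0]
      gcongr
    have h5 : ‖((1 - s : ℝ) : ℂ) * Λ (O * Zh)‖ ≤ (1 - s) * (7 * ε') := by
      rw [norm_mul, Complex.norm_real, Real.norm_eq_abs, abs_of_nonneg hs']
      gcongr
    have h6 := (Complex.re_le_norm _).trans (norm_sub_le (((s : ℂ) * Λ O)
      + ((1 - s : ℝ) : ℂ) * Λ (O * Zh)) (Λ (fK X L (fun k => ((1 - s : ℝ) : ℂ) ^ k) * (O * Zh))))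
    have h7 := norm_add_le ((s : ℂ) * Λ O) (((1 - s : ℝ) : ℂ) * Λ (O * Zh))
    have e8 : 7 * ε' * (1 + (1 + 10 * s) ^ L.length)
        = s * (7 * ε') + (1 - s) * (7 * ε') + 7 * ((1 + 10 * s) ^ L.length * ε') := by ring
    rw [e8]
    linarith

end Vale.Agent.Lib.P368z
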