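import Vale.Agent.Lib.P368z.Exact2

/-!
Near-exact parity at entangling depth four: the operator of the last two layers.
-/

open scoped BigOperators Matrix Matrix.Norms.L2Operator

namespace Vale.Agent.Lib.P368z

open Vale.Agent.Lib.P368x Vale.Agent.Lib.P368y

variable {N : ℕ}

/-- The last layer, with the two product projectors equal away from the measured qubit. -/
lemma layer_conj_site₂ (gs : List (RGate N)) (hgs : gs.Pairwise fun g h => Disjoint g.S h.S)
    (q : Fin N) (p : M2) (hp : Proj1 p) :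
    ∃ X₁ X₂ : Fin N → M2, AllOK X₁ ∧ AllOK X₂ ∧ (∀ s, s ≠ q → X₁ s = X₂ s) ∧
      ((∀ s, s ≠ q → X₁ s = 1) ∨ ∃ g ∈ gs, q ∈ g.S ∧ ∀ s, s ∉ g.S → X₁ s = 1) ∧
      (lop gs)ᴴ * site q p * lop gs = site q p + tensor X₁ - tensor X₂ := by
  have okq : AllOK (Function.update (fun _ => 1) q p : Fin N → M2) := by
    intro s
    by_cases hs : s = q
    · subst hs
      simp only [Function.update_self]
      exact Or.inr hp
    · simp only [Function.update_of_ne hs]
      exact Or.inl rfl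
  induction gs with
  | nil =>
    refine ⟨_, _, okq, okq, fun _ _ => rfl, Or.inl fun s hs => by simp [Function.update_of_ne hs], ?_⟩
    simp
  | cons g gs ih =>
    obtain ⟨hg, hgs'⟩ := List.pairwise_cons.mp hgs
    have hunfold : (lop (g :: gs))ᴴ * site q p * lop (g :: gs)
        = (lop gs)ᴴ * (g.op * site q p * g.op) * lop gs := by
      rw [lop_cons, Matrix.conjTranspose_mul, g.herm]
      simp only [mul_assoc]
    by_cases hq : q ∈ g.S
    · set r : M2 := 1 - (2 : ℂ) • g.ρ q with hr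
      have hρ := g.hS q hq
      have hh : rᴴ = r := by
        rw [hr, Matrix.conjTranspose_sub, Matrix.conjTranspose_smul, hρ.herm]
        simp
      have hru : Uni r := by
        have hs : r * r = 1 := by
          simp only [hr, mul_sub, sub_mul, mul_one, one_mul, smul_mul_assoc, mul_smul_comm,
            hρ.idem]
          ext a b
          simp only [Matrix.sub_apply, Matrix.smul_apply, smul_eq_mul]
          ring
        exact ⟨by rw [hh, hs], by rw [hh, hs]⟩
      have hprp : Proj1 (r * p * r) := by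
        have := hp.conj hru
        rwa [hh] at this
      have ok : ∀ (A : M2), Proj1 A → AllOK (Function.update g.ρ q A) := by
        intro A hA s
        by_cases hs : s = q
        · subst hs; simp only [Function.update_self]; exact Or.inr hA
        · simp only [Function.update_of_ne hs]; exact g.site_ok s
      have hsup : ∀ (A : M2), ∀ s, s ∉ g.S → Function.update g.ρ q A s = 1 := by
        intro A s hs
        have hne : s ≠ q := fun h' => hs (h' ▸ hq)
        rw [Function.update_of_ne hne]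
        exact g.hO s hs
      refine ⟨Function.update g.ρ q (r * p * r), Function.update g.ρ q p, ok _ hprp, ok _ hp,
        fun s hs => by simp [Function.update_of_ne hs],
        Or.inr ⟨g, List.mem_cons_self .., hq, fun s hs => hsup _ s hs⟩, ?_⟩
      rw [hunfold, gate_conj_site g q p hq]
      have hsupp : ∀ (A : M2) , ∀ h ∈ gs, ∀ s ∈ h.S, Function.update g.ρ q A s = 1 := by
        intro A h hh s hs
        have hd : s ∉ g.S := fun hs' => (Finset.disjoint_left.mp (hg h hh)) hs' hs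
        exact hsup A s hd
      have c1 : Commute (lop gs) (site q p) := by
        apply lop_commute_tensor
        intro h hh s hs
        have hd : s ∉ g.S := fun hs' => (Finset.disjoint_left.mp (hg h hh)) hs' hs
        have hne : s ≠ q := fun h' => hd (h' ▸ hq)
        simp [hne]
      have c2 := lop_commute_tensor gs _ (hsupp (r * p * r))
      have c3 := lop_commute_tensor gs _ (hsupp p)
      have c : Commute (lop gs) (site q p + tensor (Function.update g.ρ q (r * p * r))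
          - tensor (Function.update g.ρ q p)) := (c1.add_right c2).sub_right c3
      rw [mul_assoc, ← c.eq, ← mul_assoc, lop_unitary, one_mul]
    · have hc : Commute g.op (site q p) := by
        refine Commute.sub_left (Commute.one_left _) (Commute.smul_left ?_ _)
        apply tensor_commute
        intro s
        by_cases hs : s ∈ g.S
        · right
          have : s ≠ q := fun h => hq (h ▸ hs)
          simp [this]
        · left; exact g.hO s hs
      have hgg : g.op * site q p * g.op = site q p := by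
        rw [hc.eq, mul_assoc, g.sq, mul_one]
      rw [hunfold, hgg]
      obtain ⟨X₁, X₂, h1, h2, h3, h4, h5⟩ := ih hgs'
      refine ⟨X₁, X₂, h1, h2, h3, ?_, h5⟩
      rcases h4 with h4 | ⟨k, hk, h6⟩
      · exact Or.inl h4
      · exact Or.inr ⟨k, List.mem_cons_of_mem _ hk, h6⟩

/-- A layer, with the gate on the measured qubit taken out. -/
lemma split_gate (gs : List (RGate N)) (hgs : gs.Pairwise fun g h => Disjoint g.S h.S) (q : Fin N) :
    (∃ gs' : List (RGate N), gs'.Sublist gs ∧ (∀ h ∈ gs', q ∉ h.S) ∧ lop gs = lop gs') ∨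
    (∃ h₀ ∈ gs, q ∈ h₀.S ∧ ∃ gs' : List (RGate N), gs'.Sublist gs ∧
      (∀ h ∈ gs', Disjoint h.S h₀.S) ∧ lop gs = h₀.op * lop gs') := by
  induction gs with
  | nil =>
    exact Or.inl ⟨[], List.Sublist.refl _, by simp, rfl⟩
  | cons g gs ih =>
    obtain ⟨hg, hgs'⟩ := List.pairwise_cons.mp hgs
    by_cases hq : q ∈ g.S
    · refine Or.inr ⟨g, List.mem_cons_self .., hq, gs, List.sublist_cons_self _ _, ?_, lop_cons g gs⟩
      exact fun h hh => (hg h hh).symm
    · rcases ih hgs' with ⟨gs', h1, h2, h3⟩ | ⟨h₀, h1, h2, gs', h3, h4, h5⟩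
      · refine Or.inl ⟨g :: gs', h1.cons_cons g, ?_, ?_⟩
        · intro h hh
          rcases List.mem_cons.mp hh with rfl | hh'
          · exact hq
          · exact h2 h hh'
        · rw [lop_cons, lop_cons, h3]
      · refine Or.inr ⟨h₀, List.mem_cons_of_mem _ h1, h2, g :: gs', h3.cons_cons g, ?_, ?_⟩
        · intro h hh
          rcases List.mem_cons.mp hh with rfl | hh'
          · exact hg h₀ h1
          · exact h4 h hh'
        · have hc : Commute g.op h₀.op := RGate.commute_of_disj (hg h₀ h1)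
          rw [lop_cons, lop_cons, h5, ← mul_assoc, ← mul_assoc, hc.eq]

/-- The data of the gate of a layer on the measured qubit. -/
lemma local_gate (Λ : Op N →ₗ[ℂ] ℂ) (ε' : ℝ) (hε' : 0 ≤ ε')
    (hb : ∀ Z : Fin N → M2, (∀ s, Pol (Z s)) → ‖Λ (tensor Z)‖ ≤ ε') (gs : List (RGate N))
    (hgs : gs.Pairwise fun g h => Disjoint g.S h.S) (q : Fin N) (p : M2) (hp : Proj1 p) :
    ∃ (G₀ : Op N) (S₀ : Finset (Fin N)) (gs' : List (RGate N)) (U₂ U₃ : Fin N → M2),
      q ∈ S₀ ∧ G₀ ∈ SA S₀ ∧ G₀ᴴ = G₀ ∧ G₀ * G₀ = 1 ∧ gs'.Sublist gs ∧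
      (∀ h ∈ gs', Disjoint h.S S₀) ∧ lop gs = G₀ * lop gs' ∧ AllOK U₂ ∧ AllOK U₃ ∧
      (∀ s, s ∉ S₀ → U₂ s = 1) ∧ (∀ s, s ∉ S₀ → U₃ s = 1) ∧
      G₀ * site q p * G₀ = site q p + tensor U₂ - tensor U₃ ∧
      (∀ X : Fin N → M2, AllOK X → ‖Λ (G₀ * tensor (XOn S₀ X) * G₀)‖ ≤ 11 * ε') := by
  rcases split_gate gs hgs q with ⟨gs', h1, h2, h3⟩ | ⟨h₀, _, h2, gs', h3, h4, h5⟩
  · have okq : AllOK (Function.update (fun _ => 1) q p : Fin N → M2) := by
      intro s
      by_cases hs : s = q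
      · subst hs
        simp only [Function.update_self]
        exact Or.inr hp
      · simp only [Function.update_of_ne hs]
        exact Or.inl rfl
    have hoff : ∀ s, s ∉ ({q} : Finset (Fin N)) → Function.update (fun _ => (1 : M2)) q p s = 1 := by
      intro s hs
      have : s ≠ q := by simpa using hs
      simp [Function.update_of_ne this]
    refine ⟨1, {q}, gs', _, _, by simp, one_mem _, by simp, by simp, h1, ?_, by rw [h3, one_mul],
      okq, okq, hoff, hoff, ?_, ?_⟩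
    · intro h hh
      simpa using h2 h hh
    · simp [site]
    · intro X hX
      rw [one_mul, mul_one]
      refine (hb _ fun s => pol_ok (XOn_ok hX s)).trans ?_
      linarith
  · set r : M2 := 1 - (2 : ℂ) • h₀.ρ q with hr
    have hρ := h₀.hS q h2
    have hh : rᴴ = r := by
      rw [hr, Matrix.conjTranspose_sub, Matrix.conjTranspose_smul, hρ.herm]
      simp
    have hru : Uni r := by
      have hs : r * r = 1 := by
        simp only [hr, mul_sub, sub_mul, mul_one, one_mul, smul_mul_assoc, mul_smul_comm,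
          hρ.idem]
        ext a b
        simp only [Matrix.sub_apply, Matrix.smul_apply, smul_eq_mul]
        ring
      exact ⟨by rw [hh, hs], by rw [hh, hs]⟩
    have hprp : Proj1 (r * p * r) := by
      have := hp.conj hru
      rwa [hh] at this
    have ok : ∀ (A : M2), Proj1 A → AllOK (Function.update h₀.ρ q A) := by
      intro A hA s
      by_cases hs : s = q
      · subst hs; simp only [Function.update_self]; exact Or.inr hA
      · simp only [Function.update_of_ne hs]; exact h₀.site_ok s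
    have hsup : ∀ (A : M2), ∀ s, s ∉ h₀.S → Function.update h₀.ρ q A s = 1 := by
      intro A s hs
      have hne : s ≠ q := fun h' => hs (h' ▸ h2)
      rw [Function.update_of_ne hne]
      exact h₀.hO s hs
    refine ⟨h₀.op, h₀.S, gs', Function.update h₀.ρ q (r * p * r), Function.update h₀.ρ q p, h2,
      RGate.op_mem h₀, h₀.herm, h₀.sq, h3, h4, h5, ok _ hprp, ok _ hp, hsup _, hsup _,
      gate_conj_site h₀ q p h2, ?_⟩
    intro X hX
    have e : h₀.op * tensor (XOn h₀.S X) * h₀.op = 1 - Fh X h₀ := by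
      rw [Fh, Yh]
      abel
    rw [e, map_sub]
    have h6 := eJ_bound Λ ε' hε' hb hX [h₀] (List.pairwise_singleton _ _) 1 (fun _ => 1)
      (fun _ => pol_one) (by simp)
    simp only [eJ, one_mul, zero_add, add_zero, tensor_one, mul_one, List.length_cons,
      List.length_nil, Nat.choose_self, Nat.cast_one, pow_one] at h6
    have h7 : ‖Λ 1‖ ≤ ε' := by
      have := hb (fun _ => 1) (fun _ => pol_one)
      rwa [tensor_one] at this
    have h8 := norm_sub_le (Λ 1) (Λ (Fh X h₀))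
    linarith

/-- The operator of the last two layers. -/
theorem depth_four_core {n : ℕ} (inp : Fin n ↪ Fin N) {W : Op N} (hW : Wᴴ * W = 1) (ε' : ℝ)
    (hε' : 0 ≤ ε')
    (hb : ∀ Z : Fin N → M2, (∀ s, Pol (Z s)) → ‖Lam (Finset.univ.map inp) W (tensor Z)‖ ≤ ε')
    (gs₃ gs₄ : List (RGate N)) (hd₃ : gs₃.Pairwise fun g h => Disjoint g.S h.S)
    (hd₄ : gs₄.Pairwise fun g h => Disjoint g.S h.S) (q : Fin N) (p : M2) (hp : Proj1 p) (M : ℕ)
    (hcount : ∀ g ∈ gs₄, q ∈ g.S → (gs₃.filter fun h => ¬ Disjoint h.S g.S).length ≤ M)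
    (s : ℝ) (hs0 : 0 ≤ s) (hs1 : s ≤ 1) :
    ∃ P : ℝ, (Lam (Finset.univ.map inp) W
          ((lop gs₃)ᴴ * ((lop gs₄)ᴴ * ((2 : ℂ) • site q p - 1) * lop gs₄) * lop gs₃)).re
        ≤ 51 * ε' + 4 * P ∧
      s * P ≤ (1 - (Lam (Finset.univ.map inp) W
          ((lop gs₃)ᴴ * ((lop gs₄)ᴴ * ((2 : ℂ) • site q p - 1) * lop gs₄) * lop gs₃)).re)
        + 7 * ε' * (1 + (1 + 10 * s) ^ M) := by
  set Λ := Lam (Finset.univ.map inp) W with hΛ
  obtain ⟨X₁, X₂, hX₁, hX₂, hXX, hsupp, hconj⟩ := layer_conj_site₂ gs₄ hd₄ q p hp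
  obtain ⟨G₀, S₀, gs', U₂, U₃, hq₀, hG₀, hG₀h, hG₀s, hsub, hdis, hsplit, hU₂, hU₃, hU₂o, hU₃o, hO₀,
    hκ⟩ := local_gate Λ ε' hε' hb gs₃ hd₃ q p hp
  have hgs' : gs'.Pairwise fun g h => Disjoint g.S h.S := hd₃.sublist hsub
  set G' := lop gs' with hG'
  set Xo := XOff S₀ X₁ with hXo
  have hXo₂ : XOff S₀ X₂ = Xo := by
    funext t
    simp only [hXo, XOff]
    by_cases ht : t ∈ S₀
    · simp [ht]
    · have : t ≠ q := fun h => ht (h ▸ hq₀)
      simp [ht, hXX t this]
  have hXoOK : AllOK Xo := XOff_ok hX₁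
  obtain ⟨L, Z, hL₁, hL₂, hZ, hZX, hZ₁, hform⟩ := conj_form gs' hgs' Xo hXoOK
  have hLp : L.Pairwise fun g h => Disjoint g.S h.S := hgs'.sublist hL₁
  have hLd : ∀ h ∈ L, Disjoint h.S S₀ := fun h hh => hdis h (hL₁.subset hh)
  have hLsub : L.Sublist gs₃ := hL₁.trans hsub
  have hlen : L.length ≤ M := by
    rcases hsupp with h1 | ⟨g, hg, hq, h2⟩
    · have hnil : L = [] := by
        apply List.eq_nil_iff_forall_not_mem.mpr
        intro h hh
        obtain ⟨t, ht, ht1⟩ := hL₂ h hh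
        have ht₀ : t ∉ S₀ := fun h' => Finset.disjoint_left.mp (hLd h hh) ht h'
        have htq : t ≠ q := fun h' => ht₀ (h' ▸ hq₀)
        apply ht1
        simp [hXo, XOff, ht₀, h1 t htq]
      rw [hnil]
      simp
    · have h3 : ∀ h ∈ L, ¬ Disjoint h.S g.S := by
        intro h hh hdj
        obtain ⟨t, ht, ht1⟩ := hL₂ h hh
        have ht₀ : t ∉ S₀ := fun h' => Finset.disjoint_left.mp (hLd h hh) ht h'
        apply ht1
        simp [hXo, XOff, ht₀, h2 t fun hsg => Finset.disjoint_left.mp hdj ht hsg]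
      have h4 : L = L.filter fun h => ¬ Disjoint h.S g.S :=
        (List.filter_eq_self.mpr (by simpa using h3)).symm
      rw [h4]
      exact ((hLsub.filter _).length_le).trans (hcount g hg hq)
  -- the algebra of the two regions
  have hT₀ : Disjoint S₀ (Finset.univ \ S₀) := Finset.disjoint_sdiff
  have hG'mem : G' ∈ SA (Finset.univ \ S₀) := by
    apply lop_mem_SA
    intro g hg t ht
    have : t ∉ S₀ := fun h' => Finset.disjoint_left.mp (hdis g hg) ht h'
    simp [this]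
  have hG'adj : G'ᴴ ∈ SA (Finset.univ \ S₀) := SA_adj hG'mem
  have hG₃ : lop gs₃ = G₀ * G' := hsplit
  have hG₃a : (lop gs₃)ᴴ = G'ᴴ * G₀ := by
    rw [hG₃, Matrix.conjTranspose_mul, hG₀h]
  have hG'u : G'ᴴ * G' = 1 := lop_unitary gs'
  have hG₄u : (lop gs₄)ᴴ * lop gs₄ = 1 := lop_unitary gs₄
  -- the conjugates
  have hconj₃ : ∀ X : Fin N → M2, (lop gs₃)ᴴ * tensor X * lop gs₃
      = (G₀ * tensor (XOn S₀ X) * G₀) * (G'ᴴ * tensor (XOff S₀ X) * G') := by
    intro X
    have hoff : tensor (XOff S₀ X) ∈ SA (Finset.univ \ S₀) := by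
      apply tensor_mem_SA
      intro t ht
      have : t ∈ S₀ := by simpa using ht
      simp [XOff, this]
    have hY : G₀ * tensor (XOn S₀ X) * G₀ ∈ SA S₀ :=
      mul_mem (mul_mem hG₀ (tensor_XOn_mem _ _)) hG₀
    have c1 : Commute G₀ (tensor (XOff S₀ X)) := SA_commute hT₀ hG₀ hoff
    have c2 : Commute (G₀ * tensor (XOn S₀ X) * G₀) G'ᴴ := SA_commute hT₀ hY hG'adj
    rw [hG₃a, hG₃, tensor_split S₀ X]
    calc G'ᴴ * G₀ * (tensor (XOn S₀ X) * tensor (XOff S₀ X)) * (G₀ * G')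
        = G'ᴴ * (G₀ * tensor (XOn S₀ X) * (tensor (XOff S₀ X) * G₀)) * G' := by
          simp only [mul_assoc]
      _ = G'ᴴ * (G₀ * tensor (XOn S₀ X) * (G₀ * tensor (XOff S₀ X))) * G' := by rw [c1.eq]
      _ = (G'ᴴ * (G₀ * tensor (XOn S₀ X) * G₀)) * tensor (XOff S₀ X) * G' := by
          simp only [mul_assoc]
      _ = ((G₀ * tensor (XOn S₀ X) * G₀) * G'ᴴ) * tensor (XOff S₀ X) * G' := by rw [c2.eq]
      _ = _ := by simp only [mul_assoc]
  have hsite₃ : (lop gs₃)ᴴ * site q p * lop gs₃ = site q p + tensor U₂ - tensor U₃ := by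
    have hY : G₀ * site q p * G₀ ∈ SA S₀ := by
      refine mul_mem (mul_mem hG₀ ?_) hG₀
      apply tensor_mem_SA
      intro t ht
      have : t ≠ q := fun h' => ht (h' ▸ hq₀)
      simp [Function.update_of_ne this]
    have c2 : Commute (G₀ * site q p * G₀) G'ᴴ := SA_commute hT₀ hY hG'adj
    rw [hG₃a, hG₃]
    calc G'ᴴ * G₀ * site q p * (G₀ * G') = G'ᴴ * (G₀ * site q p * G₀) * G' := by
          simp only [mul_assoc]
      _ = (G₀ * site q p * G₀) * (G'ᴴ * G') := by
          rw [← c2.eq]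
          simp only [mul_assoc]
      _ = _ := by rw [hG'u, mul_one, hO₀]
  set Y₁ := G₀ * tensor (XOn S₀ X₁) * G₀ with hY₁
  set Y₂ := G₀ * tensor (XOn S₀ X₂) * G₀ with hY₂
  set T := pY Xo L * tensor Z with hT
  have hA : (lop gs₃)ᴴ * ((lop gs₄)ᴴ * ((2 : ℂ) • site q p - 1) * lop gs₄) * lop gs₃
      = Olocal (Function.update (fun _ => 1) q p) U₂ U₃ + (2 : ℂ) • ((Y₁ - Y₂) * T) := by
    have e4 : (lop gs₄)ᴴ * ((2 : ℂ) • site q p - 1) * lop gs₄
        = (2 : ℂ) • (site q p + tensor X₁ - tensor X₂) - 1 := by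
      rw [← hconj, mul_sub, sub_mul, mul_smul_comm, smul_mul_assoc, mul_one, hG₄u]
    have e3 : (lop gs₃)ᴴ * ((2 : ℂ) • (site q p + tensor X₁ - tensor X₂) - 1) * lop gs₃
        = (2 : ℂ) • ((lop gs₃)ᴴ * site q p * lop gs₃) + (2 : ℂ) • ((lop gs₃)ᴴ * tensor X₁ * lop gs₃)
          - (2 : ℂ) • ((lop gs₃)ᴴ * tensor X₂ * lop gs₃) - 1 := by
      have hu : (lop gs₃)ᴴ * lop gs₃ = 1 := lop_unitary gs₃
      rw [mul_sub, sub_mul, mul_one, hu, mul_smul_comm, smul_mul_assoc, mul_sub, mul_add, sub_mul,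
        add_mul, smul_sub, smul_add]
    rw [e4, e3, hsite₃, hconj₃ X₁, hconj₃ X₂, hXo₂, ← hXo, hform, Olocal]
    have e5 : site q p = tensor (Function.update (fun _ => 1) q p) := rfl
    rw [← e5]
    simp only [sub_mul, smul_sub, smul_add]
    rw [← hY₁, ← hY₂]
    abel
  have hAh : ((lop gs₃)ᴴ * ((lop gs₄)ᴴ * ((2 : ℂ) • site q p - 1) * lop gs₄) * lop gs₃)ᴴ
      = (lop gs₃)ᴴ * ((lop gs₄)ᴴ * ((2 : ℂ) • site q p - 1) * lop gs₄) * lop gs₃ := by
    have hs : ((2 : ℂ) • site q p - 1)ᴴ = (2 : ℂ) • site q p - 1 := by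
      rw [Matrix.conjTranspose_sub, Matrix.conjTranspose_one, Matrix.conjTranspose_smul,
        site_conjTranspose, hp.herm]
      simp
    simp only [Matrix.conjTranspose_mul, Matrix.conjTranspose_conjTranspose, hs, mul_assoc]
  have hAA : ((lop gs₃)ᴴ * ((lop gs₄)ᴴ * ((2 : ℂ) • site q p - 1) * lop gs₄) * lop gs₃)
      * ((lop gs₃)ᴴ * ((lop gs₄)ᴴ * ((2 : ℂ) • site q p - 1) * lop gs₄) * lop gs₃) = 1 := by
    have hs : ((2 : ℂ) • site q p - 1) * ((2 : ℂ) • site q p - 1) = 1 := by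
      have hi : site q p * site q p = site q p := by
        rw [← site_mul, hp.idem]
      simp only [mul_sub, sub_mul, mul_one, one_mul, smul_mul_assoc, mul_smul_comm, hi, smul_smul]
      module
    have hu₃ : lop gs₃ * (lop gs₃)ᴴ = 1 := mul_eq_one_comm.mp (lop_unitary gs₃)
    have hu₄ : lop gs₄ * (lop gs₄)ᴴ = 1 := mul_eq_one_comm.mp (lop_unitary gs₄)
    calc _ = (lop gs₃)ᴴ * ((lop gs₄)ᴴ * ((2 : ℂ) • site q p - 1) * (lop gs₄ * (lop gs₃ * (lop gs₃)ᴴ)
            * (lop gs₄)ᴴ) * ((2 : ℂ) • site q p - 1) * lop gs₄) * lop gs₃ := by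
          simp only [mul_assoc]
      _ = _ := by
          rw [hu₃, mul_one, hu₄, mul_one, mul_assoc ((lop gs₄)ᴴ), hs, mul_one, lop_unitary, mul_one,
            lop_unitary]
  have hYi : ∀ X : Fin N → M2, AllOK X → (G₀ * tensor (XOn S₀ X) * G₀)ᴴ = G₀ * tensor (XOn S₀ X) * G₀ ∧
      (G₀ * tensor (XOn S₀ X) * G₀) * (G₀ * tensor (XOn S₀ X) * G₀) = G₀ * tensor (XOn S₀ X) * G₀ := by
    intro X hX
    constructor
    · rw [Matrix.conjTranspose_mul, Matrix.conjTranspose_mul, hG₀h, tensor_herm_ok (XOn_ok hX),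
        mul_assoc]
    · calc (G₀ * tensor (XOn S₀ X) * G₀) * (G₀ * tensor (XOn S₀ X) * G₀)
          = G₀ * tensor (XOn S₀ X) * (G₀ * G₀) * tensor (XOn S₀ X) * G₀ := by
            simp only [mul_assoc]
        _ = G₀ * (tensor (XOn S₀ X) * tensor (XOn S₀ X)) * G₀ := by
            rw [hG₀s, mul_one]
            simp only [mul_assoc]
        _ = _ := by rw [tensor_idem_ok (XOn_ok hX)]
  have hYmem : ∀ X : Fin N → M2, G₀ * tensor (XOn S₀ X) * G₀ ∈ SA S₀ := fun X =>
    mul_mem (mul_mem hG₀ (tensor_XOn_mem _ _)) hG₀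
  have hYF : ∀ X : Fin N → M2, ∀ h ∈ L, Commute (G₀ * tensor (XOn S₀ X) * G₀) (Fh Xo h) := fun X h hh =>
    SA_commute (hLd h hh).symm (hYmem X) (Fh_mem_SA Xo h)
  have hZon : ∀ t ∈ S₀, Z t = 1 := fun t ht => hZX t (by simp [hXo, XOff, ht])
  have hZmem : tensor Z ∈ SA (Finset.univ \ S₀) := by
    apply tensor_mem_SA
    intro t ht
    exact hZon t (by simpa using ht)
  have hYZ : ∀ X : Fin N → M2, Commute (G₀ * tensor (XOn S₀ X) * G₀) (tensor Z) := fun X =>
    SA_commute hT₀ (hYmem X) hZmem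
  have hU₁ : AllOK (Function.update (fun _ => 1) q p : Fin N → M2) := by
    intro t
    by_cases ht : t = q
    · subst ht
      simp only [Function.update_self]
      exact Or.inr hp
    · simp only [Function.update_of_ne ht]
      exact Or.inl rfl
  have hU₁o : ∀ t, t ∉ S₀ → Function.update (fun _ => (1 : M2)) q p t = 1 := by
    intro t ht
    have : t ≠ q := fun h' => ht (h' ▸ hq₀)
    simp [Function.update_of_ne this]
  have hUL : ∀ U : Fin N → M2, (∀ t, t ∉ S₀ → U t = 1) → ∀ h ∈ L, ∀ t ∈ h.S, U t = 1 :=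
    fun U hU h hh t ht => hU t fun h' => Finset.disjoint_left.mp (hLd h hh) ht h'
  have hUZ : ∀ U : Fin N → M2, (∀ t, t ∉ S₀ → U t = 1) → ∀ t, U t = 1 ∨ Z t = 1 := by
    intro U hU t
    by_cases ht : t ∈ S₀
    · exact Or.inr (hZon t ht)
    · exact Or.inl (hU t ht)
  obtain ⟨c1, c2⟩ := exact_core inp hW ε' hε' hb hXoOK L hLp hZ hZ₁ hU₁ hU₂ hU₃ (hUL _ hU₁o)
    (hUL _ hU₂o) (hUL _ hU₃o) (hUZ _ hU₁o) (hUZ _ hU₂o) (hUZ _ hU₃o) Y₁ Y₂ (hYi X₁ hX₁).1
    (hYi X₁ hX₁).2 (hYF X₁) (hYZ X₁) (hYi X₂ hX₂).1 (hYi X₂ hX₂).2 (hYF X₂) (hYZ X₂) (11 * ε')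
    (hκ X₁ hX₁) (hκ X₂ hX₂) _ hAh hAA hA s hs0 hs1
  refine ⟨(Pl inp W (1 - pY Xo L * tensor Z)).re, ?_, ?_⟩
  · refine c1.trans (le_of_eq ?_)
    ring
  · refine c2.trans ?_
    have h1 : (1 + 10 * s) ^ L.length ≤ (1 + 10 * s) ^ M :=
      pow_le_pow_right₀ (by linarith) hlen
    have h7 : 0 ≤ 7 * ε' := by positivity
    have h8 : 7 * ε' * (1 + (1 + 10 * s) ^ L.length) ≤ 7 * ε' * (1 + (1 + 10 * s) ^ M) := by
      gcongr
    linarith

end Vale.Agent.Lib.P368z
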