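import Vale.Agent.Lib.P368z.Polar
import Vale.Agent.Lib.P368z.Cheb

/-!
The tests of a layer of gates: the functional calculus of the number of failed tests.
-/

open scoped BigOperators Matrix Matrix.Norms.L2Operator

namespace Vale.Agent.Lib.P368z

open Vale.Agent.Lib.P368x Vale.Agent.Lib.P368y

variable {N : ℕ}

/-- The test of one gate. -/
noncomputable def Yh (X : Fin N → M2) (h : RGate N) : Op N := h.op * tensor (XOn h.S X) * h.op

/-- Failing the test of one gate. -/
noncomputable def Fh (X : Fin N → M2) (h : RGate N) : Op N := 1 - Yh X h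

lemma Yh_congr {X X' : Fin N → M2} {h : RGate N} (hX : ∀ s ∈ h.S, X s = X' s) : Yh X h = Yh X' h := by
  have : XOn h.S X = XOn h.S X' := by
    funext s
    by_cases hs : s ∈ h.S
    · simp [XOn, hs, hX s hs]
    · simp [XOn, hs]
  rw [Yh, Yh, this]

lemma Yh_herm {X : Fin N → M2} (hX : AllOK X) (h : RGate N) : (Yh X h)ᴴ = Yh X h := by
  rw [Yh, Matrix.conjTranspose_mul, Matrix.conjTranspose_mul, h.herm, tensor_herm_ok (XOn_ok hX),
    mul_assoc]

lemma Yh_idem {X : Fin N → M2} (hX : AllOK X) (h : RGate N) : Yh X h * Yh X h = Yh X h := by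
  rw [Yh]
  calc h.op * tensor (XOn h.S X) * h.op * (h.op * tensor (XOn h.S X) * h.op)
      = h.op * tensor (XOn h.S X) * (h.op * h.op) * tensor (XOn h.S X) * h.op := by
        simp only [mul_assoc]
    _ = h.op * (tensor (XOn h.S X) * tensor (XOn h.S X)) * h.op := by
        rw [h.sq, mul_one]
        simp only [mul_assoc]
    _ = _ := by rw [tensor_idem_ok (XOn_ok hX)]

lemma Fh_herm {X : Fin N → M2} (hX : AllOK X) (h : RGate N) : (Fh X h)ᴴ = Fh X h := by
  simp [Fh, Matrix.conjTranspose_sub, Yh_herm hX]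

lemma Fh_idem {X : Fin N → M2} (hX : AllOK X) (h : RGate N) : Fh X h * Fh X h = Fh X h := by
  simp only [Fh, mul_sub, sub_mul, mul_one, one_mul, Yh_idem hX]
  abel

lemma op_mem_SA (h : RGate N) : h.op ∈ SA h.S :=
  sub_mem (one_mem _) (Subalgebra.smul_mem _ (tensor_mem_SA h.hO) _)

lemma Yh_mem_SA (X : Fin N → M2) (h : RGate N) : Yh X h ∈ SA h.S :=
  mul_mem (mul_mem (op_mem_SA h) (tensor_XOn_mem _ _)) (op_mem_SA h)

lemma Fh_mem_SA (X : Fin N → M2) (h : RGate N) : Fh X h ∈ SA h.S :=
  sub_mem (one_mem _) (Yh_mem_SA X h)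

lemma Fh_commute (X X' : Fin N → M2) {h h' : RGate N} (hd : Disjoint h.S h'.S) :
    Commute (Fh X h) (Fh X' h') := SA_commute hd (Fh_mem_SA X h) (Fh_mem_SA X' h')

/-- Elementary symmetric functions of the failure projectors. -/
noncomputable def eJ (X : Fin N → M2) : List (RGate N) → ℕ → Op N
  | [], 0 => 1
  | [], _ + 1 => 0
  | _ :: _, 0 => 1
  | h :: L, j + 1 => eJ X L j * Fh X h + eJ X L (j + 1)

/-- Functional calculus of the number of failed tests. -/
noncomputable def fK (X : Fin N → M2) : List (RGate N) → (ℕ → ℂ) → Op N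
  | [], f => f 0 • 1
  | h :: L, f => fK X L (fun k => f (k + 1)) * Fh X h + fK X L f * (1 - Fh X h)

/-- The product of the tests. -/
noncomputable def pY (X : Fin N → M2) : List (RGate N) → Op N
  | [] => 1
  | h :: L => pY X L * Yh X h

lemma pY_congr {X X' : Fin N → M2} {L : List (RGate N)} (hX : ∀ h ∈ L, ∀ s ∈ h.S, X s = X' s) :
    pY X L = pY X' L := by
  induction L with
  | nil => rfl
  | cons h L ih =>
    rw [pY, pY, ih fun k hk => hX k (List.mem_cons_of_mem _ hk),
      Yh_congr (hX h (List.mem_cons_self ..))]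

lemma fK_add (X : Fin N → M2) (L : List (RGate N)) (f g : ℕ → ℂ) :
    fK X L (fun k => f k + g k) = fK X L f + fK X L g := by
  induction L generalizing f g with
  | nil =>
    simp only [fK, add_smul]
  | cons h L ih =>
    simp only [fK]
    rw [ih, ih]
    simp only [add_mul]
    abel

lemma fK_smul (X : Fin N → M2) (L : List (RGate N)) (c : ℂ) (f : ℕ → ℂ) :
    fK X L (fun k => c * f k) = c • fK X L f := by
  induction L generalizing f with
  | nil =>
    simp only [fK, mul_smul]
  | cons h L ih =>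
    simp only [fK]
    rw [ih, ih]
    simp only [smul_mul_assoc, smul_add]

lemma fK_zero (X : Fin N → M2) (L : List (RGate N)) : fK X L (fun _ => 0) = 0 := by
  have := fK_smul X L 0 (fun _ => 0)
  simpa using this

lemma fK_one (X : Fin N → M2) (L : List (RGate N)) : fK X L (fun _ => 1) = 1 := by
  induction L with
  | nil => simp [fK]
  | cons h L ih =>
    simp only [fK]
    rw [ih]
    simp

lemma fK_sum (X : Fin N → M2) (L : List (RGate N)) (d : ℕ) (b : ℕ → ℂ) (u : ℕ → ℕ → ℂ) :
    fK X L (fun k => ∑ j ∈ Finset.range d, b j * u j k)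
      = ∑ j ∈ Finset.range d, b j • fK X L (u j) := by
  induction d with
  | zero =>
    simp only [Finset.range_zero, Finset.sum_empty]
    exact fK_zero X L
  | succ d ih =>
    simp only [Finset.sum_range_succ]
    rw [fK_add, ih, fK_smul]

lemma fK_choose (X : Fin N → M2) (L : List (RGate N)) (j : ℕ) :
    fK X L (fun k => ((k.choose j : ℕ) : ℂ)) = eJ X L j := by
  induction L generalizing j with
  | nil =>
    cases j with
    | zero => simp [fK, eJ]
    | succ j => simp [fK, eJ]
  | cons h L ih =>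
    cases j with
    | zero =>
      simp only [Nat.choose_zero_right, Nat.cast_one]
      rw [fK_one]
      rfl
    | succ j =>
      simp only [fK, eJ]
      have e : (fun k : ℕ => (((k + 1).choose (j + 1) : ℕ) : ℂ))
          = fun k => ((k.choose j : ℕ) : ℂ) + ((k.choose (j + 1) : ℕ) : ℂ) := by
        funext k
        rw [Nat.choose_succ_succ]
        push_cast
        ring
      rw [e, fK_add, ih, ih]
      simp only [add_mul, mul_sub, mul_one]
      abel

lemma fK_ind (X : Fin N → M2) (L : List (RGate N)) :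
    fK X L (fun k => if k = 0 then 1 else 0) = pY X L := by
  induction L with
  | nil => simp [fK, pY]
  | cons h L ih =>
    simp only [fK, pY]
    have e : (fun k : ℕ => if k + 1 = 0 then (1 : ℂ) else 0) = fun _ => 0 := by
      funext k
      simp
    rw [e, fK_zero, ih, zero_mul, zero_add, Fh]
    simp

lemma fK_commute (X : Fin N → M2) (h : RGate N) (L : List (RGate N))
    (hd : ∀ h' ∈ L, Disjoint h.S h'.S) (f : ℕ → ℂ) : Commute (Fh X h) (fK X L f) := by
  induction L generalizing f with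
  | nil =>
    simp only [fK]
    exact (Commute.one_right _).smul_right _
  | cons h' L ih =>
    simp only [fK]
    have h1 := ih (fun k hk => hd k (List.mem_cons_of_mem _ hk))
    have h2 : Commute (Fh X h) (Fh X h') := Fh_commute X X (hd h' (List.mem_cons_self ..))
    exact ((h1 _).mul_right h2).add_right ((h1 _).mul_right ((Commute.one_right _).sub_right h2))

lemma fK_norm {X : Fin N → M2} (hX : AllOK X) (L : List (RGate N))
    (hL : L.Pairwise fun g h => Disjoint g.S h.S) (f : ℕ → ℂ) (c : ℝ) (hc : 0 ≤ c)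
    (hf : ∀ k, k ≤ L.length → ‖f k‖ ≤ c) : ‖fK X L f‖ ≤ c := by
  induction L generalizing f with
  | nil =>
    simp only [fK, norm_smul, norm_one_op, mul_one]
    exact hf 0 (by simp)
  | cons h L ih =>
    obtain ⟨hd, hL'⟩ := List.pairwise_cons.mp hL
    simp only [fK]
    set A := fK X L fun k => f (k + 1) with hA
    set B := fK X L f with hB
    have cA : Commute (Fh X h) A := fK_commute X h L hd _
    have cB : Commute (Fh X h) B := fK_commute X h L hd _
    have e : A * Fh X h + B * (1 - Fh X h) = Fh X h * A + (1 - Fh X h) * B := by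
      rw [cA.eq.symm, ((Commute.one_left _).sub_left cB).eq.symm]
    rw [e]
    refine (sector_le _ A B (Fh_herm hX h) (Fh_idem hX h) cA cB).trans (max_le ?_ ?_)
    · refine ih hL' _ fun k hk => hf (k + 1) ?_
      simp only [List.length_cons]
      omega
    · refine ih hL' _ fun k hk => hf k ?_
      simp only [List.length_cons]
      omega

/-- Expansion of a failure projector into product tensors. -/
lemma Fh_mul_tensor (X : Fin N → M2) (h : RGate N) (Z : Fin N → M2) :
    Fh X h * tensor Z = tensor Z - tensor (fun s => XOn h.S X s * Z s)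
      + (2 : ℂ) • tensor (fun s => h.ρ s * XOn h.S X s * Z s)
      + (2 : ℂ) • tensor (fun s => XOn h.S X s * h.ρ s * Z s)
      - (4 : ℂ) • tensor (fun s => h.ρ s * XOn h.S X s * h.ρ s * Z s) := by
  have e1 : tensor (fun s => XOn h.S X s * Z s) = tensor (XOn h.S X) * tensor Z :=
    (tensor_mul _ _).symm
  have e2 : tensor (fun s => h.ρ s * XOn h.S X s * Z s)
      = tensor h.ρ * tensor (XOn h.S X) * tensor Z := by
    rw [tensor_mul, tensor_mul]
  have e3 : tensor (fun s => XOn h.S X s * h.ρ s * Z s)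
      = tensor (XOn h.S X) * tensor h.ρ * tensor Z := by
    rw [tensor_mul, tensor_mul]
  have e4 : tensor (fun s => h.ρ s * XOn h.S X s * h.ρ s * Z s)
      = tensor h.ρ * tensor (XOn h.S X) * tensor h.ρ * tensor Z := by
    rw [tensor_mul, tensor_mul, tensor_mul]
  rw [e1, e2, e3, e4]
  simp only [Fh, Yh, RGate.op, mul_sub, sub_mul, mul_one, one_mul, smul_mul_assoc, mul_smul_comm,
    smul_sub, smul_smul]
  module

lemma pol_ok {Y : M2} (h : SiteOK Y) : Pol Y := pol_of_ok h

/-- The product tensors of the expansion are again polarizable. -/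
lemma sites_pol {X : Fin N → M2} (hX : AllOK X) (h : RGate N) {Z : Fin N → M2}
    (hZ : ∀ s, Pol (Z s)) (hZ1 : ∀ s ∈ h.S, Z s = 1) (s : Fin N) :
    Pol (XOn h.S X s * Z s) ∧ Pol (h.ρ s * XOn h.S X s * Z s) ∧ Pol (XOn h.S X s * h.ρ s * Z s) ∧
      Pol (h.ρ s * XOn h.S X s * h.ρ s * Z s) := by
  by_cases hs : s ∈ h.S
  · have hρ : Proj1 (h.ρ s) := h.hS s hs
    simp only [XOn, hs, if_true, hZ1 s hs, mul_one]
    rcases hX s with h1 | h1
    · rw [h1]
      simp only [mul_one, one_mul]
      rw [hρ.idem]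
      exact ⟨pol_one, pol_ok (Or.inr hρ), pol_ok (Or.inr hρ), pol_ok (Or.inr hρ)⟩
    · exact ⟨pol_ok (Or.inr h1), pol_proj_mul hρ h1, pol_proj_mul h1 hρ, pol_proj_mul_proj hρ h1⟩
  · have hρ : h.ρ s = 1 := h.hO s hs
    simp only [XOn, hs, if_false, hρ, mul_one, one_mul]
    exact ⟨hZ s, hZ s, hZ s, hZ s⟩

/-- The bound for the elementary symmetric functions. -/
theorem eJ_bound (Λ : Op N →ₗ[ℂ] ℂ) (ε' : ℝ) (hε' : 0 ≤ ε')
    (hb : ∀ Z : Fin N → M2, (∀ s, Pol (Z s)) → ‖Λ (tensor Z)‖ ≤ ε') {X : Fin N → M2} (hX : AllOK X)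
    (L : List (RGate N)) (hL : L.Pairwise fun g h => Disjoint g.S h.S) (j : ℕ) (Z : Fin N → M2)
    (hZ : ∀ s, Pol (Z s)) (hZ1 : ∀ h ∈ L, ∀ s ∈ h.S, Z s = 1) :
    ‖Λ (eJ X L j * tensor Z)‖ ≤ (L.length.choose j : ℝ) * 10 ^ j * ε' := by
  induction L generalizing j Z with
  | nil =>
    cases j with
    | zero =>
      simp only [eJ, one_mul, List.length_nil, Nat.choose_self, Nat.cast_one, pow_zero, mul_one]
      exact hb Z hZ
    | succ j =>
      simp only [eJ, zero_mul, map_zero, norm_zero]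
      positivity
  | cons h L ih =>
    obtain ⟨hd, hL'⟩ := List.pairwise_cons.mp hL
    cases j with
    | zero =>
      simp only [eJ, one_mul, Nat.choose_zero_right, Nat.cast_one, pow_zero, mul_one]
      exact hb Z hZ
    | succ j =>
      have hZh : ∀ s ∈ h.S, Z s = 1 := hZ1 h (List.mem_cons_self ..)
      have hZL : ∀ k ∈ L, ∀ s ∈ k.S, Z s = 1 := fun k hk => hZ1 k (List.mem_cons_of_mem _ hk)
      have hsp := sites_pol hX h hZ hZh
      have hoff : ∀ k ∈ L, ∀ s ∈ k.S, s ∉ h.S := fun k hk s hs hs' =>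
        Finset.disjoint_left.mp (hd k hk) hs' hs
      have hXo : ∀ k ∈ L, ∀ s ∈ k.S, XOn h.S X s = 1 := fun k hk s hs => by
        simp [XOn, hoff k hk s hs]
      have hρo : ∀ k ∈ L, ∀ s ∈ k.S, h.ρ s = 1 := fun k hk s hs => h.hO s (hoff k hk s hs)
      set a : ℝ := (L.length.choose j : ℝ) * 10 ^ j * ε' with ha
      have ha0 : 0 ≤ a := by positivity
      have t1 : ‖Λ (eJ X L j * tensor Z)‖ ≤ a := ih hL' j Z hZ hZL
      have t2 : ‖Λ (eJ X L j * tensor fun s => XOn h.S X s * Z s)‖ ≤ a :=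
        ih hL' j _ (fun s => (hsp s).1) fun k hk s hs => by
          simp [hXo k hk s hs, hZL k hk s hs]
      have t3 : ‖Λ (eJ X L j * tensor fun s => h.ρ s * XOn h.S X s * Z s)‖ ≤ a :=
        ih hL' j _ (fun s => (hsp s).2.1) fun k hk s hs => by
          simp [hXo k hk s hs, hZL k hk s hs, hρo k hk s hs]
      have t4 : ‖Λ (eJ X L j * tensor fun s => XOn h.S X s * h.ρ s * Z s)‖ ≤ a :=
        ih hL' j _ (fun s => (hsp s).2.2.1) fun k hk s hs => by
          simp [hXo k hk s hs, hZL k hk s hs, hρo k hk s hs]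
      have t5 : ‖Λ (eJ X L j * tensor fun s => h.ρ s * XOn h.S X s * h.ρ s * Z s)‖ ≤ a :=
        ih hL' j _ (fun s => (hsp s).2.2.2) fun k hk s hs => by
          simp [hXo k hk s hs, hZL k hk s hs, hρo k hk s hs]
      have t6 := ih hL' (j + 1) Z hZ hZL
      have e : eJ X (h :: L) (j + 1) * tensor Z
          = eJ X L j * tensor Z - eJ X L j * (tensor fun s => XOn h.S X s * Z s)
            + (2 : ℂ) • (eJ X L j * tensor fun s => h.ρ s * XOn h.S X s * Z s)
            + (2 : ℂ) • (eJ X L j * tensor fun s => XOn h.S X s * h.ρ s * Z s)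
            - (4 : ℂ) • (eJ X L j * tensor fun s => h.ρ s * XOn h.S X s * h.ρ s * Z s)
            + eJ X L (j + 1) * tensor Z := by
        simp only [eJ]
        rw [add_mul, mul_assoc, Fh_mul_tensor]
        simp only [mul_add, mul_sub, mul_smul_comm]
      rw [e]
      simp only [map_add, map_sub, map_smul, smul_eq_mul]
      have n2 : ‖(2 : ℂ)‖ = 2 := by norm_num
      have n4 : ‖(4 : ℂ)‖ = 4 := by norm_num
      set A := Λ (eJ X L j * tensor Z)
      set B := Λ (eJ X L j * tensor fun s => XOn h.S X s * Z s)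
      set C := Λ (eJ X L j * tensor fun s => h.ρ s * XOn h.S X s * Z s)
      set D := Λ (eJ X L j * tensor fun s => XOn h.S X s * h.ρ s * Z s)
      set G := Λ (eJ X L j * tensor fun s => h.ρ s * XOn h.S X s * h.ρ s * Z s)
      set H := Λ (eJ X L (j + 1) * tensor Z)
      have b1 := norm_add_le (A - B + 2 * C + 2 * D - 4 * G) H
      have b2 := norm_sub_le (A - B + 2 * C + 2 * D) (4 * G)
      have b3 := norm_add_le (A - B + 2 * C) (2 * D)
      have b4 := norm_add_le (A - B) (2 * C)
      have b5 := norm_sub_le A B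
      rw [norm_mul, n4] at b2
      rw [norm_mul, n2] at b3 b4
      have hpas : ((L.length + 1).choose (j + 1) : ℝ)
          = (L.length.choose j : ℝ) + (L.length.choose (j + 1) : ℝ) := by
        rw [Nat.choose_succ_succ]
        push_cast
        ring
      simp only [List.length_cons]
      rw [hpas]
      have e10 : ((L.length.choose j : ℝ) + (L.length.choose (j + 1) : ℝ)) * 10 ^ (j + 1) * ε'
          = 10 * a + (L.length.choose (j + 1) : ℝ) * 10 ^ (j + 1) * ε' := by
        rw [ha, pow_succ]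
        ring
      rw [e10]
      linarith

/-- The product of the tests, against a product tensor on the remaining sites. -/
theorem and_bound (Λ : Op N →ₗ[ℂ] ℂ) (hΛ : ∀ A, ‖Λ A‖ ≤ ‖A‖) (ε' : ℝ) (hε' : 0 ≤ ε')
    (hb : ∀ Z : Fin N → M2, (∀ s, Pol (Z s)) → ‖Λ (tensor Z)‖ ≤ ε') {X : Fin N → M2} (hX : AllOK X)
    (L : List (RGate N)) (hL : L.Pairwise fun g h => Disjoint g.S h.S) (Z : Fin N → M2)
    (hZ : AllOK Z) (hZ1 : ∀ h ∈ L, ∀ s ∈ h.S, Z s = 1) (M D : ℕ) (hM : 2 ≤ M) (hLM : L.length ≤ M) :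
    ‖Λ (pY X L * tensor Z)‖ ≤ 2 * Real.exp (-(D : ℝ) / Real.sqrt M) + 87 ^ D * ε' := by
  obtain ⟨f, hf0, hf1, d, b, hfb, hw⟩ := cheb_poly M D hM
  set δ : ℝ := 2 * Real.exp (-(D : ℝ) / Real.sqrt M) with hδ
  have hδ0 : 0 ≤ δ := by positivity
  have hsplit : pY X L = fK X L (fun k => ((f k : ℝ) : ℂ))
      + fK X L (fun k => (if k = 0 then (1 : ℂ) else 0) + (-1) * ((f k : ℝ) : ℂ)) := by
    rw [fK_add, fK_smul, fK_ind, neg_smul, one_smul]
    abel
  have hsmall : ‖fK X L (fun k => (if k = 0 then (1 : ℂ) else 0) + (-1) * ((f k : ℝ) : ℂ))‖ ≤ δ := by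
    refine fK_norm hX L hL _ δ hδ0 fun k hk => ?_
    by_cases hk0 : k = 0
    · subst hk0
      simp [hf0, hδ0]
    · simp only [hk0, if_false, zero_add, neg_mul, one_mul, norm_neg, Complex.norm_real,
        Real.norm_eq_abs]
      exact hf1 k (Nat.one_le_iff_ne_zero.mpr hk0) (hk.trans hLM)
  have hZn : ‖tensor Z‖ ≤ 1 := norm_tensor_ok hZ
  have hexp : fK X L (fun k => ((f k : ℝ) : ℂ))
      = ∑ j ∈ Finset.range d, ((b j : ℝ) : ℂ) • eJ X L j := by
    have e : (fun k => ((f k : ℝ) : ℂ))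
        = fun k => ∑ j ∈ Finset.range d, ((b j : ℝ) : ℂ) * (fun j k => ((k.choose j : ℕ) : ℂ)) j k := by
      funext k
      rw [hfb k]
      push_cast
      rfl
    rw [e, fK_sum]
    refine Finset.sum_congr rfl fun j _ => ?_
    rw [fK_choose]
  have hmain : ‖Λ (fK X L (fun k => ((f k : ℝ) : ℂ)) * tensor Z)‖ ≤ 87 ^ D * ε' := by
    rw [hexp, Finset.sum_mul, map_sum]
    refine (norm_sum_le _ _).trans ?_
    have h1 : ∀ j ∈ Finset.range d, ‖Λ ((((b j : ℝ) : ℂ) • eJ X L j) * tensor Z)‖
        ≤ (|b j| * (M.choose j : ℝ) * 10 ^ j) * ε' := by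
      intro j _
      rw [smul_mul_assoc, map_smul, norm_smul, Complex.norm_real, Real.norm_eq_abs]
      have h2 := eJ_bound Λ ε' hε' hb hX L hL j Z (fun s => pol_ok (hZ s)) hZ1
      have h3 : (L.length.choose j : ℝ) ≤ (M.choose j : ℝ) := by
        exact_mod_cast Nat.choose_le_choose j hLM
      have h4 : (L.length.choose j : ℝ) * 10 ^ j * ε' ≤ (M.choose j : ℝ) * 10 ^ j * ε' := by
        gcongr
      calc |b j| * ‖Λ (eJ X L j * tensor Z)‖ ≤ |b j| * ((M.choose j : ℝ) * 10 ^ j * ε') := by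
            gcongr
            exact h2.trans h4
        _ = _ := by ring
    refine (Finset.sum_le_sum h1).trans ?_
    rw [← Finset.sum_mul]
    exact mul_le_mul_of_nonneg_right hw hε'
  rw [hsplit, add_mul, map_add]
  refine (norm_add_le _ _).trans ?_
  have h2 : ‖Λ (fK X L (fun k => (if k = 0 then (1 : ℂ) else 0) + (-1) * ((f k : ℝ) : ℂ)) * tensor Z)‖
      ≤ δ := by
    refine (hΛ _).trans ((norm_mul_le _ _).trans ?_)
    have h0 := norm_nonneg (tensor Z)
    have h0' := norm_nonneg (fK X L (fun k => (if k = 0 then (1 : ℂ) else 0) + (-1) * ((f k : ℝ) : ℂ)))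
    nlinarith
  linarith

end Vale.Agent.Lib.P368z
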