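import Vale.Agent.Lib.P368z.Chain

/-!
The sharp lift: the generating function of the number of failed tests, a discrete form of Jensen's
formula, and the squaring of the rate at every layer.
-/

open scoped BigOperators Matrix Matrix.Norms.L2Operator

namespace Vale.Agent.Lib.P368z

open Vale.Agent.Lib.P368x Vale.Agent.Lib.P368y

variable {N : ℕ}

lemma fK_congr (X : Fin N → M2) (L : List (RGate N)) (f g : ℕ → ℂ)
    (h : ∀ k, k ≤ L.length → f k = g k) : fK X L f = fK X L g := by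
  induction L generalizing f g with
  | nil =>
    simp only [fK]
    rw [h 0 (by simp)]
  | cons r L ih =>
    simp only [fK]
    rw [ih (fun k => f (k + 1)) (fun k => g (k + 1)) (fun k hk => h (k + 1) (by
      simp only [List.length_cons]; omega)), ih f g (fun k hk => h k (by
      simp only [List.length_cons]; omega))]

/-- The generating function of the number of failed tests. -/
noncomputable def gF (Λ : Op N →ₗ[ℂ] ℂ) (X : Fin N → M2) (L : List (RGate N)) (Z : Fin N → M2)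
    (w : ℂ) : ℂ := Λ (fK X L (fun k => w ^ k) * tensor Z)

lemma binom_expand (w : ℂ) (n k : ℕ) (hk : k ≤ n) :
    w ^ k = ∑ j ∈ Finset.range (n + 1), (w - 1) ^ j * ((k.choose j : ℕ) : ℂ) := by
  have h1 : w ^ k = ((w - 1) + 1) ^ k := by rw [sub_add_cancel]
  rw [h1, add_pow]
  simp only [one_pow, mul_one]
  have hsub : Finset.range (k + 1) ⊆ Finset.range (n + 1) :=
    Finset.range_subset_range.mpr (by omega)
  refine Finset.sum_subset hsub fun j _ hj => ?_
  have : k < j := by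
    simp only [Finset.mem_range, not_lt] at hj
    omega
  simp [Nat.choose_eq_zero_of_lt this]

lemma gF_expand (Λ : Op N →ₗ[ℂ] ℂ) (X : Fin N → M2) (L : List (RGate N)) (Z : Fin N → M2) (w : ℂ) :
    gF Λ X L Z w = ∑ j ∈ Finset.range (L.length + 1), (w - 1) ^ j * Λ (eJ X L j * tensor Z) := by
  have h1 : fK X L (fun k => w ^ k) = fK X L (fun k => ∑ j ∈ Finset.range (L.length + 1),
      (w - 1) ^ j * (fun j k => ((k.choose j : ℕ) : ℂ)) j k) :=
    fK_congr X L _ _ fun k hk => binom_expand w L.length k hk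
  rw [gF, h1, fK_sum, Finset.sum_mul, map_sum]
  refine Finset.sum_congr rfl fun j _ => ?_
  rw [fK_choose, smul_mul_assoc, map_smul, smul_eq_mul]

lemma gF_diff (Λ : Op N →ₗ[ℂ] ℂ) (X : Fin N → M2) (L : List (RGate N)) (Z : Fin N → M2) :
    Differentiable ℂ (gF Λ X L Z) := by
  have : gF Λ X L Z = fun w => ∑ j ∈ Finset.range (L.length + 1),
      (w - 1) ^ j * Λ (eJ X L j * tensor Z) := funext fun w => gF_expand Λ X L Z w
  rw [this]
  fun_prop

lemma gF_zero (Λ : Op N →ₗ[ℂ] ℂ) (X : Fin N → M2) (L : List (RGate N)) (Z : Fin N → M2) :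
    gF Λ X L Z 0 = Λ (pY X L * tensor Z) := by
  have : (fun k : ℕ => (0 : ℂ) ^ k) = fun k => if k = 0 then 1 else 0 := by
    funext k
    by_cases hk : k = 0
    · simp [hk]
    · simp [hk]
  rw [gF, this, fK_ind]

lemma gF_disc (Λ : Op N →ₗ[ℂ] ℂ) (hΛ : ∀ A, ‖Λ A‖ ≤ ‖A‖) {X : Fin N → M2} (hX : AllOK X)
    (L : List (RGate N)) (hL : L.Pairwise fun g h => Disjoint g.S h.S) {Z : Fin N → M2}
    (hZ : AllOK Z) (w : ℂ) (hw : ‖w‖ ≤ 1) : ‖gF Λ X L Z w‖ ≤ 1 := by
  rw [gF]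
  refine (hΛ _).trans ((norm_mul_le _ _).trans ?_)
  have h1 : ‖fK X L fun k => w ^ k‖ ≤ 1 := fK_norm hX L hL _ 1 (by norm_num) fun k _ => by
    rw [norm_pow]
    exact pow_le_one₀ (norm_nonneg _) hw
  have h2 := norm_tensor_ok hZ
  have h3 := norm_nonneg (fK X L fun k => w ^ k)
  have h4 := norm_nonneg (tensor Z)
  nlinarith

lemma gF_near (Λ : Op N →ₗ[ℂ] ℂ) (ε' : ℝ) (hε' : 0 ≤ ε')
    (hb : ∀ Z : Fin N → M2, (∀ s, Pol (Z s)) → ‖Λ (tensor Z)‖ ≤ ε') {X : Fin N → M2} (hX : AllOK X)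
    (L : List (RGate N)) (hL : L.Pairwise fun g h => Disjoint g.S h.S) (Z : Fin N → M2)
    (hZ : AllOK Z) (hZ1 : ∀ h ∈ L, ∀ s ∈ h.S, Z s = 1) (w : ℂ) :
    ‖gF Λ X L Z w‖ ≤ (1 + 10 * ‖w - 1‖) ^ L.length * ε' := by
  rw [gF_expand]
  refine (norm_sum_le _ _).trans ?_
  have h1 : ∀ j ∈ Finset.range (L.length + 1), ‖(w - 1) ^ j * Λ (eJ X L j * tensor Z)‖
      ≤ (10 * ‖w - 1‖) ^ j * (L.length.choose j : ℝ) * ε' := by
    intro j _
    rw [norm_mul, norm_pow, mul_pow]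
    have h2 := eJ_bound Λ ε' hε' hb hX L hL j Z (fun s => pol_ok (hZ s)) hZ1
    calc ‖w - 1‖ ^ j * ‖Λ (eJ X L j * tensor Z)‖
        ≤ ‖w - 1‖ ^ j * ((L.length.choose j : ℝ) * 10 ^ j * ε') := by gcongr
      _ = _ := by ring
  refine (Finset.sum_le_sum h1).trans (le_of_eq ?_)
  rw [← Finset.sum_mul]
  congr 1
  rw [add_comm (1 : ℝ), add_pow]
  simp only [one_pow, mul_one]

/-- Every point of the unit circle is close to `1` after multiplication by a root of unity. -/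
lemma exists_near_root (R : ℕ) (hR : 1 ≤ R) (w : ℂ) (hw : ‖w‖ = 1) :
    ∃ j ∈ Finset.range R,
      ‖Complex.exp (2 * Real.pi * Complex.I / R) ^ j * w - 1‖ ≤ Real.pi / R := by
  have hRpos : (0 : ℝ) < R := by exact_mod_cast hR
  have hRne : (R : ℂ) ≠ 0 := by exact_mod_cast (by omega : R ≠ 0)
  have hpi := Real.pi_pos
  set θ := Complex.arg w with hθ
  have hw' : w = Complex.exp (θ * Complex.I) := by
    have := Complex.norm_mul_exp_arg_mul_I w
    rw [hw] at this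
    simpa using this.symm
  set x : ℝ := -θ * R / (2 * Real.pi) with hx
  set t : ℤ := round x with ht
  have hround : |x - t| ≤ 1 / 2 := abs_sub_round x
  have hRz : (R : ℤ) ≠ 0 := by exact_mod_cast (by omega : R ≠ 0)
  set j : ℕ := (t % (R : ℤ)).toNat with hj
  have hj0 : 0 ≤ t % (R : ℤ) := Int.emod_nonneg _ hRz
  have hjz : (j : ℤ) = t % (R : ℤ) := Int.toNat_of_nonneg hj0
  have hjlt : j < R := by
    have : t % (R : ℤ) < (R : ℤ) := Int.emod_lt_of_pos _ (by exact_mod_cast hR)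
    omega
  refine ⟨j, Finset.mem_range.mpr hjlt, ?_⟩
  have hjt : (j : ℤ) = t - (R : ℤ) * (t / (R : ℤ)) := by
    rw [hjz, Int.emod_def]
  set ψ : ℝ := 2 * Real.pi * t / R + θ with hψ
  have key : Complex.exp (2 * Real.pi * Complex.I / R) ^ j * w = Complex.exp (Complex.I * ψ) := by
    rw [← Complex.exp_nat_mul, hw', ← Complex.exp_add]
    have hjc : ((j : ℕ) : ℂ) = (t : ℂ) - (R : ℂ) * ((t / (R : ℤ) : ℤ) : ℂ) := by
      have := congrArg (fun z : ℤ => (z : ℂ)) hjt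
      simpa using this
    have e : ((j : ℕ) : ℂ) * (2 * Real.pi * Complex.I / R) + θ * Complex.I
        = Complex.I * ψ + (-((t / (R : ℤ) : ℤ) : ℂ)) * (2 * Real.pi * Complex.I) := by
      rw [hjc, hψ]
      push_cast
      field_simp
      ring
    rw [e, Complex.exp_add]
    have : Complex.exp ((-((t / (R : ℤ) : ℤ) : ℂ)) * (2 * Real.pi * Complex.I)) = 1 := by
      have h := Complex.exp_int_mul_two_pi_mul_I (-(t / (R : ℤ)))
      simpa using h
    rw [this, mul_one]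
  rw [key]
  have hbound : ‖Complex.exp (Complex.I * ψ) - 1‖ ≤ ‖ψ‖ := Real.norm_exp_I_mul_ofReal_sub_one_le
  refine hbound.trans ?_
  rw [Real.norm_eq_abs]
  have e : ψ = (2 * Real.pi / R) * ((t : ℝ) - x) := by
    rw [hψ, hx]
    field_simp
    ring
  rw [e, abs_mul, abs_of_pos (by positivity : 0 < 2 * Real.pi / R), abs_sub_comm]
  calc 2 * Real.pi / R * |x - t| ≤ 2 * Real.pi / R * (1 / 2) := by gcongr
    _ = Real.pi / R := by ring

/-- The discrete form of Jensen's formula used for the product of the tests. -/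
theorem disc_root (g : ℂ → ℂ) (hgd : Differentiable ℂ g) (hone : ∀ w, ‖w‖ ≤ 1 → ‖g w‖ ≤ 1)
    (R : ℕ) (hR : 1 ≤ R) (B : ℝ)
    (hnear : ∀ w, ‖w‖ ≤ 1 → ‖w - 1‖ ≤ Real.pi / R → ‖g w‖ ≤ B) : ‖g 0‖ ^ R ≤ B := by
  have hRpos : (0 : ℝ) < R := by exact_mod_cast hR
  obtain ⟨ω, hω⟩ : ∃ ω : ℂ, ω = Complex.exp (2 * Real.pi * Complex.I / R) := ⟨_, rfl⟩
  have hωn : ‖ω‖ = 1 := by
    have e : (2 * Real.pi * Complex.I / R : ℂ) = ((2 * Real.pi / R : ℝ) : ℂ) * Complex.I := by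
      push_cast
      ring
    rw [hω, e, Complex.norm_exp_ofReal_mul_I]
  have hqd : Differentiable ℂ (fun z => ∏ j ∈ Finset.range R, g (ω ^ j * z)) := by
    refine Differentiable.fun_finsetProd fun j _ => ?_
    exact hgd.comp ((differentiable_const _).mul differentiable_id)
  have hfront : ∀ z ∈ frontier (Metric.ball (0 : ℂ) 1),
      ‖(fun z => ∏ j ∈ Finset.range R, g (ω ^ j * z)) z‖ ≤ B := by
    intro z hz
    rw [frontier_ball (0 : ℂ) (by norm_num)] at hz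
    have hz1 : ‖z‖ = 1 := by simpa using hz
    obtain ⟨j₀, hj₀, hnear'⟩ := exists_near_root R hR z hz1
    rw [← hω] at hnear'
    have hnw : ∀ j : ℕ, ‖ω ^ j * z‖ = 1 := by
      intro j
      rw [norm_mul, norm_pow, hωn, hz1]
      simp
    have hone' : ∀ j : ℕ, ‖g (ω ^ j * z)‖ ≤ 1 := fun j => hone _ (hnw j).le
    show ‖∏ j ∈ Finset.range R, g (ω ^ j * z)‖ ≤ B
    rw [norm_prod, ← Finset.mul_prod_erase _ _ hj₀]
    have h1 : ∏ j ∈ (Finset.range R).erase j₀, ‖g (ω ^ j * z)‖ ≤ 1 :=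
      Finset.prod_le_one (fun _ _ => norm_nonneg _) fun j _ => hone' j
    have h2 : ‖g (ω ^ j₀ * z)‖ ≤ B := hnear _ (hnw j₀).le hnear'
    have h3 : 0 ≤ ∏ j ∈ (Finset.range R).erase j₀, ‖g (ω ^ j * z)‖ :=
      Finset.prod_nonneg fun _ _ => norm_nonneg _
    have h4 := norm_nonneg (g (ω ^ j₀ * z))
    calc ‖g (ω ^ j₀ * z)‖ * ∏ j ∈ (Finset.range R).erase j₀, ‖g (ω ^ j * z)‖
        ≤ ‖g (ω ^ j₀ * z)‖ * 1 := mul_le_mul_of_nonneg_left h1 h4
      _ ≤ B := by rw [mul_one]; exact h2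
  have hmax := Complex.norm_le_of_forall_mem_frontier_norm_le (U := Metric.ball (0 : ℂ) 1)
    Metric.isBounded_ball hqd.diffContOnCl hfront
    (subset_closure (Metric.mem_ball_self (by norm_num)))
  have hq0 : (∏ j ∈ Finset.range R, g (ω ^ j * 0)) = g 0 ^ R := by
    simp only [mul_zero, Finset.prod_const, Finset.card_range]
  have hmax' : ‖∏ j ∈ Finset.range R, g (ω ^ j * 0)‖ ≤ B := hmax
  rw [hq0, norm_pow] at hmax'
  exact hmax'

/-- The product of the tests, by the maximum principle on a product over roots of unity. -/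
theorem and_bound₂ (Λ : Op N →ₗ[ℂ] ℂ) (hΛ : ∀ A, ‖Λ A‖ ≤ ‖A‖) (ε' : ℝ) (hε' : 0 ≤ ε')
    (hb : ∀ Z : Fin N → M2, (∀ s, Pol (Z s)) → ‖Λ (tensor Z)‖ ≤ ε') {X : Fin N → M2} (hX : AllOK X)
    (L : List (RGate N)) (hL : L.Pairwise fun g h => Disjoint g.S h.S) (Z : Fin N → M2)
    (hZ : AllOK Z) (hZ1 : ∀ h ∈ L, ∀ s ∈ h.S, Z s = 1) (R : ℕ) (hR : 1 ≤ R) :
    ‖Λ (pY X L * tensor Z)‖ ^ R ≤ (1 + 10 * (Real.pi / R)) ^ L.length * ε' := by
  have hmain := disc_root (gF Λ X L Z) (gF_diff Λ X L Z)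
    (fun w hw => gF_disc Λ hΛ hX L hL hZ w hw) R hR ((1 + 10 * (Real.pi / R)) ^ L.length * ε')
    (fun w _ hw => by
      refine (gF_near Λ ε' hε' hb hX L hL Z hZ hZ1 w).trans ?_
      refine mul_le_mul_of_nonneg_right ?_ hε'
      refine pow_le_pow_left₀ (by positivity) ?_ _
      linarith [norm_nonneg (w - 1)])
  rwa [gF_zero] at hmain

/-- The sharp form of the lift through a layer of gates. -/
theorem lift₂ (Λ : Op N →ₗ[ℂ] ℂ) (hΛ : ∀ A, ‖Λ A‖ ≤ ‖A‖) (ε : ℝ) (hε0 : 0 ≤ ε)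
    (hε : ∀ X : Fin N → M2, AllOK X → ‖Λ (tensor X)‖ ≤ ε) (gs : List (RGate N))
    (hgs : gs.Pairwise fun g h => Disjoint g.S h.S) (X : Fin N → M2) (hX : AllOK X) (M R : ℕ)
    (hR : 1 ≤ R)
    (hcount : ∀ L : List (RGate N), L.Sublist gs → (∀ h ∈ L, ∃ s ∈ h.S, X s ≠ 1) → L.length ≤ M) :
    ‖Λ ((lop gs)ᴴ * tensor X * lop gs)‖ ^ R
      ≤ Real.exp (32 * M / R) * Real.sqrt ε := by
  obtain ⟨L, Z, h1, h2, h3, _, h5, h6⟩ := conj_form gs hgs X hX
  rw [h6]
  refine (and_bound₂ Λ hΛ (Real.sqrt ε) (Real.sqrt_nonneg _) (fun Z hZ => polar Λ hΛ ε hε0 hε Z hZ)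
    hX L (hgs.sublist h1) Z h3 h5 R hR).trans ?_
  have hs := Real.sqrt_nonneg ε
  refine mul_le_mul_of_nonneg_right ?_ hs
  have hRpos : (0 : ℝ) < R := by exact_mod_cast hR
  have h4 : 1 + 10 * (Real.pi / R) ≤ Real.exp (32 / R) := by
    have hpi : Real.pi ≤ 3.2 := by
      have := Real.pi_lt_d2
      linarith
    have h5 : 10 * (Real.pi / R) ≤ 32 / R := by
      rw [← mul_div_assoc]
      apply div_le_div_of_nonneg_right _ hRpos.le
      linarith
    have h6 := Real.add_one_le_exp (32 / (R : ℝ))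
    linarith
  have h0 : (0 : ℝ) ≤ 1 + 10 * (Real.pi / R) := by positivity
  calc (1 + 10 * (Real.pi / R)) ^ L.length ≤ Real.exp (32 / R) ^ L.length :=
        pow_le_pow_left₀ h0 h4 _
    _ = Real.exp ((L.length : ℝ) * (32 / R)) := (Real.exp_nat_mul _ _).symm
    _ ≤ Real.exp (32 * M / R) := by
        apply Real.exp_le_exp.mpr
        have hL : (L.length : ℝ) ≤ M := by exact_mod_cast hcount L h1 h2
        calc (L.length : ℝ) * (32 / R) ≤ (M : ℝ) * (32 / R) := by gcongr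
          _ = _ := by ring

/-- The lift with exponential bounds: the rate `ν` becomes `ν² / (516 M)`. -/
lemma test_step₂ {I : Finset (Fin N)} {W : Op N} (hW : ‖W‖ ≤ 1) (ν : ℝ) (hν : 0 ≤ ν) (M : ℕ)
    (hM : 1 ≤ M) (hνM : ν ≤ M) (hT : TestB I W (2 * Real.exp (-ν))) (gs : List (RGate N))
    (hgs : gs.Pairwise fun g h => Disjoint g.S h.S) (X : Fin N → M2) (hX : AllOK X)
    (hcount : ∀ L : List (RGate N), L.Sublist gs → (∀ h ∈ L, ∃ s ∈ h.S, X s ≠ 1) → L.length ≤ M) :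
    ‖E I ((lop gs * W)ᴴ * tensor X * (lop gs * W)) (zeroStr N) (zeroStr N)‖
      ≤ 2 * Real.exp (-(ν ^ 2 / (516 * M))) := by
  have hM' : (1 : ℝ) ≤ M := by exact_mod_cast hM
  have hMpos : (0 : ℝ) < M := by linarith
  rw [conj_mul]
  set x := ‖Lam I W ((lop gs)ᴴ * tensor X * lop gs)‖ with hx
  show x ≤ _
  have hx0 : 0 ≤ x := norm_nonneg _
  rcases hν.eq_or_lt with h0 | hνpos
  · rw [← h0]
    have hle : x ≤ 1 := by
      refine (Lam_le I hW _).trans ?_
      have hgs1 := norm_lop_le gs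
      exact (mul3_norm_le _ (by rw [norm_adj]; exact hgs1) hgs1).trans (norm_tensor_ok hX)
    simp only [ne_eq, OfNat.ofNat_ne_zero, not_false_eq_true, zero_pow, zero_div, neg_zero,
      Real.exp_zero, mul_one]
    linarith
  set R := ⌈128 * (M : ℝ) / ν⌉₊ with hR
  have hR1 : (128 * (M : ℝ) / ν) ≤ R := Nat.le_ceil _
  have hR2 : (R : ℝ) < 128 * (M : ℝ) / ν + 1 := Nat.ceil_lt_add_one (by positivity)
  have hRge : 1 ≤ R := by
    have : (0 : ℝ) < R := lt_of_lt_of_le (by positivity) hR1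
    exact_mod_cast this
  have hRpos : (0 : ℝ) < R := by exact_mod_cast hRge
  have hlift := lift₂ (Lam I W) (Lam_le I hW) (2 * Real.exp (-ν)) (by positivity) hT gs hgs X hX M R
    hRge hcount
  have hsqrt : Real.sqrt (2 * Real.exp (-ν)) ≤ 2 * Real.exp (-(ν / 2)) := by
    have : 2 * Real.exp (-ν) ≤ (2 * Real.exp (-(ν / 2))) ^ 2 := by
      have e : ((2 : ℕ) : ℝ) * (-(ν / 2)) = -ν := by
        push_cast
        ring
      rw [mul_pow, ← Real.exp_nat_mul, e]
      have := Real.exp_pos (-ν)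
      nlinarith
    calc Real.sqrt (2 * Real.exp (-ν)) ≤ Real.sqrt ((2 * Real.exp (-(ν / 2))) ^ 2) :=
          Real.sqrt_le_sqrt this
      _ = _ := Real.sqrt_sq (by positivity)
  have hexp : 32 * (M : ℝ) / R ≤ ν / 4 := by
    rw [div_le_iff₀ hRpos]
    have : 128 * (M : ℝ) ≤ R * ν := by
      rwa [div_le_iff₀ hνpos] at hR1
    nlinarith
  have hpow : x ^ R ≤ 2 * Real.exp (-(ν / 4)) := by
    calc x ^ R ≤ Real.exp (32 * M / R) * Real.sqrt (2 * Real.exp (-ν)) := hlift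
      _ ≤ Real.exp (ν / 4) * (2 * Real.exp (-(ν / 2))) := by gcongr
      _ = 2 * (Real.exp (ν / 4) * Real.exp (-(ν / 2))) := by ring
      _ = 2 * Real.exp (-(ν / 4)) := by
          rw [← Real.exp_add]
          congr 2
          ring
  set ν' : ℝ := ν ^ 2 / (516 * M) with hν'
  have hRν : (R : ℝ) * ν' ≤ ν / 4 := by
    have h1 : (1 : ℝ) ≤ M / ν := by
      rw [le_div_iff₀ hνpos]
      linarith
    have h2 : (R : ℝ) ≤ 129 * (M / ν) := by
      have e : 128 * (M : ℝ) / ν = 128 * (M / ν) := by ring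
      rw [e] at hR2
      linarith
    have hν'0 : 0 ≤ ν' := by positivity
    calc (R : ℝ) * ν' ≤ 129 * (M / ν) * ν' := by gcongr
      _ = ν / 4 := by
          rw [hν']
          field_simp
          ring
  have htarget : x ^ R ≤ (2 * Real.exp (-ν')) ^ R := by
    refine hpow.trans ?_
    rw [mul_pow, ← Real.exp_nat_mul]
    have h2R : (2 : ℝ) ≤ 2 ^ R := by
      calc (2 : ℝ) = 2 ^ 1 := by norm_num
        _ ≤ 2 ^ R := pow_le_pow_right₀ (by norm_num) hRge
    have h3 : Real.exp (-(ν / 4)) ≤ Real.exp ((R : ℝ) * -ν') := by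
      apply Real.exp_le_exp.mpr
      nlinarith
    have h4 := Real.exp_pos (-(ν / 4))
    calc 2 * Real.exp (-(ν / 4)) ≤ 2 ^ R * Real.exp ((R : ℝ) * -ν') := by gcongr
      _ = _ := rfl
  exact le_of_pow_le_pow_left₀ (by omega) (by positivity) htarget

/-- The chain of lifts: the rate is squared at every layer. -/
theorem chain₂ (I : Finset (Fin N)) (M : ℕ) (hM : 1 ≤ M) (rest : List (Layer N × OneQubitLayer N))
    (hrest : ∀ s ∈ rest, s.1.gates.length ≤ M) :
    ∀ (b : Fin N → M2) (_ : ∀ i, Uni (b i)) (W : Op N) (_ : Wᴴ * W = 1) (ν : ℝ) (_ : 0 ≤ ν)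
      (_ : ν ≤ M) (_ : TestB I W (2 * Real.exp (-ν))),
      ∃ (b' : Fin N → M2) (W' : Op N), (∀ i, Uni (b' i)) ∧
        rest.foldl (fun U s => s.2.op * s.1.op * U) (tensor b * W) = tensor b' * W' ∧
        W'ᴴ * W' = 1 ∧
        TestB I W' (2 * Real.exp (-(516 * (M : ℝ) * (ν / (516 * M)) ^ (2 ^ rest.length)))) := by
  have hM' : (1 : ℝ) ≤ M := by exact_mod_cast hM
  have hMpos : (0 : ℝ) < M := by linarith
  induction rest with
  | nil =>
    intro b hb W hW ν _ _ hT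
    refine ⟨b, W, hb, rfl, hW, ?_⟩
    have e : 516 * (M : ℝ) * (ν / (516 * M)) ^ (2 ^ ([] : List (Layer N × OneQubitLayer N)).length) = ν := by
      simp only [List.length_nil, pow_zero, pow_one]
      field_simp
    rw [e]
    exact hT
  | cons s rest ih =>
    intro b hb W hW ν hν hνM hT
    obtain ⟨L, V⟩ := s
    set gs := L.gates.map fun g => g.conj b hb with hgs
    have hd : gs.Pairwise fun g h => Disjoint g.S h.S := L.conj_pairwise b hb
    have hW1 := norm_of_unitary hW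
    have hlen : gs.length ≤ M := by
      rw [hgs, List.length_map]
      exact hrest (L, V) (List.mem_cons_self ..)
    have hT' : TestB I (lop gs * W) (2 * Real.exp (-(ν ^ 2 / (516 * M)))) := fun X hX =>
      test_step₂ hW1 ν hν M hM hνM hT gs hd X hX fun L' hL' _ => hL'.length_le.trans hlen
    have hν1 : 0 ≤ ν ^ 2 / (516 * M) := by positivity
    have hν2 : ν ^ 2 / (516 * M) ≤ M := by
      rw [div_le_iff₀ (by positivity)]
      nlinarith
    obtain ⟨b', W', h1, h2, h3, h4⟩ := ih (fun s hs => hrest s (List.mem_cons_of_mem _ hs))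
      (fun i => V.mat i * b i) (fun i => (V.mat_uni i).mul (hb i)) (lop gs * W)
      (unitary_step hW gs) _ hν1 hν2 hT'
    refine ⟨b', W', h1, ?_, h3, ?_⟩
    · rw [List.foldl_cons]
      simp only
      rw [frame_step b hb L V W]
      exact h2
    · have e : (ν ^ 2 / (516 * M) / (516 * M)) ^ (2 ^ rest.length)
          = (ν / (516 * M)) ^ (2 ^ ((L, V) :: rest).length) := by
        have e1 : ν ^ 2 / (516 * (M : ℝ)) / (516 * M) = (ν / (516 * M)) ^ 2 := by
          field_simp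
        rw [e1, ← pow_mul, List.length_cons, pow_succ' 2 rest.length]
      rw [← e]
      exact h4

/-- The base of the chain, with the constant `2`. -/
theorem base_two₂ (I : Finset (Fin N)) (n : ℕ) (hI : I.card = n) (V₁ V₂ V₃ : OneQubitLayer N)
    (L₁ L₂ : Layer N) :
    ∃ (b : Fin N → M2) (W : Op N), (∀ i, Uni (b i)) ∧
      V₃.op * L₂.op * (V₂.op * L₁.op * V₁.op) = tensor b * W ∧ Wᴴ * W = 1 ∧
      TestB I W (2 * Real.exp (-((n : ℝ) / 10 ^ 90))) := by
  set v := V₁.mat with hv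
  have hvu : ∀ i, Uni (v i) := V₁.mat_uni
  set a : Fin N → M2 := fun i => V₂.mat i * v i with ha
  have hau : ∀ i, Uni (a i) := fun i => (V₂.mat_uni i).mul (hvu i)
  set gs₁ := L₁.gates.map fun g => g.conj v hvu with hgs₁
  set gs₂ := L₂.gates.map fun g => g.conj a hau with hgs₂
  have hd₁ : gs₁.Pairwise fun g h => Disjoint g.S h.S := L₁.conj_pairwise v hvu
  have hd₂ : gs₂.Pairwise fun g h => Disjoint g.S h.S := L₂.conj_pairwise a hau
  have e₀ : V₁.op = tensor v * 1 := by rw [mul_one]; rfl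
  have e₁ : V₂.op * L₁.op * V₁.op = tensor a * (lop gs₁ * 1) := by
    rw [e₀, frame_step v hvu L₁ V₂ 1]
  have e₂ : V₃.op * L₂.op * (V₂.op * L₁.op * V₁.op)
      = tensor (fun i => V₃.mat i * a i) * (lop gs₂ * (lop gs₁ * 1)) := by
    rw [e₁, frame_step a hau L₂ V₃]
  refine ⟨_, _, fun i => (V₃.mat_uni i).mul (hau i), e₂, ?_, ?_⟩
  · exact unitary_step (unitary_step (by simp) gs₁) gs₂
  · intro X hX
    have e : (lop gs₂ * (lop gs₁ * 1))ᴴ * tensor X * (lop gs₂ * (lop gs₁ * 1))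
        = (lop gs₁)ᴴ * ((lop gs₂)ᴴ * tensor X * lop gs₂) * lop gs₁ := by
      simp only [mul_one, Matrix.conjTranspose_mul, mul_assoc]
    rw [e]
    refine (top_entry_multi gs₁ gs₂ hd₁ hd₂ X hX I).trans ?_
    have h1 : Real.exp (-(c₂ / 22) * I.card) ≤ Real.exp (-((n : ℝ) / 10 ^ 90)) := by
      apply Real.exp_le_exp.mpr
      have h2 := rate_final
      have h3 : (0 : ℝ) ≤ n := Nat.cast_nonneg n
      have h4 : (1 : ℝ) / 10 ^ 90 * n ≤ c₂ / 22 * n := by gcongr
      rw [hI]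
      have h5 : (n : ℝ) / 10 ^ 90 = 1 / 10 ^ 90 * n := by ring
      rw [h5]
      linarith
    have h2 := C₀_le
    have h3 := C₀_pos
    have h4 := Real.exp_pos (-(c₂ / 22) * I.card)
    have h5 := Real.exp_pos (-((n : ℝ) / 10 ^ 90))
    gcongr

end Vale.Agent.Lib.P368z
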