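import Vale.Agent.Lib.P368z.Expand

/-!
The lift of a bound for product projectors through one layer of gates.
-/

open scoped BigOperators Matrix Matrix.Norms.L2Operator

namespace Vale.Agent.Lib.P368z

open Vale.Agent.Lib.P368x Vale.Agent.Lib.P368y

variable {N : ℕ}

lemma lop_mem_SA (gs : List (RGate N)) (T : Finset (Fin N)) (h : ∀ g ∈ gs, g.S ⊆ T) :
    lop gs ∈ SA T := by
  induction gs with
  | nil => exact one_mem _
  | cons g gs ih =>
    rw [lop_cons]
    exact mul_mem (SA_mono (h g (List.mem_cons_self ..)) (op_mem_SA g))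
      (ih fun k hk => h k (List.mem_cons_of_mem _ hk))

lemma pY_mem_SA (X : Fin N → M2) (L : List (RGate N)) (T : Finset (Fin N)) (h : ∀ g ∈ L, g.S ⊆ T) :
    pY X L ∈ SA T := by
  induction L with
  | nil => exact one_mem _
  | cons g L ih =>
    rw [pY]
    exact mul_mem (ih fun k hk => h k (List.mem_cons_of_mem _ hk))
      (SA_mono (h g (List.mem_cons_self ..)) (Yh_mem_SA X g))

/-- A gate conjugating a product projector: the part in the gate splits off. -/
lemma gate_split (h : RGate N) (X : Fin N → M2) :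
    h.op * tensor X * h.op = Yh X h * tensor (XOff h.S X) := by
  have c : Commute h.op (tensor (XOff h.S X)) := by
    refine Commute.sub_left (Commute.one_left _) (Commute.smul_left ?_ _)
    apply tensor_commute
    intro s
    by_cases hs : s ∈ h.S
    · right; simp [XOff, hs]
    · left; exact h.hO s hs
  rw [tensor_split h.S X, Yh]
  calc h.op * (tensor (XOn h.S X) * tensor (XOff h.S X)) * h.op
      = h.op * tensor (XOn h.S X) * (tensor (XOff h.S X) * h.op) := by simp only [mul_assoc]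
    _ = h.op * tensor (XOn h.S X) * (h.op * tensor (XOff h.S X)) := by rw [c.eq]
    _ = _ := by simp only [mul_assoc]

/-- The normal form of a product projector conjugated by a layer. -/
theorem conj_form (gs : List (RGate N)) (hgs : gs.Pairwise fun g h => Disjoint g.S h.S) :
    ∀ X : Fin N → M2, AllOK X → ∃ (L : List (RGate N)) (Z : Fin N → M2), L.Sublist gs ∧
      (∀ h ∈ L, ∃ s ∈ h.S, X s ≠ 1) ∧ AllOK Z ∧ (∀ s, X s = 1 → Z s = 1) ∧
      (∀ h ∈ L, ∀ s ∈ h.S, Z s = 1) ∧ (lop gs)ᴴ * tensor X * lop gs = pY X L * tensor Z := by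
  induction gs with
  | nil =>
    intro X hX
    refine ⟨[], X, List.Sublist.refl _, by simp, hX, fun _ h => h, by simp, by simp [pY]⟩
  | cons h gs ih =>
    intro X hX
    obtain ⟨hd, hgs'⟩ := List.pairwise_cons.mp hgs
    obtain ⟨L, Z, h1, h2, h3, h4, h5, h6⟩ := ih hgs' (XOff h.S X) (XOff_ok hX)
    have hoff : ∀ k ∈ gs, ∀ s ∈ k.S, s ∉ h.S := fun k hk s hs hs' =>
      Finset.disjoint_left.mp (hd k hk) hs' hs
    have hcong : pY (XOff h.S X) L = pY X L := by
      apply pY_congr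
      intro k hk s hs
      simp [XOff, hoff k (h1.subset hk) s hs]
    rw [hcong] at h6
    have hsub : ∀ k ∈ gs, k.S ⊆ Finset.univ \ h.S := fun k hk s hs => by
      simp [hoff k hk s hs]
    have hsubL : ∀ k ∈ L, k.S ⊆ Finset.univ \ h.S := fun k hk => hsub k (h1.subset hk)
    have hdj : Disjoint h.S (Finset.univ \ h.S) := Finset.disjoint_sdiff
    have cm : Commute (Yh X h) (lop gs) :=
      SA_commute hdj (Yh_mem_SA X h) (lop_mem_SA gs _ hsub)
    have cm' : Commute (Yh X h) (lop gs)ᴴ :=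
      SA_commute hdj (Yh_mem_SA X h) (SA_adj (lop_mem_SA gs _ hsub))
    have cY : Commute (Yh X h) (pY X L) :=
      SA_commute hdj (Yh_mem_SA X h) (pY_mem_SA X L _ hsubL)
    have hmain : (lop (h :: gs))ᴴ * tensor X * lop (h :: gs) = pY X L * tensor Z * Yh X h
        ∨ (lop (h :: gs))ᴴ * tensor X * lop (h :: gs) = Yh X h * (pY X L * tensor Z) := by
      right
      rw [lop_cons, Matrix.conjTranspose_mul, h.herm]
      calc (lop gs)ᴴ * h.op * tensor X * (h.op * lop gs)
          = (lop gs)ᴴ * (h.op * tensor X * h.op) * lop gs := by simp only [mul_assoc]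
        _ = (lop gs)ᴴ * (Yh X h * tensor (XOff h.S X)) * lop gs := by rw [gate_split]
        _ = ((lop gs)ᴴ * Yh X h) * tensor (XOff h.S X) * lop gs := by simp only [mul_assoc]
        _ = (Yh X h * (lop gs)ᴴ) * tensor (XOff h.S X) * lop gs := by rw [cm'.eq]
        _ = Yh X h * ((lop gs)ᴴ * tensor (XOff h.S X) * lop gs) := by simp only [mul_assoc]
        _ = _ := by rw [h6]
    have hmain' : (lop (h :: gs))ᴴ * tensor X * lop (h :: gs) = Yh X h * (pY X L * tensor Z) := by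
      rw [lop_cons, Matrix.conjTranspose_mul, h.herm]
      calc (lop gs)ᴴ * h.op * tensor X * (h.op * lop gs)
          = (lop gs)ᴴ * (h.op * tensor X * h.op) * lop gs := by simp only [mul_assoc]
        _ = (lop gs)ᴴ * (Yh X h * tensor (XOff h.S X)) * lop gs := by rw [gate_split]
        _ = ((lop gs)ᴴ * Yh X h) * tensor (XOff h.S X) * lop gs := by simp only [mul_assoc]
        _ = (Yh X h * (lop gs)ᴴ) * tensor (XOff h.S X) * lop gs := by rw [cm'.eq]
        _ = Yh X h * ((lop gs)ᴴ * tensor (XOff h.S X) * lop gs) := by simp only [mul_assoc]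
        _ = _ := by rw [h6]
    have hZX : ∀ s, X s = 1 → Z s = 1 := fun s hs => h4 s (by
      by_cases hsh : s ∈ h.S
      · simp [XOff, hsh]
      · simp [XOff, hsh, hs])
    have hmeet : ∀ k ∈ L, ∃ s ∈ k.S, X s ≠ 1 := by
      intro k hk
      obtain ⟨s, hs, hs1⟩ := h2 k hk
      refine ⟨s, hs, ?_⟩
      have : s ∉ h.S := hoff k (h1.subset hk) s hs
      simpa [XOff, this] using hs1
    by_cases hm : ∃ s ∈ h.S, X s ≠ 1
    · refine ⟨h :: L, Z, h1.cons_cons h, ?_, h3, hZX, ?_, ?_⟩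
      · intro k hk
        rcases List.mem_cons.mp hk with rfl | hk
        · exact hm
        · exact hmeet k hk
      · intro k hk s hs
        rcases List.mem_cons.mp hk with rfl | hk
        · exact h4 s (by simp [XOff, hs])
        · exact h5 k hk s hs
      · rw [hmain', pY, ← mul_assoc, cY.eq]
    · push Not at hm
      refine ⟨L, Z, h1.cons h, hmeet, h3, hZX, h5, ?_⟩
      have hXOn : XOn h.S X = fun _ => 1 := by
        funext s
        by_cases hs : s ∈ h.S
        · simp [XOn, hs, hm s hs]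
        · simp [XOn, hs]
      have hY1 : Yh X h = 1 := by
        rw [Yh, hXOn, tensor_one, mul_one, h.sq]
      rw [hmain', hY1, one_mul]

/-- **Lift** of a bound for product projectors through a layer of gates. -/
theorem lift (Λ : Op N →ₗ[ℂ] ℂ) (hΛ : ∀ A, ‖Λ A‖ ≤ ‖A‖) (ε : ℝ) (hε0 : 0 ≤ ε)
    (hε : ∀ X : Fin N → M2, AllOK X → ‖Λ (tensor X)‖ ≤ ε) (gs : List (RGate N))
    (hgs : gs.Pairwise fun g h => Disjoint g.S h.S) (X : Fin N → M2) (hX : AllOK X) (M D : ℕ)
    (hM : 2 ≤ M)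
    (hcount : ∀ L : List (RGate N), L.Sublist gs → (∀ h ∈ L, ∃ s ∈ h.S, X s ≠ 1) → L.length ≤ M) :
    ‖Λ ((lop gs)ᴴ * tensor X * lop gs)‖
      ≤ 2 * Real.exp (-(D : ℝ) / Real.sqrt M) + 87 ^ D * Real.sqrt ε := by
  obtain ⟨L, Z, h1, h2, h3, _, h5, h6⟩ := conj_form gs hgs X hX
  rw [h6]
  exact and_bound Λ hΛ (Real.sqrt ε) (Real.sqrt_nonneg _) (fun Z hZ => polar Λ hΛ ε hε0 hε Z hZ) hX
    L (hgs.sublist h1) Z h3 h5 M D hM (hcount L h1 h2)

/-- The functional of a unitary. -/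
noncomputable def Lam (I : Finset (Fin N)) (W : Op N) : Op N →ₗ[ℂ] ℂ where
  toFun A := E I (Wᴴ * A * W) (zeroStr N) (zeroStr N)
  map_add' A B := by
    simp only [mul_add, add_mul, map_add, Matrix.add_apply]
  map_smul' c A := by
    simp only [mul_smul_comm, smul_mul_assoc, map_smul, Matrix.smul_apply, smul_eq_mul,
      RingHom.id_apply]

lemma Lam_apply (I : Finset (Fin N)) (W A : Op N) :
    Lam I W A = E I (Wᴴ * A * W) (zeroStr N) (zeroStr N) := rfl

lemma Lam_le (I : Finset (Fin N)) {W : Op N} (hW : ‖W‖ ≤ 1) (A : Op N) : ‖Lam I W A‖ ≤ ‖A‖ := by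
  rw [Lam_apply]
  refine (abs_entry_le _ _).trans ((norm_E_le _ _).trans ?_)
  exact mul3_norm_le _ (by rw [norm_adj]; exact hW) hW

lemma norm_of_unitary {W : Op N} (hW : Wᴴ * W = 1) : ‖W‖ ≤ 1 := by
  have h : ‖Wᴴ * W‖ = ‖W‖ * ‖W‖ := Matrix.l2_opNorm_conjTranspose_mul_self _
  rw [hW, norm_one] at h
  nlinarith [norm_nonneg W]

/-- All product projectors have small value. -/
def TestB (I : Finset (Fin N)) (W : Op N) (ε : ℝ) : Prop :=
  ∀ X : Fin N → M2, AllOK X → ‖E I (Wᴴ * tensor X * W) (zeroStr N) (zeroStr N)‖ ≤ ε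

lemma conj_mul (W G A : Op N) : (G * W)ᴴ * A * (G * W) = Wᴴ * (Gᴴ * A * G) * W := by
  rw [Matrix.conjTranspose_mul]
  simp only [mul_assoc]

/-- One application of the lift, with an explicit degree. -/
lemma test_lift {I : Finset (Fin N)} {W : Op N} (hW : ‖W‖ ≤ 1) {ε : ℝ} (hε0 : 0 ≤ ε)
    (hT : TestB I W ε) (gs : List (RGate N)) (hgs : gs.Pairwise fun g h => Disjoint g.S h.S)
    (X : Fin N → M2) (hX : AllOK X) (M D : ℕ) (hM : 2 ≤ M)
    (hcount : ∀ L : List (RGate N), L.Sublist gs → (∀ h ∈ L, ∃ s ∈ h.S, X s ≠ 1) → L.length ≤ M) :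
    ‖E I ((lop gs * W)ᴴ * tensor X * (lop gs * W)) (zeroStr N) (zeroStr N)‖
      ≤ 2 * Real.exp (-(D : ℝ) / Real.sqrt M) + 87 ^ D * Real.sqrt ε := by
  rw [conj_mul]
  exact lift (Lam I W) (Lam_le I hW) ε hε0 hT gs hgs X hX M D hM hcount

lemma log87_le : Real.log 87 ≤ 9 / 2 := by
  rw [Real.log_le_iff_le_exp (by norm_num)]
  have h1 : (2.7 : ℝ) ≤ Real.exp 1 := by
    have := Real.exp_one_gt_d9
    linarith
  have h2 : Real.exp (9 / 2) ^ 2 = Real.exp 1 ^ 9 := by
    rw [← Real.exp_nat_mul, ← Real.exp_nat_mul]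
    norm_num
  have h3 : (2.7 : ℝ) ^ 9 ≤ Real.exp 1 ^ 9 := pow_le_pow_left₀ (by norm_num) h1 9
  have h4 : (87 : ℝ) ^ 2 ≤ Real.exp (9 / 2) ^ 2 := by
    rw [h2]
    refine le_trans ?_ h3
    norm_num
  exact (pow_le_pow_iff_left₀ (by norm_num) (Real.exp_pos _).le (by norm_num)).mp h4

/-- The numerical form of the lift: the rate is divided by `18 √M`. -/
lemma numeric_lift (M : ℕ) (hM : 2 ≤ M) (ν : ℝ) (hν : 0 ≤ ν) :
    ∃ D : ℕ, 2 * Real.exp (-(D : ℝ) / Real.sqrt M) + 87 ^ D * Real.sqrt (9 * Real.exp (-ν))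
      ≤ 9 * Real.exp (-(ν / (18 * Real.sqrt M))) := by
  have hM' : (2 : ℝ) ≤ M := by exact_mod_cast hM
  have hs1 : 1 ≤ Real.sqrt M := by
    have := Real.sqrt_le_sqrt (show (1 : ℝ) ≤ M by linarith)
    rwa [Real.sqrt_one] at this
  set r := Real.sqrt M with hr
  have hr0 : 0 < r := by linarith
  have hl0 : 0 < Real.log 87 := Real.log_pos (by norm_num)
  set D := ⌊ν / 18⌋₊ with hD
  have hD1 : (D : ℝ) ≤ ν / 18 := Nat.floor_le (by positivity)
  have hD2 : ν / 18 < D + 1 := Nat.lt_floor_add_one _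
  refine ⟨D, ?_⟩
  have hsqrt : Real.sqrt (9 * Real.exp (-ν)) = 3 * Real.exp (-(ν / 2)) := by
    have : 9 * Real.exp (-ν) = (3 * Real.exp (-(ν / 2))) ^ 2 := by
      have e : ((2 : ℕ) : ℝ) * (-(ν / 2)) = -ν := by
        push_cast
        ring
      rw [mul_pow, ← Real.exp_nat_mul, e]
      norm_num
    rw [this, Real.sqrt_sq (by positivity)]
  rw [hsqrt]
  have hpow : (87 : ℝ) ^ D ≤ Real.exp (ν / 4) := by
    rw [← Real.rpow_natCast, Real.rpow_def_of_pos (by norm_num)]
    apply Real.exp_le_exp.mpr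
    have h0 : (0 : ℝ) ≤ D := Nat.cast_nonneg D
    have := log87_le
    nlinarith
  have t2 : (87 : ℝ) ^ D * (3 * Real.exp (-(ν / 2))) ≤ 3 * Real.exp (-(ν / (18 * r))) := by
    calc (87 : ℝ) ^ D * (3 * Real.exp (-(ν / 2)))
        ≤ Real.exp (ν / 4) * (3 * Real.exp (-(ν / 2))) := by gcongr
      _ = 3 * (Real.exp (ν / 4) * Real.exp (-(ν / 2))) := by ring
      _ = 3 * Real.exp (-(ν / 4)) := by
          rw [← Real.exp_add]
          congr 2
          ring
      _ ≤ _ := by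
          gcongr
          nlinarith
  have t1 : 2 * Real.exp (-(D : ℝ) / r) ≤ 6 * Real.exp (-(ν / (18 * r))) := by
    have h1 : -(D : ℝ) / r ≤ 1 + -(ν / (18 * r)) := by
      have e : ν / (18 * r) = (ν / 18) / r := by
        field_simp
      rw [e, neg_div, ← sub_eq_add_neg, sub_eq_add_neg (1 : ℝ), neg_le_iff_add_nonneg]
      have h2 : (ν / 18) / r ≤ (D + 1) / r := by gcongr
      have h3 : ((D : ℝ) + 1) / r = D / r + 1 / r := by ring
      have h4 : 1 / r ≤ 1 := by
        rw [div_le_one hr0]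
        exact hs1
      linarith
    have h2 : Real.exp (-(D : ℝ) / r) ≤ Real.exp 1 * Real.exp (-(ν / (18 * r))) := by
      rw [← Real.exp_add]
      exact Real.exp_le_exp.mpr h1
    have he : Real.exp 1 < 3 := Real.exp_one_lt_d9.trans (by norm_num)
    have hp := Real.exp_pos (-(ν / (18 * r)))
    nlinarith
  linarith

/-- The lift with exponential bounds. -/
lemma test_step {I : Finset (Fin N)} {W : Op N} (hW : ‖W‖ ≤ 1) (ν : ℝ) (hν : 0 ≤ ν)
    (hT : TestB I W (9 * Real.exp (-ν))) (gs : List (RGate N))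
    (hgs : gs.Pairwise fun g h => Disjoint g.S h.S) (M : ℕ) (hM : 2 ≤ M) (X : Fin N → M2)
    (hX : AllOK X)
    (hcount : ∀ L : List (RGate N), L.Sublist gs → (∀ h ∈ L, ∃ s ∈ h.S, X s ≠ 1) → L.length ≤ M) :
    ‖E I ((lop gs * W)ᴴ * tensor X * (lop gs * W)) (zeroStr N) (zeroStr N)‖
      ≤ 9 * Real.exp (-(ν / (18 * Real.sqrt M))) := by
  obtain ⟨D, hD⟩ := numeric_lift M hM ν hν
  exact (test_lift hW (by positivity) hT gs hgs X hX M D hM hcount).trans hD

end Vale.Agent.Lib.P368z
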