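import Vale.Agent.Lib.P368y.Multi7

/-!
Polarization: a contraction functional which is small on all product projectors is small
(with a square root loss) on products of pairs of rank-one projectors, by the three lines theorem.
-/

open scoped BigOperators Matrix Matrix.Norms.L2Operator

namespace Vale.Agent.Lib.P368z

open Vale.Agent.Lib.P368x Vale.Agent.Lib.P368y

variable {N : ℕ}

lemma nsq_eq_dot (x : Bool → ℂ) : star x false * x false + star x true * x true = ((nsq x : ℝ) : ℂ) := by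
  have e0 : star x false * x false = ((‖x false‖ ^ 2 : ℝ) : ℂ) := by
    simp [Complex.conj_mul']
  have e1 : star x true * x true = ((‖x true‖ ^ 2 : ℝ) : ℂ) := by
    simp [Complex.conj_mul']
  rw [e0, e1, nsq]
  push_cast
  ring

lemma vv_adj (x y : Bool → ℂ) : (Matrix.vecMulVec x (star y))ᴴ = Matrix.vecMulVec y (star x) := by
  ext i j
  simp [Matrix.conjTranspose_apply, Matrix.vecMulVec_apply, mul_comm]

lemma vv_mul (x y u v : Bool → ℂ) :
    Matrix.vecMulVec x (star y) * Matrix.vecMulVec u (star v)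
      = (star y false * u false + star y true * u true) • Matrix.vecMulVec x (star v) := by
  ext i j
  simp only [Matrix.mul_apply, Matrix.vecMulVec_apply, Fintype.sum_bool, Matrix.smul_apply,
    smul_eq_mul, Pi.star_apply]
  ring

lemma norm_self_vv (y : Bool → ℂ) : ‖Matrix.vecMulVec y (star y)‖ ≤ nsq y := by
  set P := Matrix.vecMulVec y (star y) with hP
  have h1 : ‖Pᴴ * P‖ = ‖P‖ * ‖P‖ := Matrix.l2_opNorm_conjTranspose_mul_self _
  have h2 : Pᴴ * P = ((nsq y : ℝ) : ℂ) • P := by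
    rw [hP, vv_adj, vv_mul, nsq_eq_dot]
  rw [h2, norm_smul, Complex.norm_real, Real.norm_of_nonneg (nsq_nonneg y)] at h1
  by_cases h0 : ‖P‖ = 0
  · rw [h0]; exact nsq_nonneg y
  · have hp : 0 < ‖P‖ := lt_of_le_of_ne (norm_nonneg _) (Ne.symm h0)
    exact le_of_eq (mul_right_cancel₀ h0 h1).symm

lemma norm_vv_sq (x y : Bool → ℂ) : ‖Matrix.vecMulVec x (star y)‖ ^ 2 ≤ nsq x * nsq y := by
  set A := Matrix.vecMulVec x (star y) with hA
  have h1 : ‖Aᴴ * A‖ = ‖A‖ * ‖A‖ := Matrix.l2_opNorm_conjTranspose_mul_self _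
  have h2 : Aᴴ * A = ((nsq x : ℝ) : ℂ) • Matrix.vecMulVec y (star y) := by
    rw [hA, vv_adj, vv_mul, nsq_eq_dot]
  rw [h2, norm_smul, Complex.norm_real, Real.norm_of_nonneg (nsq_nonneg x)] at h1
  have h3 := norm_self_vv y
  rw [sq, ← h1]
  exact mul_le_mul_of_nonneg_left h3 (nsq_nonneg x)

lemma nsq_add_smul (b r : Bool → ℂ) (t : ℂ)
    (horth : star b false * r false + star b true * r true = 0) :
    nsq (b + t • r) = nsq b + ‖t‖ ^ 2 * nsq r := by
  have key : ∀ u v : ℂ, ‖u + t * v‖ ^ 2 = ‖u‖ ^ 2 + ‖t‖ ^ 2 * ‖v‖ ^ 2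
      + 2 * (star u * (t * v)).re := by
    intro u v
    rw [Complex.sq_norm, Complex.normSq_add, ← Complex.sq_norm, ← Complex.sq_norm, norm_mul, mul_pow]
    have : (u * (starRingEnd ℂ) (t * v)).re = (star u * (t * v)).re := by
      simp only [Complex.star_def, Complex.mul_re, Complex.conj_re, Complex.conj_im, Complex.mul_im]
      ring
    rw [this]
  simp only [nsq, Pi.add_apply, Pi.smul_apply, smul_eq_mul]
  rw [key, key]
  have h0 : (star (b false) * (t * r false)).re + (star (b true) * (t * r true)).re = 0 := by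
    rw [← Complex.add_re]
    have : star (b false) * (t * r false) + star (b true) * (t * r true)
        = t * (star b false * r false + star b true * r true) := by
      simp only [Pi.star_apply]
      ring
    rw [this, horth]
    simp
  nlinarith [h0]

/-- The site function for the pair `a`, `b`. -/
noncomputable def phi (a b : Bool → ℂ) (z : ℂ) : M2 :=
  (Complex.exp (((1 - ‖star b false * a false + star b true * a true‖ ^ 2 : ℝ) : ℂ)
      * ((z - 1 / 2) * (z - 3 / 2)))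
    * ((‖star b false * a false + star b true * a true‖ ^ 2 : ℝ) : ℂ)) •
    Matrix.vecMulVec (b + (1 / 2 + z) • ((star b false * a false + star b true * a true)⁻¹ • a - b))
      (star b + (1 / 2 - z) • star ((star b false * a false + star b true * a true)⁻¹ • a - b))

lemma phi_diff (a b : Bool → ℂ) (i j : Bool) : Differentiable ℂ fun z => phi a b z i j := by
  unfold phi
  simp only [Matrix.smul_apply, Matrix.vecMulVec_apply, smul_eq_mul, Pi.add_apply, Pi.smul_apply]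
  fun_prop

lemma phi_half (a b : Bool → ℂ)
    (hc : star b false * a false + star b true * a true ≠ 0) :
    phi a b (1 / 2) = Matrix.vecMulVec a (star a) * Matrix.vecMulVec b (star b) := by
  set c := star b false * a false + star b true * a true with hcdef
  unfold phi
  rw [← hcdef, vv_mul]
  have hc' : star a false * b false + star a true * b true = star c := by
    simp only [hcdef, star_add, star_mul', star_star, Pi.star_apply]
    ring
  rw [hc']
  have e1 : (((1 / 2 : ℂ) - 1 / 2) * ((1 / 2 : ℂ) - 3 / 2)) = 0 := by ring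
  rw [e1]
  simp only [mul_zero, Complex.exp_zero, one_mul]
  have e2 : (1 / 2 + 1 / 2 : ℂ) = 1 := by ring
  have e3 : (1 / 2 - 1 / 2 : ℂ) = 0 := by ring
  rw [e2, e3, one_smul, zero_smul, add_zero, add_sub_cancel]
  have e4 : ((‖c‖ ^ 2 : ℝ) : ℂ) = star c * c := by simp [Complex.conj_mul']
  rw [e4]
  ext i j
  simp only [Matrix.smul_apply, Matrix.vecMulVec_apply, smul_eq_mul, Pi.smul_apply]
  field_simp

/-- Basic data for the pair `a`, `b`. -/
lemma pair_data (a b : Bool → ℂ) (ha : nsq a = 1) (hb : nsq b = 1)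
    (hc : star b false * a false + star b true * a true ≠ 0) :
    let c := star b false * a false + star b true * a true
    let r := c⁻¹ • a - b
    (star b false * r false + star b true * r true = 0) ∧ 0 < ‖c‖ ^ 2 ∧ ‖c‖ ^ 2 ≤ 1 ∧
      ‖c‖ ^ 2 * nsq r = 1 - ‖c‖ ^ 2 := by
  intro c r
  have hb' := nsq_eq_dot b
  rw [hb] at hb'
  have horth : star b false * r false + star b true * r true = 0 := by
    simp only [r, Pi.sub_apply, Pi.smul_apply, smul_eq_mul]
    have : star b false * (c⁻¹ * a false - b false) + star b true * (c⁻¹ * a true - b true)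
        = c⁻¹ * (star b false * a false + star b true * a true)
          - (star b false * b false + star b true * b true) := by ring
    rw [this, hb']
    have h1 : c⁻¹ * (star b false * a false + star b true * a true) = 1 := inv_mul_cancel₀ hc
    rw [h1]
    simp
  have hcp : 0 < ‖c‖ ^ 2 := by
    have : 0 < ‖c‖ := norm_pos_iff.mpr hc
    positivity
  have hc1 : ‖c‖ ≤ 1 := by
    exact dot_le b a hb.le ha.le
  have hc2 : ‖c‖ ^ 2 ≤ 1 := by
    have h0 := norm_nonneg c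
    nlinarith
  refine ⟨horth, hcp, hc2, ?_⟩
  have ea : a = c • (b + (1 : ℂ) • r) := by
    simp only [r, one_smul, add_sub_cancel, smul_smul]
    rw [mul_inv_cancel₀ hc, one_smul]
  have h2 : nsq a = ‖c‖ ^ 2 * nsq (b + (1 : ℂ) • r) := by
    conv_lhs => rw [ea]
    rw [nsq_smul]
  rw [nsq_add_smul b r 1 horth, ha, hb] at h2
  simp only [norm_one, one_pow, one_mul] at h2
  linarith

/-- Exponent bookkeeping for the site function. -/
lemma re_aux (z : ℂ) : ((z - 1 / 2) * (z - 3 / 2)).re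
    = z.re ^ 2 - z.im ^ 2 - 2 * z.re + 3 / 4 := by
  simp only [Complex.mul_re, Complex.sub_re, Complex.sub_im, Complex.div_ofNat_re,
    Complex.div_ofNat_im, Complex.one_re, Complex.one_im]
  norm_num
  ring

lemma normt_aux (z : ℂ) : ‖1 / 2 + z‖ ^ 2 = (1 / 2 + z.re) ^ 2 + z.im ^ 2 := by
  rw [Complex.sq_norm, Complex.normSq_apply]
  simp only [Complex.add_re, Complex.add_im, Complex.div_ofNat_re, Complex.div_ofNat_im,
    Complex.one_re, Complex.one_im]
  norm_num
  ring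

lemma norms_aux (z : ℂ) : ‖1 / 2 - z‖ ^ 2 = (1 / 2 - z.re) ^ 2 + z.im ^ 2 := by
  rw [Complex.sq_norm, Complex.normSq_apply]
  simp only [Complex.sub_re, Complex.sub_im, Complex.div_ofNat_re, Complex.div_ofNat_im,
    Complex.one_re, Complex.one_im]
  norm_num
  ring

lemma phi_norm (a b : Bool → ℂ) (ha : nsq a = 1) (hb : nsq b = 1)
    (hc : star b false * a false + star b true * a true ≠ 0) (z : ℂ) (h0 : 0 ≤ z.re)
    (h1 : z.re ≤ 1) : ‖phi a b z‖ ≤ 1 := by
  obtain ⟨horth, hcp, hc2, hT⟩ := pair_data a b ha hb hc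
  unfold phi
  set c := star b false * a false + star b true * a true with hcdef
  set r := c⁻¹ • a - b with hr
  set σ : ℝ := 1 - ‖c‖ ^ 2 with hσ
  have hσ0 : 0 ≤ σ := by rw [hσ]; linarith
  set t : ℂ := 1 / 2 + z with ht
  set s : ℂ := 1 / 2 - z with hs
  have estar : star b + s • star r = star (b + star s • r) := by
    simp [star_add, star_smul]
  rw [estar, norm_smul, norm_mul, Complex.norm_exp, Complex.norm_real,
    Real.norm_of_nonneg (by positivity)]
  have hre : ((σ : ℂ) * ((z - 1 / 2) * (z - 3 / 2))).re = σ * ((z - 1 / 2) * (z - 3 / 2)).re := by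
    rw [Complex.re_ofReal_mul]
  rw [hre, re_aux]
  have nx : nsq (b + t • r) = 1 + ‖t‖ ^ 2 * nsq r := by rw [nsq_add_smul b r t horth, hb]
  have ny : nsq (b + star s • r) = 1 + ‖s‖ ^ 2 * nsq r := by
    rw [nsq_add_smul b r _ horth, hb, norm_star]
  have hA := norm_vv_sq (b + t • r) (b + star s • r)
  rw [nx, ny] at hA
  set A := Matrix.vecMulVec (b + t • r) (star (b + star s • r)) with hAdef
  have hk1 : ‖c‖ ^ 2 * (1 + ‖t‖ ^ 2 * nsq r) = 1 + (‖t‖ ^ 2 - 1) * σ := by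
    rw [hσ]
    nlinarith [hT]
  have hk2 : ‖c‖ ^ 2 * (1 + ‖s‖ ^ 2 * nsq r) = 1 + (‖s‖ ^ 2 - 1) * σ := by
    rw [hσ]
    nlinarith [hT]
  have hT0 : 0 ≤ nsq r := nsq_nonneg r
  have hp1 : 0 ≤ ‖c‖ ^ 2 * (1 + ‖t‖ ^ 2 * nsq r) := by positivity
  have hp2 : 0 ≤ ‖c‖ ^ 2 * (1 + ‖s‖ ^ 2 * nsq r) := by positivity
  have he1 : ‖c‖ ^ 2 * (1 + ‖t‖ ^ 2 * nsq r) ≤ Real.exp ((‖t‖ ^ 2 - 1) * σ) := by
    rw [hk1]
    have := Real.add_one_le_exp ((‖t‖ ^ 2 - 1) * σ)
    linarith
  have he2 : ‖c‖ ^ 2 * (1 + ‖s‖ ^ 2 * nsq r) ≤ Real.exp ((‖s‖ ^ 2 - 1) * σ) := by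
    rw [hk2]
    have := Real.add_one_le_exp ((‖s‖ ^ 2 - 1) * σ)
    linarith
  have hsq : (‖c‖ ^ 2 * ‖A‖) ^ 2
      ≤ Real.exp ((‖t‖ ^ 2 - 1) * σ) * Real.exp ((‖s‖ ^ 2 - 1) * σ) := by
    calc (‖c‖ ^ 2 * ‖A‖) ^ 2 = (‖c‖ ^ 2) ^ 2 * ‖A‖ ^ 2 := by ring
      _ ≤ (‖c‖ ^ 2) ^ 2 * ((1 + ‖t‖ ^ 2 * nsq r) * (1 + ‖s‖ ^ 2 * nsq r)) := by gcongr
      _ = (‖c‖ ^ 2 * (1 + ‖t‖ ^ 2 * nsq r)) * (‖c‖ ^ 2 * (1 + ‖s‖ ^ 2 * nsq r)) := by ring
      _ ≤ _ := by gcongr
  set w : ℝ := z.re ^ 2 - z.im ^ 2 - 2 * z.re + 3 / 4 with hw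
  have hfin : (Real.exp (σ * w) * (‖c‖ ^ 2 * ‖A‖)) ^ 2 ≤ 1 := by
    rw [mul_pow]
    calc Real.exp (σ * w) ^ 2 * (‖c‖ ^ 2 * ‖A‖) ^ 2
        ≤ Real.exp (σ * w) ^ 2 * (Real.exp ((‖t‖ ^ 2 - 1) * σ) * Real.exp ((‖s‖ ^ 2 - 1) * σ)) := by
          gcongr
      _ = Real.exp (4 * z.re * (z.re - 1) * σ) := by
          rw [← Real.exp_nat_mul, ← Real.exp_add, ← Real.exp_add, ht, hs, normt_aux, norms_aux, hw]
          congr 1
          push_cast
          ring
      _ ≤ 1 := by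
          apply Real.exp_le_one_iff.mpr
          have : z.re * (z.re - 1) ≤ 0 := mul_nonpos_of_nonneg_of_nonpos h0 (by linarith)
          nlinarith
  have hnn : 0 ≤ Real.exp (σ * w) * (‖c‖ ^ 2 * ‖A‖) := by positivity
  have := abs_le_of_sq_le_sq' (a := Real.exp (σ * w) * (‖c‖ ^ 2 * ‖A‖)) (b := 1) (by simpa using hfin)
    (by norm_num)
  calc Real.exp (σ * w) * ‖c‖ ^ 2 * ‖A‖ = Real.exp (σ * w) * (‖c‖ ^ 2 * ‖A‖) := by ring
    _ ≤ 1 := this.2

lemma proj1_of_ne (x : Bool → ℂ) (hx : 0 < nsq x) :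
    Proj1 (((nsq x : ℝ) : ℂ)⁻¹ • Matrix.vecMulVec x (star x)) := by
  set n := nsq x with hn
  have hn0 : ((Real.sqrt n : ℝ) : ℂ) ≠ 0 := by
    simp only [ne_eq, Complex.ofReal_eq_zero]
    exact (Real.sqrt_pos.mpr hx).ne'
  refine ⟨((Real.sqrt n : ℝ) : ℂ)⁻¹ • x, ?_, ?_⟩
  · rw [nsq_smul, norm_inv, Complex.norm_real, Real.norm_of_nonneg (Real.sqrt_nonneg _), inv_pow,
      Real.sq_sqrt hx.le, ← hn]
    exact inv_mul_cancel₀ hx.ne'
  · ext i j
    simp only [Matrix.smul_apply, Matrix.vecMulVec_apply, smul_eq_mul, Pi.star_apply, Pi.smul_apply,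
      star_mul', star_inv₀]
    have hs : star ((Real.sqrt n : ℝ) : ℂ) = ((Real.sqrt n : ℝ) : ℂ) := Complex.conj_ofReal _
    rw [hs]
    have h2 : ((n : ℝ) : ℂ) = ((Real.sqrt n : ℝ) : ℂ) * ((Real.sqrt n : ℝ) : ℂ) := by
      rw [← Complex.ofReal_mul, Real.mul_self_sqrt hx.le]
    rw [h2]
    field_simp

lemma phi_edge (a b : Bool → ℂ) (ha : nsq a = 1) (hb : nsq b = 1)
    (hc : star b false * a false + star b true * a true ≠ 0) (z : ℂ) (h0 : z.re = 0) :
    ∃ (κ : ℂ) (Y : M2), ‖κ‖ ≤ 1 ∧ SiteOK Y ∧ phi a b z = κ • Y := by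
  obtain ⟨horth, hcp, hc2, hT⟩ := pair_data a b ha hb hc
  unfold phi
  set c := star b false * a false + star b true * a true with hcdef
  set r := c⁻¹ • a - b with hr
  set σ : ℝ := 1 - ‖c‖ ^ 2 with hσ
  have hσ0 : 0 ≤ σ := by rw [hσ]; linarith
  set t : ℂ := 1 / 2 + z with ht
  have hst : (1 / 2 - z : ℂ) = star t := by
    rw [ht]
    apply Complex.ext
    · simp [h0]
    · simp
  rw [hst]
  have estar : star b + star t • star r = star (b + t • r) := by
    simp [star_add, star_smul]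
  rw [estar]
  set x := b + t • r with hx
  have nx : nsq x = 1 + ‖t‖ ^ 2 * nsq r := by rw [hx, nsq_add_smul b r t horth, hb]
  have hT0 : 0 ≤ nsq r := nsq_nonneg r
  have hxp : 0 < nsq x := by rw [nx]; positivity
  have hne : ((nsq x : ℝ) : ℂ) ≠ 0 := by
    exact_mod_cast hxp.ne'
  refine ⟨(Complex.exp ((σ : ℂ) * ((z - 1 / 2) * (z - 3 / 2))) * ((‖c‖ ^ 2 : ℝ) : ℂ))
    * ((nsq x : ℝ) : ℂ), ((nsq x : ℝ) : ℂ)⁻¹ • Matrix.vecMulVec x (star x), ?_,
    Or.inr (proj1_of_ne x hxp), ?_⟩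
  · rw [norm_mul, norm_mul, Complex.norm_exp, Complex.norm_real, Complex.norm_real,
      Real.norm_of_nonneg (by positivity), Real.norm_of_nonneg hxp.le]
    have hre : ((σ : ℂ) * ((z - 1 / 2) * (z - 3 / 2))).re = σ * ((z - 1 / 2) * (z - 3 / 2)).re := by
      rw [Complex.re_ofReal_mul]
    rw [hre, re_aux, h0, nx]
    have hk1 : ‖c‖ ^ 2 * (1 + ‖t‖ ^ 2 * nsq r) = 1 + (‖t‖ ^ 2 - 1) * σ := by
      rw [hσ]
      nlinarith [hT]
    have he1 : ‖c‖ ^ 2 * (1 + ‖t‖ ^ 2 * nsq r) ≤ Real.exp ((‖t‖ ^ 2 - 1) * σ) := by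
      rw [hk1]
      have := Real.add_one_le_exp ((‖t‖ ^ 2 - 1) * σ)
      linarith
    have hnt : ‖t‖ ^ 2 = (1 / 2 + z.re) ^ 2 + z.im ^ 2 := by rw [ht, normt_aux]
    rw [h0] at hnt
    calc Real.exp (σ * (0 ^ 2 - z.im ^ 2 - 2 * 0 + 3 / 4)) * ‖c‖ ^ 2 * (1 + ‖t‖ ^ 2 * nsq r)
        = Real.exp (σ * (0 ^ 2 - z.im ^ 2 - 2 * 0 + 3 / 4))
            * (‖c‖ ^ 2 * (1 + ‖t‖ ^ 2 * nsq r)) := by ring
      _ ≤ Real.exp (σ * (0 ^ 2 - z.im ^ 2 - 2 * 0 + 3 / 4)) * Real.exp ((‖t‖ ^ 2 - 1) * σ) := by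
          gcongr
      _ = 1 := by
          rw [← Real.exp_add, hnt]
          have : σ * (0 ^ 2 - z.im ^ 2 - 2 * 0 + 3 / 4)
              + (((1 / 2 + 0) ^ 2 + z.im ^ 2) - 1) * σ = 0 := by ring
          rw [this, Real.exp_zero]
  · rw [smul_smul, mul_assoc, mul_inv_cancel₀ hne, mul_one]

/-- Matrices reachable as the value at one half of a contraction-valued entire function whose
values on the left edge are multiples of admissible sites. -/
def Pol (Z : M2) : Prop :=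
  ∃ f : ℂ → M2, (∀ i j, Differentiable ℂ fun z => f z i j) ∧
    (∀ z : ℂ, 0 ≤ z.re → z.re ≤ 1 → ‖f z‖ ≤ 1) ∧
    (∀ z : ℂ, z.re = 0 → ∃ (κ : ℂ) (Y : M2), ‖κ‖ ≤ 1 ∧ SiteOK Y ∧ f z = κ • Y) ∧
    f (1 / 2) = Z

lemma pol_of_ok {Y : M2} (h : SiteOK Y) : Pol Y :=
  ⟨fun _ => Y, fun _ _ => differentiable_const _, fun _ _ _ => h.norm_le,
    fun _ _ => ⟨1, Y, by simp, h, by simp⟩, rfl⟩

lemma pol_one : Pol (1 : M2) := pol_of_ok (Or.inl rfl)

lemma pol_smul {Z : M2} (κ : ℂ) (hκ : ‖κ‖ ≤ 1) (h : Pol Z) : Pol (κ • Z) := by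
  obtain ⟨f, h1, h2, h3, h4⟩ := h
  refine ⟨fun z => κ • f z, fun i j => ?_, fun z hz hz' => ?_, fun z hz => ?_, ?_⟩
  · simp only [Matrix.smul_apply, smul_eq_mul]
    exact (differentiable_const κ).mul (h1 i j)
  · rw [norm_smul]
    have := h2 z hz hz'
    have h0 := norm_nonneg (f z)
    have h0' := norm_nonneg κ
    nlinarith
  · obtain ⟨κ', Y, h5, h6, h7⟩ := h3 z hz
    refine ⟨κ * κ', Y, ?_, h6, ?_⟩
    · rw [norm_mul]
      have h0 := norm_nonneg κ'
      have h0' := norm_nonneg κ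
      nlinarith
    · show κ • f z = _
      rw [h7, smul_smul]
  · simp only [h4]

lemma pol_pair (a b : Bool → ℂ) (ha : nsq a = 1) (hb : nsq b = 1) :
    Pol (Matrix.vecMulVec a (star a) * Matrix.vecMulVec b (star b)) := by
  by_cases hc : star b false * a false + star b true * a true = 0
  · have h0 : Matrix.vecMulVec a (star a) * Matrix.vecMulVec b (star b) = 0 := by
      rw [vv_mul]
      have : star a false * b false + star a true * b true
          = star (star b false * a false + star b true * a true) := by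
        simp only [star_add, star_mul', star_star, Pi.star_apply]
        ring
      rw [this, hc]
      simp
    rw [h0]
    have := pol_smul 0 (by simp) pol_one
    simpa using this
  · exact ⟨phi a b, phi_diff a b, phi_norm a b ha hb hc, phi_edge a b ha hb hc, phi_half a b hc⟩

lemma pol_proj_mul {p q : M2} (hp : Proj1 p) (hq : Proj1 q) : Pol (p * q) := by
  obtain ⟨a, ha, rfl⟩ := hp
  obtain ⟨b, hb, rfl⟩ := hq
  exact pol_pair a b ha hb

lemma pol_proj_mul_proj {p q : M2} (hp : Proj1 p) (hq : Proj1 q) : Pol (p * q * p) := by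
  obtain ⟨a, ha, rfl⟩ := hp
  obtain ⟨b, hb, rfl⟩ := hq
  rw [mul_assoc, vv_mul, mul_smul_comm, vv_mul, smul_smul]
  apply pol_smul
  · have h1 := dot_le a b ha.le hb.le
    have h2 := dot_le b a hb.le ha.le
    rw [norm_mul]
    simp only [Pi.star_apply] 
    have h0 := norm_nonneg (star (a false) * b false + star (a true) * b true)
    have h0' := norm_nonneg (star (b false) * a false + star (b true) * a true)
    nlinarith
  · exact pol_of_ok (Or.inr ⟨a, ha, rfl⟩)

lemma tensor_smul' (κ : Fin N → ℂ) (Y : Fin N → M2) :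
    tensor (fun s => κ s • Y s) = (∏ s, κ s) • tensor Y := by
  ext a b
  simp only [tensor_apply, Matrix.smul_apply, smul_eq_mul, Finset.prod_mul_distrib]

lemma linear_expand (Λ : Op N →ₗ[ℂ] ℂ) (A : Op N) :
    Λ A = ∑ a, ∑ b, A a b * Λ (Matrix.single a b 1) := by
  conv_lhs => rw [Matrix.matrix_eq_sum_single A]
  rw [map_sum]
  refine Finset.sum_congr rfl fun a _ => ?_
  rw [map_sum]
  refine Finset.sum_congr rfl fun b _ => ?_
  have : Matrix.single a b (A a b) = A a b • Matrix.single a b (1 : ℂ) := by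
    rw [Matrix.smul_single, smul_eq_mul, mul_one]
  rw [this, map_smul, smul_eq_mul]

/-- **Polarization.** -/
theorem polar (Λ : Op N →ₗ[ℂ] ℂ) (hΛ : ∀ A, ‖Λ A‖ ≤ ‖A‖) (ε : ℝ) (hε0 : 0 ≤ ε)
    (hε : ∀ X : Fin N → M2, AllOK X → ‖Λ (tensor X)‖ ≤ ε) (Z : Fin N → M2)
    (hZ : ∀ s, Pol (Z s)) : ‖Λ (tensor Z)‖ ≤ Real.sqrt ε := by
  choose f h1 h2 h3 h4 using hZ
  set G : ℂ → ℂ := fun z => Λ (tensor fun s => f s z) with hG
  have hGd : Differentiable ℂ G := by
    have : G = fun z => ∑ a, ∑ b, (∏ s, f s z (a s) (b s)) * Λ (Matrix.single a b 1) := by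
      funext z
      rw [hG]
      simp only
      rw [linear_expand]
      rfl
    rw [this]
    refine Differentiable.fun_sum fun a _ => Differentiable.fun_sum fun b _ => ?_
    refine Differentiable.mul ?_ (differentiable_const _)
    exact Differentiable.fun_finset_prod fun s _ => h1 s _ _
  have hstrip : ∀ z : ℂ, 0 ≤ z.re → z.re ≤ 1 → ‖G z‖ ≤ 1 := by
    intro z h0 h1'
    refine (hΛ _).trans (norm_tensor_le_one _ fun s => h2 s z h0 h1')
  have hleft : ∀ z ∈ Complex.re ⁻¹' {(0 : ℝ)}, ‖G z‖ ≤ ε := by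
    intro z hz
    have hz0 : z.re = 0 := hz
    choose κ Y h5 h6 h7 using fun s => h3 s z hz0
    have e : (tensor fun s => f s z) = (∏ s, κ s) • tensor Y := by
      rw [← tensor_smul']
      congr 1
      funext s
      exact h7 s
    simp only [hG]
    rw [e, map_smul, smul_eq_mul, norm_mul, norm_prod]
    have h8 : ∏ s, ‖κ s‖ ≤ 1 := Finset.prod_le_one (fun _ _ => norm_nonneg _) fun s _ => h5 s
    have h9 := hε Y h6
    have h10 := norm_nonneg (Λ (tensor Y))
    calc _ ≤ 1 * ‖Λ (tensor Y)‖ := by gcongr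
      _ ≤ ε := by rw [one_mul]; exact h9
  have hright : ∀ z ∈ Complex.re ⁻¹' {(1 : ℝ)}, ‖G z‖ ≤ 1 := by
    intro z hz
    have hz1 : z.re = 1 := hz
    exact hstrip z (by rw [hz1]; norm_num) (by rw [hz1])
  have hB : BddAbove ((norm ∘ G) '' Complex.HadamardThreeLines.verticalClosedStrip 0 1) := by
    refine ⟨1, ?_⟩
    rintro _ ⟨z, hz, rfl⟩
    exact hstrip z hz.1 hz.2
  have hmem : (1 / 2 : ℂ) ∈ Complex.HadamardThreeLines.verticalClosedStrip 0 1 := by
    constructor <;> norm_num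
  have hfin := Complex.HadamardThreeLines.norm_le_interp_of_mem_verticalClosedStrip₀₁' G hmem
    hGd.diffContOnCl hB hleft hright
  have hre : (1 / 2 : ℂ).re = 1 / 2 := by norm_num
  rw [hre, Real.one_rpow, mul_one] at hfin
  have e2 : (1 : ℝ) - 1 / 2 = 1 / 2 := by norm_num
  rw [e2, ← Real.sqrt_eq_rpow] at hfin
  have e3 : (tensor fun s => f s (1 / 2)) = tensor Z := by
    congr 1
    funext s
    exact h4 s
  simp only [hG, e3] at hfin
  exact hfin

end Vale.Agent.Lib.P368z
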