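import Vale.Agent.Lib.P368z.Jensen
import Vale.Agent.Lib.P368z.Corollaries

/-!
The parity correlation of circuits of every depth: the rate is squared at every layer other than the
first two and the last one.
-/

open scoped BigOperators Matrix Matrix.Norms.L2Operator

namespace Vale.Agent.Lib.P368z

open Vale.Agent.Lib.P368x Vale.Agent.Lib.P368y

variable {N : ℕ}

/-- The rate of the sharp chain, with all constants collected. -/
lemma rate_compare (n M : ℕ) (hM : 1 ≤ M) (k : ℕ) :
    (M : ℝ) * ((n : ℝ) / (10 ^ 93 * M)) ^ (2 ^ k)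
      ≤ 516 * (M : ℝ) * ((n : ℝ) / 10 ^ 90 / (516 * M)) ^ (2 ^ k) := by
  have hM' : (0 : ℝ) < M := by exact_mod_cast hM
  have hn : (0 : ℝ) ≤ n := Nat.cast_nonneg n
  have h1 : (n : ℝ) / (10 ^ 93 * M) ≤ (n : ℝ) / 10 ^ 90 / (516 * M) := by
    rw [div_div]
    apply div_le_div_of_nonneg_left hn (by positivity)
    have : (10 : ℝ) ^ 90 * (516 * M) ≤ 10 ^ 93 * M := by
      have e : (10 : ℝ) ^ 93 = 10 ^ 90 * 1000 := by norm_num
      rw [e]
      have h2 : (0 : ℝ) < 10 ^ 90 := by positivity
      nlinarith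
    exact this
  have h2 : ((n : ℝ) / (10 ^ 93 * M)) ^ (2 ^ k) ≤ ((n : ℝ) / 10 ^ 90 / (516 * M)) ^ (2 ^ k) :=
    pow_le_pow_left₀ (by positivity) h1 _
  have h3 : 0 ≤ ((n : ℝ) / (10 ^ 93 * M)) ^ (2 ^ k) := by positivity
  calc (M : ℝ) * ((n : ℝ) / (10 ^ 93 * M)) ^ (2 ^ k)
      ≤ (M : ℝ) * ((n : ℝ) / 10 ^ 90 / (516 * M)) ^ (2 ^ k) := by gcongr
    _ ≤ 516 * (M : ℝ) * ((n : ℝ) / 10 ^ 90 / (516 * M)) ^ (2 ^ k) := by
        have h4 : 0 ≤ (M : ℝ) * ((n : ℝ) / 10 ^ 90 / (516 * M)) ^ (2 ^ k) := by positivity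
        nlinarith

/-- The parity correlation of any circuit: if the layers other than the first two and the last one
have at most `M` gates and `n ≤ M`, the rate is squared at every such layer. -/
theorem any_depth₂ {n : ℕ} (C : Circuit N) (inp : Fin n ↪ Fin N) (q : Fin N) (M : ℕ) (hM : 1 ≤ M)
    (hn : n ≤ M) (hmid : ∀ s ∈ (C.steps.drop 2).dropLast, s.1.gates.length ≤ M) :
    (C.unitary)ᴴ * C.unitary = 1 ∧
      |correlation C inp q|
        ≤ 14 * Real.exp (-((M : ℝ) * ((n : ℝ) / (10 ^ 93 * M)) ^ (2 ^ (C.steps.length - 3)))) := by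
  have hM' : (0 : ℝ) < M := by exact_mod_cast hM
  have hcorr : ∀ (C : Circuit N) (c : ℝ), ‖E (Finset.univ.map inp) ((C.unitary)ᴴ * Zs q * C.unitary)
      (zeroStr N) (zeroStr N)‖ ≤ c → |correlation C inp q| ≤ c := by
    intro C c h
    have h' := correlation_eq C inp q
    rw [← h', Complex.norm_real, Real.norm_eq_abs] at h
    exact h
  -- circuits of depth at most three
  have hthree : ∀ C : Circuit N, C.steps.length ≤ 3 → (C.unitary)ᴴ * C.unitary = 1 ∧
      |correlation C inp q|
        ≤ 14 * Real.exp (-((M : ℝ) * ((n : ℝ) / (10 ^ 93 * M)) ^ (2 ^ (C.steps.length - 3)))) := by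
    intro C hC
    obtain ⟨h1, h2⟩ := depth_three_linear C hC inp q
    refine ⟨h1, h2.trans ?_⟩
    have e : C.steps.length - 3 = 0 := by omega
    rw [e, pow_zero, pow_one]
    have e2 : (M : ℝ) * ((n : ℝ) / (10 ^ 93 * M)) = (n : ℝ) / 10 ^ 93 := by
      field_simp
    rw [e2]
    have h3 : -(n : ℝ) / 10 ^ 90 ≤ -((n : ℝ) / 10 ^ 93) := by
      have hn0 : (0 : ℝ) ≤ n := Nat.cast_nonneg n
      rw [neg_div]
      apply neg_le_neg
      apply div_le_div_of_nonneg_left hn0 (by positivity) (by norm_num)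
    have := Real.exp_le_exp.mpr h3
    linarith
  obtain ⟨V₁, steps⟩ := C
  set I := Finset.univ.map inp with hI
  have hIc : I.card = n := by simp [hI]
  match steps, hmid with
  | [], _ => exact hthree _ (by simp)
  | [s₁], _ => exact hthree _ (by simp)
  | (L₁, V₂) :: (L₂, V₃) :: rest, hmid =>
    obtain ⟨b, W, hb, hU, hW, hT⟩ := base_two₂ I n hIc V₁ V₂ V₃ L₁ L₂
    rcases List.eq_nil_or_concat rest with rfl | ⟨mid, last, hrest⟩
    · exact hthree _ (by simp)
    · rw [List.concat_eq_append] at hrest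
      subst hrest
      have hmid' : ∀ s ∈ mid, s.1.gates.length ≤ M := by
        intro s hs
        apply hmid s
        simp only [List.drop_succ_cons, List.drop_zero]
        rw [List.dropLast_concat]
        exact hs
      have hν0 : 0 ≤ (n : ℝ) / 10 ^ 90 := by positivity
      have hνM : (n : ℝ) / 10 ^ 90 ≤ M := by
        have h1 : (n : ℝ) ≤ M := by exact_mod_cast hn
        have h2 : (n : ℝ) / 10 ^ 90 ≤ n := div_le_self (Nat.cast_nonneg n) (by norm_num)
        linarith
      obtain ⟨b', W', hb', h2, hW', hT'⟩ := chain₂ I M hM mid hmid' b hb W hW _ hν0 hνM hT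
      obtain ⟨Lt, Vt⟩ := last
      have hu : (Circuit.unitary ⟨V₁, (L₁, V₂) :: (L₂, V₃) :: (mid ++ [(Lt, Vt)])⟩ : Op N)
          = Vt.op * Lt.op * (tensor b' * W') := by
        simp only [Circuit.unitary, List.foldl_cons, List.foldl_append, List.foldl_nil]
        rw [hU, h2]
      have hlen : ((L₁, V₂) :: (L₂, V₃) :: (mid ++ [(Lt, Vt)])).length - 3 = mid.length := by
        simp only [List.length_cons, List.length_append, List.length_nil]
        omega
      constructor
      · rw [hu, frame_step b' hb' Lt Vt W', Matrix.conjTranspose_mul]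
        have hcu : ∀ i, Uni (Vt.mat i * b' i) := fun i => (Vt.mat_uni i).mul (hb' i)
        have hG := unitary_step hW' (Lt.gates.map fun g => g.conj b' hb')
        calc (lop (Lt.gates.map fun g => g.conj b' hb') * W')ᴴ * (tensor fun i => Vt.mat i * b' i)ᴴ
              * ((tensor fun i => Vt.mat i * b' i) * (lop (Lt.gates.map fun g => g.conj b' hb') * W'))
            = (lop (Lt.gates.map fun g => g.conj b' hb') * W')ᴴ
              * ((tensor fun i => Vt.mat i * b' i)ᴴ * (tensor fun i => Vt.mat i * b' i))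
              * (lop (Lt.gates.map fun g => g.conj b' hb') * W') := by simp only [mul_assoc]
          _ = 1 := by rw [tensor_unitary hcu, mul_one, hG]
      · apply hcorr
        rw [hu]
        simp only
        rw [hlen]
        have := top_bound I b' hb' W' hW' Lt Vt q _ (by positivity) (fun X hX _ => hT' X hX)
        refine this.trans ?_
        have h5 := rate_compare n M hM mid.length
        have h6 := Real.exp_le_exp.mpr (neg_le_neg h5)
        linarith

/-- The parity correlation of any circuit, in terms of the number of qubits. -/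
theorem any_depth_qubits {n : ℕ} (C : Circuit N) (inp : Fin n ↪ Fin N) (q : Fin N) :
    (C.unitary)ᴴ * C.unitary = 1 ∧
      |correlation C inp q|
        ≤ 14 * Real.exp (-((N : ℝ) * ((n : ℝ) / (10 ^ 93 * N)) ^ (2 ^ (C.steps.length - 3)))) := by
  have hN : 1 ≤ N := by
    have := q.2
    omega
  have hn : n ≤ N := by
    have := Fintype.card_le_of_injective inp inp.injective
    simpa using this
  exact any_depth₂ C inp q N hN hn fun s _ => Layer.length_le s.1

/-- Entangling depth four: the bound in the number of gates of the third layer under the last gate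
on the measured qubit. -/
theorem depth_four_last₂ {n : ℕ} (V₁ V₂ V₃ V₄ V₅ : OneQubitLayer N) (L₁ L₂ L₃ L₄ : Layer N)
    (inp : Fin n ↪ Fin N) (q : Fin N) (M : ℕ) (hM : 1 ≤ M) (hn : n ≤ M)
    (hcount : ∀ g ∈ L₄.gates, q ∈ g.support →
      (L₃.gates.filter fun h => ¬ Disjoint h.support g.support).length ≤ M) :
    (Circuit.unitary ⟨V₁, [(L₁, V₂), (L₂, V₃), (L₃, V₄), (L₄, V₅)]⟩ : Op N)ᴴ
        * Circuit.unitary ⟨V₁, [(L₁, V₂), (L₂, V₃), (L₃, V₄), (L₄, V₅)]⟩ = 1 ∧
      |correlation (⟨V₁, [(L₁, V₂), (L₂, V₃), (L₃, V₄), (L₄, V₅)]⟩ : Circuit N) inp q|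
        ≤ 14 * Real.exp (-((n : ℝ) ^ 2 / (10 ^ 186 * M))) := by
  have hM' : (0 : ℝ) < M := by exact_mod_cast hM
  set I := Finset.univ.map inp with hI
  have hIc : I.card = n := by simp [hI]
  obtain ⟨b, W, hb, hU, hW, hT⟩ := base_two₂ I n hIc V₁ V₂ V₃ L₁ L₂
  set gs₃ := L₃.gates.map fun g => g.conj b hb with hgs₃
  have hd₃ : gs₃.Pairwise fun g h => Disjoint g.S h.S := L₃.conj_pairwise b hb
  set c : Fin N → M2 := fun i => V₄.mat i * b i with hc
  have hcu : ∀ i, Uni (c i) := fun i => (V₄.mat_uni i).mul (hb i)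
  have hU₃ : V₄.op * L₃.op * (V₃.op * L₂.op * (V₂.op * L₁.op * V₁.op)) = tensor c * (lop gs₃ * W) := by
    rw [hU, frame_step b hb L₃ V₄ W]
  have hu : (Circuit.unitary ⟨V₁, [(L₁, V₂), (L₂, V₃), (L₃, V₄), (L₄, V₅)]⟩ : Op N)
      = V₅.op * L₄.op * (tensor c * (lop gs₃ * W)) := by
    simp only [Circuit.unitary, List.foldl_cons, List.foldl_nil]
    rw [hU₃]
  have hW₃ : (lop gs₃ * W)ᴴ * (lop gs₃ * W) = 1 := unitary_step hW gs₃
  have hν0 : 0 ≤ (n : ℝ) / 10 ^ 90 := by positivity
  have hνM : (n : ℝ) / 10 ^ 90 ≤ M := by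
    have h1 : (n : ℝ) ≤ M := by exact_mod_cast hn
    have h2 : (n : ℝ) / 10 ^ 90 ≤ n := div_le_self (Nat.cast_nonneg n) (by norm_num)
    linarith
  constructor
  · rw [hu, frame_step c hcu L₄ V₅ _, Matrix.conjTranspose_mul]
    have hdu : ∀ i, Uni (V₅.mat i * c i) := fun i => (V₅.mat_uni i).mul (hcu i)
    have hG := unitary_step hW₃ (L₄.gates.map fun g => g.conj c hcu)
    set G := lop (L₄.gates.map fun g => g.conj c hcu) * (lop gs₃ * W) with hGdef
    calc Gᴴ * (tensor fun i => V₅.mat i * c i)ᴴ * ((tensor fun i => V₅.mat i * c i) * G)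
        = Gᴴ * ((tensor fun i => V₅.mat i * c i)ᴴ * (tensor fun i => V₅.mat i * c i)) * G := by
          simp only [mul_assoc]
      _ = 1 := by rw [tensor_unitary hdu, mul_one, hG]
  · have hcorr := correlation_eq (⟨V₁, [(L₁, V₂), (L₂, V₃), (L₃, V₄), (L₄, V₅)]⟩ : Circuit N) inp q
    have hbound : ‖E I ((V₅.op * L₄.op * (tensor c * (lop gs₃ * W)))ᴴ * Zs q
        * (V₅.op * L₄.op * (tensor c * (lop gs₃ * W)))) (zeroStr N) (zeroStr N)‖
        ≤ 7 * (2 * Real.exp (-(((n : ℝ) / 10 ^ 90) ^ 2 / (516 * M)))) := by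
      refine top_bound I c hcu (lop gs₃ * W) hW₃ L₄ V₅ q _ (by positivity) fun X hX hsup => ?_
      refine test_step₂ (norm_of_unitary hW) _ hν0 M hM hνM hT gs₃ hd₃ X hX ?_
      intro L' hL' hmeet
      rcases hsup with h1 | ⟨g, hg, hq, h2⟩
      · have h3 : ∀ h ∈ L', q ∈ h.S := by
          intro h hh
          obtain ⟨s, hs, hs1⟩ := hmeet h hh
          by_cases hsq : s = q
          · exact hsq ▸ hs
          · exact absurd (h1 s hsq) hs1
        exact (common_mem_length_le (hd₃.sublist hL') q h3).trans (by omega)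
      · have h3 : ∀ h ∈ L', ¬ Disjoint h.S g.support := by
          intro h hh hdj
          obtain ⟨s, hs, hs1⟩ := hmeet h hh
          exact hs1 (h2 s fun hsg => Finset.disjoint_left.mp hdj hs hsg)
        have h4 : L' = L'.filter fun h => ¬ Disjoint h.S g.support :=
          (List.filter_eq_self.mpr (by simpa using h3)).symm
        have h5 : (L'.filter fun h => ¬ Disjoint h.S g.support).length
            ≤ (gs₃.filter fun h => ¬ Disjoint h.S g.support).length :=
          (hL'.filter _).length_le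
        have h6 : (gs₃.filter fun h => ¬ Disjoint h.S g.support).length
            = (L₃.gates.filter fun h => ¬ Disjoint h.support g.support).length := by
          rw [hgs₃, List.filter_map, List.length_map]
          rfl
        rw [h4]
        refine h5.trans ?_
        rw [h6]
        exact hcount g hg hq
    rw [← hu] at hbound
    rw [← hcorr, Complex.norm_real, Real.norm_eq_abs] at hbound
    refine hbound.trans ?_
    have hle : (n : ℝ) ^ 2 / (10 ^ 186 * M) ≤ ((n : ℝ) / 10 ^ 90) ^ 2 / (516 * M) := by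
      rw [div_pow, div_div]
      apply div_le_div_of_nonneg_left (by positivity) (by positivity)
      have e : (10 : ℝ) ^ 186 = (10 ^ 90) ^ 2 * 10 ^ 6 := by norm_num
      rw [e]
      have h2 : (0 : ℝ) < (10 ^ 90) ^ 2 := by positivity
      nlinarith
    have h6 := Real.exp_le_exp.mpr (neg_le_neg hle)
    linarith

end Vale.Agent.Lib.P368z
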